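import Vale.Agent.P106.U.H480.Rep
import Vale.Agent.P106.U.H523.Lab

/-!
# P106 / U / H480 : GROW and BASIC (TEXT S1, note 17579, (4)) over `U/H61/Mac` (helper480)

* `PCls` : comparison of the classes (489 : `clsX`).
* `val_det` : the value of a label of deterministic shape.
* `labC` : LAB for labels of a larger class `c' ≥ c`.
* `grow` : `(3 + lam) b ≤ H(plb b h (l, t) | W, t_h, C, G) + k' b + small h + ...`, also after extension and conditioning.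
* `growv` : the same for any letter which determines `plb b` together with `W`.
* `basic` : upper bound of `H(l | A, t_a, C, G) - H(l | W, t_h, C, G)` for every label `A` of deterministic shape.
* `basicI` : the same for `I(l ; (W, t_h) | A, t_a, C, G)`.
-/

set_option autoImplicit false

namespace Vale.Agent.P106.U.G480

open Vale.Agent.P127 Vale.Agent.P127.Stk Vale.Agent.P127.U Vale.Agent.P106.W Vale.Agent.P106.K Vale.Agent.P106.U
open Vale.Agent.P106.U.H523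

/-- **CLS** : comparison of the classes -/
def PCls : Prop :=
  ∀ c c' lam k : ℝ, 1 ≤ c → c ≤ c' → 0 ≤ lam → lam ≤ 1 → 0 ≤ k → ∃ K : ℝ, ∀ (Ω : Type) [Fintype Ω]
    (γ : Type) (P : Law Ω) (l : Ω → Ry) (t : Ω → ℝ) (C : Ω → γ) (e : Ω → ℕ × ℕ) (L a : ℕ), a ≤ L → SyOk P l t →
    XX c' lam k 0 P l t C e L a ≤ XX c lam k 0 P l t C e L a + K

theorem LbOk.cls {c c' : ℝ} (h : c ≤ c') {L a : ℕ} {B : Cbx} {l : Ry} {t : ℝ} (hB : LbOk c L a B l t) :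
    LbOk c' L a B l t := by
  obtain ⟨b, R, hb, hR, hbR, haR⟩ := hB.sh
  have hu1 : 0 ≤ B.u1 := by rw [hR]; positivity
  have hu2 : 0 ≤ B.u2 := by rw [hb]; positivity
  refine ⟨⟨b, R, hb, hR, hbR, haR⟩, hB.α2.trans h, hB.κ2.trans h, ?_⟩
  obtain ⟨i1, i2, i3, i4, i5⟩ := hB.inn
  have hm : 0 ≤ max (B.u2 ^ 2) (0 : ℝ) := le_max_right _ _
  exact ⟨fun k => (i1 k).trans (mul_le_mul_of_nonneg_right h hu2), fun k => (i2 k).trans (mul_le_mul_of_nonneg_right h hu2),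
    i3.trans (mul_le_mul_of_nonneg_right h hm), i4.trans (mul_le_mul_of_nonneg_right h hu1),
    i5.trans (mul_le_mul_of_nonneg_right h hu1)⟩

section finite

variable {Ω : Type} [Fintype Ω] {γ : Type}

/-- the value of a label of deterministic shape -/
theorem val_det {lam : ℝ} {P : Law Ω} {l : Ω → Ry} {t : Ω → ℝ} {C : Ω → γ} {a b R : ℕ} {W : Ω → Cbx}
    (h : ∀ ω, 0 < P.w ω → (W ω).u2 = (1 / 2 : ℝ) ^ b ∧ (W ω).u1 = (1 / 2 : ℝ) ^ R) :
    val lam P l t C a W = Stk.hc P l (fun ω => (W ω, fl1 a (t ω), C ω)) +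
      (3 * a + (3 + lam) * b + (1 - lam) * R) * Real.log 2 := by
  unfold val
  have e : (P.ex fun ω => (3 + lam) * Real.log (W ω).u2 + (1 - lam) * Real.log (W ω).u1) =
      P.ex fun _ => -(((3 + lam) * b + (1 - lam) * R) * Real.log 2) := by
    refine P.ex_congr fun ω hω => ?_
    obtain ⟨h1, h2⟩ := h ω hω
    rw [h1, h2, Real.log_pow, Real.log_pow, one_div, Real.log_inv]
    ring
  rw [e, P.ex_const]
  ring

end finite

/-- **LAB** for labels of a larger class -/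
theorem labC (hcl : PCls) (hlab : PLab) : ∀ lam N k k' β β' : ℝ, 0 ≤ lam → lam ≤ 1 → 0 ≤ k → k ≤ k' → 0 ≤ N →
    FIXA lam N k' β' → ∀ c c' : ℝ, 1 ≤ c → c ≤ c' → ∀ ε : ℝ, 0 < ε → ∃ K : ℝ, 0 ≤ K ∧ ∀ (d : ℝ) (Ω : Type) [Fintype Ω]
      (γ : Type) (P : Law Ω) (l : Ω → Ry) (t : Ω → ℝ) (C : Ω → γ) (L h q : ℕ) (W : Ω → Cbx), 1 ≤ h →
      NEx c lam N k β d P l t C L h q W →
      ∀ (Ω' : Type) [Fintype Ω'] (P' : Law Ω') (π : Ω' → Ω), (∀ ω, P'.pr π ω = P.w ω) →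
      ∀ (δ : Type) (G : Ω' → δ) (a b R : ℕ) (A : Ω' → Cbx), a ≤ L →
      (∀ ω, 0 < P'.w ω → LbOk c' L a (A ω) (l (π ω)) (t (π ω)) ∧ (A ω).u2 = (1 / 2 : ℝ) ^ b ∧ (A ω).u1 = (1 / 2 : ℝ) ^ R) →
      val lam P' (fun ω => l (π ω)) (fun ω => t (π ω)) (fun ω => (C (π ω), G ω)) a A ≤
        val lam P' (fun ω => l (π ω)) (fun ω => t (π ω)) (fun ω => (C (π ω), G ω)) h (fun ω => W (π ω)) -
        (β - d) * h * Real.log 2 + (β' + ε) * a * Real.log 2 -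
        N * (Dd P' (fun ω => l (π ω)) (fun ω => t (π ω)) (fun ω => (C (π ω), G ω)) h -
          Dd P' (fun ω => l (π ω)) (fun ω => t (π ω)) (fun ω => (C (π ω), G ω)) a) +
        k' * ((b : ℝ) + |(R : ℝ) - q|) * Real.log 2 +
        Stk.hc P' G (fun ω => (W (π ω), fl1 h (t (π ω)), C (π ω))) +
        N * Stk.hc P' G (fun ω => (l (π ω), C (π ω))) + K := by
  intro lam N k k' β β' h0 h1 hk hkk hN hF c c' hc hcc ε hε
  obtain ⟨K1, hK1⟩ := hcl c c' lam k hc hcc h0 h1 hk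
  obtain ⟨K2, hK2⟩ := hlab lam N k k' β β' h0 h1 hk hkk hN hF c' (hc.trans hcc) ε hε
  refine ⟨max (K1 + K2) 0, le_max_right _ _, ?_⟩
  intro d Ω _ γ P l t C L h q W hh hne Ω' _ P' π g1 δ G a b R A haL hA
  have hl2 : 0 < Real.log 2 := Real.log_pos (by norm_num)
  have hh' : (0 : ℝ) < h := by exact_mod_cast hh
  have hne' : NEx c' lam N k β (d + K1 / (h * Real.log 2)) P l t C L h q W := by
    refine ⟨hne.ok, hne.hL, fun ω hω => ⟨LbOk.cls hcc (hne.lb ω hω).1, (hne.lb ω hω).2⟩, ?_⟩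
    have e1 := hK1 Ω γ P l t C (fun _ => (0, q)) L 0 (Nat.zero_le L) hne.ok
    have e2 := hne.ex
    have e3 : (β - (d + K1 / (h * Real.log 2))) * h * Real.log 2 = (β - d) * h * Real.log 2 - K1 := by
      field_simp
      ring
    rw [e3]
    linarith
  have key := hK2 (d + K1 / (h * Real.log 2)) Ω γ P l t C L h q W hne' Ω' P' π g1 δ G a b R A haL hA
  have e3 : (β - (d + K1 / (h * Real.log 2))) * h * Real.log 2 = (β - d) * h * Real.log 2 - K1 := by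
    field_simp
    ring
  rw [e3] at key
  have := le_max_left (K1 + K2) 0
  linarith

/-- **BASIC** : labels `A` of deterministic shape `(b, R)` of the level `a`, class `c'` -/
theorem basic (hcl : PCls) (hlab : PLab) : ∀ lam N k k' β β' : ℝ, 0 ≤ lam → lam ≤ 1 → 0 ≤ k → k ≤ k' → 0 ≤ N →
    FIXA lam N k' β' → ∀ c c' : ℝ, 1 ≤ c → c ≤ c' → ∀ ε : ℝ, 0 < ε → ∃ K : ℝ, 0 ≤ K ∧ ∀ (d : ℝ) (Ω : Type) [Fintype Ω]
      (γ : Type) (P : Law Ω) (l : Ω → Ry) (t : Ω → ℝ) (C : Ω → γ) (L h q : ℕ) (W : Ω → Cbx), 1 ≤ h →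
      NEx c lam N k β d P l t C L h q W →
      ∀ (Ω' : Type) [Fintype Ω'] (P' : Law Ω') (π : Ω' → Ω), (∀ ω, P'.pr π ω = P.w ω) →
      ∀ (δ : Type) (G : Ω' → δ) (a b R : ℕ) (A : Ω' → Cbx), a ≤ L →
      (∀ ω, 0 < P'.w ω → LbOk c' L a (A ω) (l (π ω)) (t (π ω)) ∧ (A ω).u2 = (1 / 2 : ℝ) ^ b ∧ (A ω).u1 = (1 / 2 : ℝ) ^ R) →
      Stk.hc P' (fun ω => l (π ω)) (fun ω => (A ω, fl1 a (t (π ω)), C (π ω), G ω)) -
          Stk.hc P' (fun ω => l (π ω)) (fun ω => (W (π ω), fl1 h (t (π ω)), C (π ω), G ω)) ≤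
        (3 * ((h : ℝ) - a) - (3 + lam) * b + (1 - lam) * ((q : ℝ) - R)) * Real.log 2 -
        (β - d) * h * Real.log 2 + (β' + ε) * a * Real.log 2 -
        N * (Dd P' (fun ω => l (π ω)) (fun ω => t (π ω)) (fun ω => (C (π ω), G ω)) h -
          Dd P' (fun ω => l (π ω)) (fun ω => t (π ω)) (fun ω => (C (π ω), G ω)) a) +
        k' * ((b : ℝ) + |(R : ℝ) - q|) * Real.log 2 +
        Stk.hc P' G (fun ω => (W (π ω), fl1 h (t (π ω)), C (π ω))) +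
        N * Stk.hc P' G (fun ω => (l (π ω), C (π ω))) + K := by
  intro lam N k k' β β' h0 h1 hk hkk hN hF c c' hc hcc ε hε
  obtain ⟨K, hK0, hK⟩ := labC hcl hlab lam N k k' β β' h0 h1 hk hkk hN hF c c' hc hcc ε hε
  refine ⟨K, hK0, ?_⟩
  intro d Ω _ γ P l t C L h q W hh hne Ω' _ P' π g1 δ G a b R A haL hA
  have key := hK d Ω γ P l t C L h q W hh hne Ω' P' π g1 δ G a b R A haL hA
  have hpos : ∀ ω, 0 < P'.w ω → 0 < P.w (π ω) := fun ω hω => by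
    rw [← g1]
    exact P'.pr_pos π hω
  have v1 := val_det (lam := lam) (P := P') (l := fun ω => l (π ω)) (t := fun ω => t (π ω))
    (C := fun ω => (C (π ω), G ω)) (a := a) (b := b) (R := R) (W := A) (fun ω hω => (hA ω hω).2)
  have v2 := val_det (lam := lam) (P := P') (l := fun ω => l (π ω)) (t := fun ω => t (π ω))
    (C := fun ω => (C (π ω), G ω)) (a := h) (b := 0) (R := q) (W := fun ω => W (π ω)) (fun ω hω => by
      obtain ⟨-, w2, w3⟩ := hne.lb (π ω) (hpos ω hω)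
      exact ⟨by rw [w2, pow_zero], w3⟩)
  rw [v1, v2] at key
  have e0 : ((0 : ℕ) : ℝ) = 0 := Nat.cast_zero
  rw [e0] at key
  nlinarith

/-- dropping digits -/
theorem fl1_co {s s' : ℕ} (h : s ≤ s') {v w : ℝ} (hv : fl1 s' v = fl1 s' w) : fl1 s v = fl1 s w :=
  congrFun (Stk.fl_of_fl h (fun _ : Unit => v) (fun _ : Unit => w) (funext fun _ => hv)) ()

/-- **BASIC** for the information `I(l ; W, t_h | A, t_a, C, G)`, `a ≤ h` -/
theorem basicI (hcl : PCls) (hlab : PLab) : ∀ lam N k k' β β' : ℝ, 0 ≤ lam → lam ≤ 1 → 0 ≤ k → k ≤ k' → 0 ≤ N →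
    FIXA lam N k' β' → ∀ c c' : ℝ, 1 ≤ c → c ≤ c' → ∀ ε : ℝ, 0 < ε → ∃ K : ℝ, 0 ≤ K ∧ ∀ (d : ℝ) (Ω : Type) [Fintype Ω]
      (γ : Type) (P : Law Ω) (l : Ω → Ry) (t : Ω → ℝ) (C : Ω → γ) (L h q : ℕ) (W : Ω → Cbx), 1 ≤ h →
      NEx c lam N k β d P l t C L h q W →
      ∀ (Ω' : Type) [Fintype Ω'] (P' : Law Ω') (π : Ω' → Ω), (∀ ω, P'.pr π ω = P.w ω) →
      ∀ (δ : Type) (G : Ω' → δ) (a b R : ℕ) (A : Ω' → Cbx), a ≤ h →
      (∀ ω, 0 < P'.w ω → LbOk c' L a (A ω) (l (π ω)) (t (π ω)) ∧ (A ω).u2 = (1 / 2 : ℝ) ^ b ∧ (A ω).u1 = (1 / 2 : ℝ) ^ R) →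
      Stk.hc P' (fun ω => l (π ω)) (fun ω => (A ω, fl1 a (t (π ω)), C (π ω), G ω)) -
          Stk.hc P' (fun ω => l (π ω)) (fun ω => ((W (π ω), fl1 h (t (π ω))), (A ω, fl1 a (t (π ω)), C (π ω), G ω))) ≤
        (3 * ((h : ℝ) - a) - (3 + lam) * b + (1 - lam) * ((q : ℝ) - R)) * Real.log 2 -
        (β - d) * h * Real.log 2 + (β' + ε) * a * Real.log 2 -
        N * (Dd P' (fun ω => l (π ω)) (fun ω => t (π ω)) (fun ω => (C (π ω), G ω)) h -
          Dd P' (fun ω => l (π ω)) (fun ω => t (π ω)) (fun ω => (C (π ω), G ω)) a) +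
        k' * ((b : ℝ) + |(R : ℝ) - q|) * Real.log 2 +
        Stk.hc P' A (fun ω => (W (π ω), fl1 h (t (π ω)), C (π ω), G ω)) +
        Stk.hc P' G (fun ω => (W (π ω), fl1 h (t (π ω)), C (π ω))) +
        N * Stk.hc P' G (fun ω => (l (π ω), C (π ω))) + K := by
  intro lam N k k' β β' h0 h1 hk hkk hN hF c c' hc hcc ε hε
  obtain ⟨K, hK0, hK⟩ := basic hcl hlab lam N k k' β β' h0 h1 hk hkk hN hF c c' hc hcc ε hε
  refine ⟨K, hK0, ?_⟩
  intro d Ω _ γ P l t C L h q W hh hne Ω' _ P' π g1 δ G a b R A hah hA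
  have key := hK d Ω γ P l t C L h q W hh hne Ω' P' π g1 δ G a b R A (by have := hne.hL; omega) hA
  have e1 := Stk.hc_le_add' P' (fun ω => l (π ω)) A (fun ω => (W (π ω), fl1 h (t (π ω)), C (π ω), G ω))
  have e4 := Stk.hc_mono_right P' (fun ω => l (π ω))
    (Y := fun ω => ((W (π ω), fl1 h (t (π ω))), (A ω, fl1 a (t (π ω)), C (π ω), G ω)))
    (Y' := fun ω => (A ω, (W (π ω), fl1 h (t (π ω)), C (π ω), G ω))) (fun ω ω' _ _ e => by
      simp only [Prod.mk.injEq] at e ⊢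
      exact ⟨⟨e.2.1, e.2.2.1⟩, e.1, fl1_co hah e.2.2.1, e.2.2.2⟩)
  linarith

/-- **GROW**, any letter `Z` which determines the plank of the block together with `W` -/
theorem growv (hcl : PCls) (hlab : PLab) : ∀ lam N k k' β β' : ℝ, 0 ≤ lam → lam ≤ 1 → 0 ≤ k → k ≤ k' → 0 ≤ N →
    FIXA lam N k' β' → ∀ c : ℝ, 1 ≤ c → ∀ ε : ℝ, 0 < ε → ∃ K : ℝ, 0 ≤ K ∧ ∀ (d : ℝ) (Ω : Type) [Fintype Ω]
      (γ : Type) (P : Law Ω) (l : Ω → Ry) (t : Ω → ℝ) (C : Ω → γ) (L h q : ℕ) (W : Ω → Cbx), 1 ≤ h →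
      NEx c lam N k β d P l t C L h q W →
      ∀ (Ω' : Type) [Fintype Ω'] (P' : Law Ω') (π : Ω' → Ω), (∀ ω, P'.pr π ω = P.w ω) →
      ∀ (δ : Type) (G : Ω' → δ) (b : ℕ), b ≤ q →
      (3 + lam) * b * Real.log 2 ≤
        Stk.hc P' (fun ω => plb b h (l (π ω)) (t (π ω))) (fun ω => (W (π ω), fl1 h (t (π ω)), C (π ω), G ω)) +
        k' * b * Real.log 2 + (β' + ε - β + d) * h * Real.log 2 +
        Stk.hc P' G (fun ω => (W (π ω), fl1 h (t (π ω)), C (π ω))) +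
        N * Stk.hc P' G (fun ω => (l (π ω), C (π ω))) + K := by
  intro lam N k k' β β' h0 h1 hk hkk hN hF c hc ε hε
  have h16 : c ≤ 16 * c ^ 2 := by nlinarith
  obtain ⟨K, hK0, hK⟩ := basic hcl hlab lam N k k' β β' h0 h1 hk hkk hN hF c (16 * c ^ 2) hc h16 ε hε
  refine ⟨K, hK0, ?_⟩
  intro d Ω _ γ P l t C L h q W hh hne Ω' _ P' π g1 δ G b hb
  have hpos : ∀ ω, 0 < P'.w ω → 0 < P.w (π ω) := fun ω hω => by
    rw [← g1]
    exact P'.pr_pos π hω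
  obtain ⟨A, hA, hfn⟩ := exists_sub hc (fun ω => 0 < P'.w ω) (l := fun ω => l (π ω)) (t := fun ω => t (π ω))
    (L := L) (a := h) (b0 := 0) (b := b) (R := q) (W := fun ω => W (π ω)) (fun ω hω => by
      obtain ⟨w1, w2, w3⟩ := hne.lb (π ω) (hpos ω hω)
      exact ⟨w1, by rw [w2, pow_zero], w3⟩) (Nat.zero_le b) hb hne.hL
  have key := hK d Ω γ P l t C L h q W hh hne Ω' P' π g1 δ G h b q A (by have := hne.hL; omega) hA
  have e1 := Stk.hc_le_add' P' (fun ω => l (π ω)) (fun ω => plb b h (l (π ω)) (t (π ω)))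
    (fun ω => (W (π ω), fl1 h (t (π ω)), C (π ω), G ω))
  have e2 := Stk.hc_mono_right P' (fun ω => l (π ω)) (Y := fun ω => (A ω, fl1 h (t (π ω)), C (π ω), G ω))
    (Y' := fun ω => (plb b h (l (π ω)) (t (π ω)), (W (π ω), fl1 h (t (π ω)), C (π ω), G ω))) (fun ω ω' _ _ e => by
      simp only [Prod.mk.injEq] at e ⊢
      exact ⟨hfn ω ω' e.2.1 e.1, e.2.2.1, e.2.2.2.1, e.2.2.2.2⟩)
  simp only [sub_self, mul_zero, abs_zero, add_zero, zero_sub] at key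
  nlinarith

end Vale.Agent.P106.U.G480
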