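import Vale.Agent.P106.U.H480.Cost

/-!
# P106 / U / H480 : row [AVG] of helper712's list (helper480)

Means over the values `z` of a word `Z` of sums over an index set `I z ⊆ J` which depends on the value.

* `prE_avg_dep`, `prE_avg_set` : probabilities of events `A i z`.
* `hc_avg_set`, `mi_avg_set` : entropies and informations for the laws `Q.cond Z z`, letters `X i z`, `E i z`, `D i z`; the result is a
  sum over `J` for `Q`, first letter `some (X i z)` if `i ∈ I z`, `none` otherwise, condition `(D i z, Z)`.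
* `mi_avg_set_le` : the same, the letters of `Q` may be replaced by letters which carry them.
* `mi_avg_setF`, `mi_avg_setF_le` : all three letters only where `i ∈ I z`.
-/

set_option autoImplicit false

namespace Vale.Agent.P106.U.G480

open Finset Vale.Agent.P127 Vale.Agent.P127.Stk Vale.Agent.P127.U Vale.Agent.P127.U.Nonat Vale.Agent.P127.U.YPat
open Vale.Agent.P127.U.JSB (hc_cond_sum cond_supp')
open Vale.Agent.P106.U.H565 (Dtm)

variable {Ω : Type} [Fintype Ω] {R S T U V : Type} {ι : Type}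

/-- events which depend on the value of the word -/
theorem prE_avg_dep (Q : Law Ω) (Z : Ω → S) (A : S → Ω → Prop) :
    Q.ex (fun ω => prE (Q.cond Z (Z ω)) (A (Z ω))) = prE Q (fun ω => A (Z ω) ω) := by
  rw [← prE_avg Q Z]
  refine Q.ex_congr fun ω hω => ?_
  have hz : 0 < Q.pr Z (Z ω) := Q.pr_pos Z hω
  rw [H565.prE_eq_ex, H565.prE_eq_ex]
  refine (Q.cond Z (Z ω)).ex_congr fun ω' h' => ?_
  rw [cond_supp' Q Z _ hz h']

/-- sums over index sets which depend on the value of the word -/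
theorem ex_sum_dep (Q : Law Ω) (Z : Ω → S) [DecidableEq ι] (J : Finset ι) (I : S → Finset ι)
    (hI : ∀ ω, 0 < Q.w ω → I (Z ω) ⊆ J) (f : ι → S → ℝ) :
    Q.ex (fun ω => ∑ i ∈ I (Z ω), f i (Z ω)) = ∑ i ∈ J, Q.ex (fun ω => if i ∈ I (Z ω) then f i (Z ω) else 0) := by
  rw [← H565.ex_sum' Q J fun i ω => if i ∈ I (Z ω) then f i (Z ω) else 0]
  refine Q.ex_congr fun ω hω => ?_
  rw [← Finset.sum_filter]
  refine Finset.sum_congr ?_ fun _ _ => rfl
  ext i
  simp only [Finset.mem_filter]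
  exact ⟨fun h => ⟨hI ω hω h, h⟩, fun h => h.2⟩

/-- **probabilities** -/
theorem prE_avg_set (Q : Law Ω) (Z : Ω → S) [DecidableEq ι] (J : Finset ι) (I : S → Finset ι)
    (hI : ∀ ω, 0 < Q.w ω → I (Z ω) ⊆ J) (A : ι → S → Ω → Prop) :
    Q.ex (fun ω => ∑ i ∈ I (Z ω), prE (Q.cond Z (Z ω)) (A i (Z ω))) =
      ∑ i ∈ J, prE Q (fun ω => i ∈ I (Z ω) ∧ A i (Z ω) ω) := by
  rw [ex_sum_dep Q Z J I hI fun i z => prE (Q.cond Z z) (A i z)]
  refine Finset.sum_congr rfl fun i _ => ?_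
  rw [← prE_avg_dep Q Z fun z ω => i ∈ I z ∧ A i z ω]
  refine Q.ex_congr fun ω _ => ?_
  split_ifs with h
  · rw [H565.prE_eq_ex, H565.prE_eq_ex]
    exact (Q.cond Z (Z ω)).ex_congr fun ω' _ => by simp only [h, true_and]
  · rw [H565.prE_eq_ex]
    have : (Q.cond Z (Z ω)).ex (fun ω' => Law.ind (i ∈ I (Z ω) ∧ A i (Z ω) ω')) =
        (Q.cond Z (Z ω)).ex (fun _ => 0) :=
      (Q.cond Z (Z ω)).ex_congr fun ω' _ => by rw [Law.ind_not (fun q => h q.1)]
    rw [this, Law.ex_const]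

/-- **informations** -/
theorem mi_avg_set (Q : Law Ω) (Z : Ω → S) [DecidableEq ι] (J : Finset ι) (I : S → Finset ι)
    (hI : ∀ ω, 0 < Q.w ω → I (Z ω) ⊆ J) (X : ι → S → Ω → U) (E : ι → S → Ω → V) (D : ι → S → Ω → T) :
    Q.ex (fun ω => ∑ i ∈ I (Z ω), mi (Q.cond Z (Z ω)) (X i (Z ω)) (E i (Z ω)) (D i (Z ω))) =
      ∑ i ∈ J, mi Q (fun ω => if i ∈ I (Z ω) then some (X i (Z ω) ω) else none) (fun ω => E i (Z ω) ω)
        (fun ω => (D i (Z ω) ω, Z ω)) := by
  rw [ex_sum_dep Q Z J I hI fun i z => mi (Q.cond Z z) (X i z) (E i z) (D i z)]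
  refine Finset.sum_congr rfl fun i _ => ?_
  rw [← mi_avg_flag1 (Q := Q) (D := fun ω => (D i (Z ω) ω, Z ω)) (Z := Z) (fun ω ω' _ _ e => (Prod.mk.inj e).2) (X i)
    (fun z => i ∈ I z) (E i)]
  refine Q.ex_congr fun ω hω => ?_
  have hz : 0 < Q.pr Z (Z ω) := Q.pr_pos Z hω
  have h : ∀ ω', 0 < (Q.cond Z (Z ω)).w ω' → Z ω' = Z ω := fun ω' h' => cond_supp' Q Z _ hz h'
  split_ifs
  · refine mi_congr_cond _ _ _ (fun a b ha hb e => ?_) (fun a b ha hb e => ?_)
    · simp only [h a ha, h b hb, Prod.mk.injEq] at e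
      exact e.1
    · simp only [h a ha, h b hb, Prod.mk.injEq]
      exact ⟨e, trivial⟩
  · rfl

/-- the same, other letters for `Q` : `D' i` is equivalent to `(D i z, Z)`, `X' i`, `E' i` carry `X i z`, `E i z` -/
theorem mi_avg_set_le {U' V' T' : Type} (Q : Law Ω) (Z : Ω → S) [DecidableEq ι] (J : Finset ι) (I : S → Finset ι)
    (hI : ∀ ω, 0 < Q.w ω → I (Z ω) ⊆ J) (X : ι → S → Ω → U) (E : ι → S → Ω → V) (D : ι → S → Ω → T)
    (X' : ι → Ω → U') (E' : ι → Ω → V') (D' : ι → Ω → T')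
    (h1 : ∀ i ∈ J, Fn Q (D' i) (fun ω => (D i (Z ω) ω, Z ω))) (h2 : ∀ i ∈ J, Fn Q (fun ω => (D i (Z ω) ω, Z ω)) (D' i))
    (h3 : ∀ i ∈ J, Fn Q (fun ω => if i ∈ I (Z ω) then some (X i (Z ω) ω) else none) (fun ω => (X' i ω, D' i ω)))
    (h4 : ∀ i ∈ J, Fn Q (fun ω => E i (Z ω) ω) (fun ω => (E' i ω, D' i ω))) :
    Q.ex (fun ω => ∑ i ∈ I (Z ω), mi (Q.cond Z (Z ω)) (X i (Z ω)) (E i (Z ω)) (D i (Z ω))) ≤
      ∑ i ∈ J, mi Q (X' i) (E' i) (D' i) := by
  rw [mi_avg_set Q Z J I hI X E D]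
  refine Finset.sum_le_sum fun i hi => ?_
  rw [mi_congr_cond Q _ _ (h2 i hi) (h1 i hi)]
  exact (mi_mono_left Q _ (h3 i hi)).trans (mi_mono_right Q _ (h4 i hi))

theorem mi_some (P : Law Ω) (X : Ω → U) (E : Ω → V) (D : Ω → T) :
    mi P (fun ω => some (X ω)) (fun ω => some (E ω)) (fun ω => some (D ω)) = mi P X E D := by
  refine le_antisymm ?_ ?_
  · refine (mi_mono_left P (X' := X) _ fun a b _ _ e => ?_).trans ((mi_mono_right P (Y' := E) X fun a b _ _ e => ?_).trans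
      (mi_congr_cond P X E (fun a b _ _ e => ?_) fun a b _ _ e => ?_).le)
    · simp only [Prod.mk.injEq] at e
      rw [e.1]
    · simp only [Prod.mk.injEq] at e
      rw [e.1]
    · exact congrArg some e
    · simpa using e
  · refine (mi_mono_left P (X' := fun ω => some (X ω)) _ fun a b _ _ e => ?_).trans
      ((mi_mono_right P (Y' := fun ω => some (E ω)) _ fun a b _ _ e => ?_).trans
      (mi_congr_cond P _ _ (fun a b _ _ e => ?_) fun a b _ _ e => ?_).le)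
    · simp only [Prod.mk.injEq, Option.some.injEq] at e
      exact e.1
    · simp only [Prod.mk.injEq, Option.some.injEq] at e
      exact e.1
    · simpa using e
    · exact congrArg some e

/-- **informations**, all letters only where `i ∈ I z` -/
theorem mi_avg_setF (Q : Law Ω) (Z : Ω → S) [DecidableEq ι] (J : Finset ι) (I : S → Finset ι)
    (hI : ∀ ω, 0 < Q.w ω → I (Z ω) ⊆ J) (X : ι → S → Ω → U) (E : ι → S → Ω → V) (D : ι → S → Ω → T) :
    Q.ex (fun ω => ∑ i ∈ I (Z ω), mi (Q.cond Z (Z ω)) (X i (Z ω)) (E i (Z ω)) (D i (Z ω))) =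
      ∑ i ∈ J, mi Q (fun ω => if i ∈ I (Z ω) then some (X i (Z ω) ω) else none)
        (fun ω => if i ∈ I (Z ω) then some (E i (Z ω) ω) else none)
        (fun ω => (if i ∈ I (Z ω) then some (D i (Z ω) ω) else none, Z ω)) := by
  rw [ex_sum_dep Q Z J I hI fun i z => mi (Q.cond Z z) (X i z) (E i z) (D i z)]
  refine Finset.sum_congr rfl fun i _ => ?_
  rw [← mi_avg_dep Q Z (fun z ω => if i ∈ I z then some (X i z ω) else none)
    (fun z ω => if i ∈ I z then some (E i z ω) else none) (fun z ω => if i ∈ I z then some (D i z ω) else none)]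
  refine Q.ex_congr fun ω _ => ?_
  split_ifs with hi
  · exact (mi_some _ _ _ _).symm
  · exact (mi_const2 _ _ fun _ _ _ _ _ => rfl).symm

/-- the same, other letters for `Q` -/
theorem mi_avg_setF_le {U' V' T' : Type} (Q : Law Ω) (Z : Ω → S) [DecidableEq ι] (J : Finset ι) (I : S → Finset ι)
    (hI : ∀ ω, 0 < Q.w ω → I (Z ω) ⊆ J) (X : ι → S → Ω → U) (E : ι → S → Ω → V) (D : ι → S → Ω → T)
    (X' : ι → Ω → U') (E' : ι → Ω → V') (D' : ι → Ω → T')
    (h1 : ∀ i ∈ J, Fn Q (D' i) (fun ω => (if i ∈ I (Z ω) then some (D i (Z ω) ω) else none, Z ω)))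
    (h2 : ∀ i ∈ J, Fn Q (fun ω => (if i ∈ I (Z ω) then some (D i (Z ω) ω) else none, Z ω)) (D' i))
    (h3 : ∀ i ∈ J, Fn Q (fun ω => if i ∈ I (Z ω) then some (X i (Z ω) ω) else none) (fun ω => (X' i ω, D' i ω)))
    (h4 : ∀ i ∈ J, Fn Q (fun ω => if i ∈ I (Z ω) then some (E i (Z ω) ω) else none) (fun ω => (E' i ω, D' i ω))) :
    Q.ex (fun ω => ∑ i ∈ I (Z ω), mi (Q.cond Z (Z ω)) (X i (Z ω)) (E i (Z ω)) (D i (Z ω))) ≤
      ∑ i ∈ J, mi Q (X' i) (E' i) (D' i) := by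
  rw [mi_avg_setF Q Z J I hI X E D]
  refine Finset.sum_le_sum fun i hi => ?_
  rw [mi_congr_cond Q _ _ (h2 i hi) (h1 i hi)]
  exact (mi_mono_left Q _ (h3 i hi)).trans (mi_mono_right Q _ (h4 i hi))

/-- **entropies** -/
theorem hc_avg_set (Q : Law Ω) (Z : Ω → S) [DecidableEq ι] (J : Finset ι) (I : S → Finset ι)
    (hI : ∀ ω, 0 < Q.w ω → I (Z ω) ⊆ J) (X : ι → S → Ω → U) (D : ι → S → Ω → T) :
    Q.ex (fun ω => ∑ i ∈ I (Z ω), Stk.hc (Q.cond Z (Z ω)) (X i (Z ω)) (D i (Z ω))) =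
      ∑ i ∈ J, Stk.hc Q (fun ω => if i ∈ I (Z ω) then some (X i (Z ω) ω) else none) (fun ω => (D i (Z ω) ω, Z ω)) := by
  rw [ex_sum_dep Q Z J I hI fun i z => Stk.hc (Q.cond Z z) (X i z) (D i z)]
  refine Finset.sum_congr rfl fun i _ => ?_
  rw [← hc_avg_dep Q Z (fun z ω => if i ∈ I z then some (X i z ω) else none) (D i)]
  refine Q.ex_congr fun ω hω => ?_
  split_ifs with hi
  · refine Stk.hc_congr _ (fun a b ha hb e => ?_) (fun a b ha hb e => ?_) (fun a b ha hb e => e) (fun a b ha hb e => e)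
    · simp only [Prod.mk.injEq, Option.some.injEq] at e
      exact e.1
    · simp only [Prod.mk.injEq] at e
      rw [e.1]
  · exact (Stk.hc_zero _ fun _ _ _ _ _ => rfl).symm

end Vale.Agent.P106.U.G480
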