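import Vale.Agent.P106.U.H480.Gro
import Vale.Agent.P106.U.H489.PCls
import Vale.Agent.P106.U.H523.Best
import Vale.Agent.P106.U.H996.C1E
import Vale.Agent.P106.U.H377.FunDg
import Vale.Agent.P106.U.H712.Side

/-!
# P106 / U / H480 : TOT (helper480): upper bound of the information of the ray in the letters of the path

* `tot` : near-extremal law, label `A` of level `a ≤ h`, shape `(0, r)`, arbitrary letters `E0`, `En`, `Y` :
  `I(l ; En | E0) ≤ [3(h - a) + (1 - lam)(q - r) - (β - d) h + (β' + ε) a + k' |r - q|] log 2 - N (D(h) - D(a))`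
  `+ H(A, t_a, C | E0) + H(Y | W, t_h, C) + H(En, E0 | Y, W, t_h, C) + K`.
* `tot0` : constant start slab `S` (class `1/8`, level `0`), everything explicit.
* `tot_sum` : with helper712's `total` (chain of letters `E 0, …, E n`).
* `hc_slope` : `b` digits of the slope : `2 b log 2 + 4`.
-/

set_option autoImplicit false

namespace Vale.Agent.P106.U.G480

open Vale.Agent.P127 Vale.Agent.P127.Stk Vale.Agent.P127.U Vale.Agent.P106.W Vale.Agent.P106.K Vale.Agent.P106.U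
open Vale.Agent.P106.U.H523

/-- **TOT** -/
theorem tot : ∀ lam N k k' β β' : ℝ, 0 ≤ lam → lam ≤ 1 → 0 ≤ k → k ≤ k' → 0 ≤ N →
    FIXA lam N k' β' → ∀ c c' : ℝ, 1 ≤ c → c ≤ c' → ∀ ε : ℝ, 0 < ε → ∃ K : ℝ, 0 ≤ K ∧ ∀ (d : ℝ) (Ω : Type) [Fintype Ω]
      (γ : Type) (P : Law Ω) (l : Ω → Ry) (t : Ω → ℝ) (C : Ω → γ) (L h q : ℕ) (W : Ω → Cbx), 1 ≤ h →
      NEx c lam N k β d P l t C L h q W →
      ∀ (a r : ℕ) (A : Ω → Cbx), a ≤ h →
      (∀ ω, 0 < P.w ω → LbOk c' L a (A ω) (l ω) (t ω) ∧ (A ω).u2 = 1 ∧ (A ω).u1 = (1 / 2 : ℝ) ^ r) →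
      ∀ (ζ0 ζn η : Type) (E0 : Ω → ζ0) (En : Ω → ζn) (Y : Ω → η),
      mi P l En E0 ≤
        (3 * ((h : ℝ) - a) + (1 - lam) * ((q : ℝ) - r)) * Real.log 2 - (β - d) * h * Real.log 2 +
        (β' + ε) * a * Real.log 2 - N * (Dd P l t C h - Dd P l t C a) + k' * |(r : ℝ) - q| * Real.log 2 +
        Stk.hc P (fun ω => (A ω, fl1 a (t ω), C ω)) E0 + Stk.hc P Y (fun ω => (W ω, fl1 h (t ω), C ω)) +
        Stk.hc P (fun ω => (En ω, E0 ω)) (fun ω => (Y ω, W ω, fl1 h (t ω), C ω)) + K := by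
  intro lam N k k' β β' h0 h1 hk hkk hN hF c c' hc hcc ε hε
  obtain ⟨K, hK0, hK⟩ := basic H489.pCls H523.pLab lam N k k' β β' h0 h1 hk hkk hN hF c c' hc hcc ε hε
  refine ⟨K, hK0, ?_⟩
  intro d Ω _ γ P l t C L h q W hh hne a r A hah hA ζ0 ζn η E0 En Y
  have key := hK d Ω γ P l t C L h q W hh hne Ω P id (Stk.pr_id P) Unit (fun _ => ()) a 0 r A
    (by have := hne.hL; omega) (fun ω hω => by
      obtain ⟨w1, w2, w3⟩ := hA ω hω
      exact ⟨w1, by rw [w2, pow_zero], w3⟩)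
  simp only [id] at key
  -- trivial letters
  have g1 : Stk.hc P (fun _ : Ω => ()) (fun ω => (W ω, fl1 h (t ω), C ω)) = 0 := Stk.hc_zero P (fun _ _ _ _ _ => rfl)
  have g2 : Stk.hc P (fun _ : Ω => ()) (fun ω => (l ω, C ω)) = 0 := Stk.hc_zero P (fun _ _ _ _ _ => rfl)
  have e1 : Stk.hc P l (fun ω => (A ω, fl1 a (t ω), C ω)) ≤ Stk.hc P l (fun ω => (A ω, fl1 a (t ω), C ω, ())) :=
    Stk.hc_mono_right P l fun ω ω' _ _ e => by
      simp only [Prod.mk.injEq] at e ⊢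
      exact ⟨e.1, e.2.1, e.2.2, trivial⟩
  have e2 : Stk.hc P l (fun ω => (W ω, fl1 h (t ω), C ω, ())) ≤ Stk.hc P l (fun ω => (W ω, fl1 h (t ω), C ω)) :=
    Stk.hc_mono_right P l fun ω ω' _ _ e => by
      simp only [Prod.mk.injEq] at e ⊢
      exact ⟨e.1, e.2.1, e.2.2.1⟩
  have e3 : ∀ s, Dd P l t (fun ω => (C ω, ())) s = Dd P l t C s := by
    intro s
    unfold Dd
    congr 1
    refine Stk.hc_congr P (fun ω ω' _ _ e => ?_) (fun ω ω' _ _ e => ?_) (fun ω ω' _ _ e => ?_) (fun ω ω' _ _ e => ?_)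
    · simp only [Prod.mk.injEq] at e ⊢; exact e.1
    · simp only [Prod.mk.injEq] at e ⊢; exact e.1
    · simp only [Prod.mk.injEq, and_true] at e ⊢; exact e
    · simp only [Prod.mk.injEq, and_true] at e ⊢; exact e
  rw [e3, e3, g1, g2] at key
  -- start
  have s1 := Stk.hc_le_add' P l (fun ω => (A ω, fl1 a (t ω), C ω)) E0
  have s2 : Stk.hc P l (fun ω => ((A ω, fl1 a (t ω), C ω), E0 ω)) ≤ Stk.hc P l (fun ω => (A ω, fl1 a (t ω), C ω)) :=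
    Stk.hc_mono_right P l fun ω ω' _ _ e => congrArg Prod.fst e
  -- end
  have f1 := Stk.hc_le_add' P l Y (fun ω => (W ω, fl1 h (t ω), C ω))
  have f2 := Stk.hc_le_add' P l (fun ω => (En ω, E0 ω)) (fun ω => (Y ω, W ω, fl1 h (t ω), C ω))
  have f3 : Stk.hc P l (fun ω => ((En ω, E0 ω), (Y ω, W ω, fl1 h (t ω), C ω))) ≤ Stk.hc P l (fun ω => (En ω, E0 ω)) :=
    Stk.hc_mono_right P l fun ω ω' _ _ e => congrArg Prod.fst e
  unfold mi
  have e0 : ((0 : ℕ) : ℝ) = 0 := Nat.cast_zero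
  rw [e0] at key
  simp only [mul_zero, sub_zero, zero_add, add_zero] at key
  nlinarith

/-- the digits of the slope -/
theorem hc_slope {Ω : Type} [Fintype Ω] {P : Law Ω} {l : Ω → Ry} {t : Ω → ℝ} (h : SyOk P l t) {η : Type} (b : ℕ)
    (Z : Ω → η) : Stk.hc P (fun ω => fl b (l ω).s) Z ≤ 2 * b * Real.log 2 + 2 * Real.log 7 := by
  have key := Stk.Bs.hc_fl_diam P b (2 * 2 ^ b) (fun ω => (l ω).s) Z (by
    intro ω ω' hω hω' _ i
    have h1 := (h ω hω).1.2.1 i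
    have h2 := (h ω' hω').1.2.1 i
    have e3 : (((2 * 2 ^ b : ℕ) : ℝ)) * (1 / 2 : ℝ) ^ b = 2 := by
      push_cast
      rw [mul_assoc, ← mul_pow]
      norm_num
    rw [e3]
    exact (abs_sub _ _).trans (by linarith))
  refine key.trans ?_
  simp only [Fintype.card_fin, Nat.cast_ofNat]
  have h3 : Real.log (2 * ((2 * 2 ^ b : ℕ) : ℝ) + 3) ≤ b * Real.log 2 + Real.log 7 := by
    have h4 : (1 : ℝ) ≤ 2 ^ b := one_le_pow₀ (by norm_num)
    rw [← Real.log_pow, ← Real.log_mul (by positivity) (by norm_num)]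
    refine Real.log_le_log (by positivity) ?_
    push_cast
    nlinarith
  nlinarith

/-- the constant start slab is a label of level `0` -/
theorem start_ok {L r : ℕ} {S : Cbx} (h2 : S.u2 = 1) (h1 : S.u1 = (1 / 2 : ℝ) ^ r) (hα : |S.α| ≤ 1 / 8) (hκ : |S.κ| ≤ 1 / 8)
    (hr : r ≤ L) {l : Ry} {t : ℝ} (t0 : 0 ≤ t) (t1 : t ≤ 1) (hin : S.In 0 l.y l.s l.z) :
    LbOk 100 L 0 (C1.H996.shf S (qa 0 t)) l t ∧ (C1.H996.shf S (qa 0 t)).u2 = 1 ∧
      (C1.H996.shf S (qa 0 t)).u1 = (1 / 2 : ℝ) ^ r := by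
  have hu1 : 0 ≤ S.u1 := by rw [h1]; positivity
  have hτ : 0 ≤ qa 0 t ∧ qa 0 t ≤ 1 := by
    unfold qa fl1
    simp only [pow_zero, one_mul, div_one]
    constructor
    · exact_mod_cast Int.floor_nonneg.2 t0
    · exact (Int.floor_le _).trans t1
  refine ⟨⟨⟨0, r, ?_, h1, Nat.zero_le _, by omega⟩, ?_, ?_, C1.H996.bin_shf le_rfl h2 hu1 t0 t1 hin⟩, h2, h1⟩
  · show S.u2 = _
    rw [h2, pow_zero]
  · show |S.α| * S.u2 ≤ 100
    rw [h2, mul_one]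
    linarith
  · show |S.κ + 2 * S.α * qa 0 t| * S.u2 ≤ 100
    rw [h2, mul_one]
    have a3 : |2 * S.α * qa 0 t| ≤ 1 / 4 := by
      rw [abs_mul, abs_mul, abs_of_nonneg hτ.1, abs_two]
      nlinarith [abs_nonneg S.α, hτ.1, hτ.2]
    refine (abs_add_le _ _).trans ?_
    linarith

/-- **TOT**, constant start slab, trivial letter `C` -/
theorem tot0 : ∀ lam N k k' β β' : ℝ, 0 ≤ lam → lam ≤ 1 → 0 ≤ k → k ≤ k' → 0 ≤ N →
    FIXA lam N k' β' → ∀ c : ℝ, 1 ≤ c → ∃ K : ℝ, 0 ≤ K ∧ ∀ (d : ℝ) (Ω : Type) [Fintype Ω]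
      (P : Law Ω) (l : Ω → Ry) (t : Ω → ℝ) (L h q : ℕ) (W : Ω → Cbx), 1 ≤ h →
      NEx c lam N k β d P l t (fun _ => ()) L h q W →
      ∀ (r : ℕ) (S : Cbx), S.u2 = 1 → S.u1 = (1 / 2 : ℝ) ^ r → |S.α| ≤ 1 / 8 → |S.κ| ≤ 1 / 8 → r ≤ q →
      (∀ ω, 0 < P.w ω → S.In 0 (l ω).y (l ω).s (l ω).z) →
      ∀ (ζ0 ζn η : Type) (E0 : Ω → ζ0) (En : Ω → ζn) (Y : Ω → η),
      mi P l En E0 ≤
        (3 * (h : ℝ) + (1 - lam + k') * ((q : ℝ) - r) - (β - d) * h) * Real.log 2 +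
        Stk.hc P Y (fun ω => (W ω, fl1 h (t ω))) +
        Stk.hc P (fun ω => (En ω, E0 ω)) (fun ω => (Y ω, W ω, fl1 h (t ω))) + K := by
  intro lam N k k' β β' h0 h1 hk hkk hN hF c hc
  obtain ⟨K, hK0, hK⟩ := tot lam N k k' β β' h0 h1 hk hkk hN hF c (max c 100) hc (le_max_left _ _) 1 one_pos
  have hl2 : 0 < Real.log 2 := Real.log_pos (by norm_num)
  refine ⟨K + N * Real.log 2 + Real.log 2, by positivity, ?_⟩
  intro d Ω _ P l t L h q W hh hne r S S2 S1 Sα Sκ hrq hin ζ0 ζn η E0 En Y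
  have hrL : r ≤ L := by have := hne.hL; omega
  have key := hK d Ω Unit P l t (fun _ => ()) L h q W hh hne 0 r (fun ω => C1.H996.shf S (qa 0 (t ω))) (Nat.zero_le h)
    (fun ω hω => by
      obtain ⟨-, t0, t1⟩ := hne.ok ω hω
      obtain ⟨w1, w2, w3⟩ := start_ok S2 S1 Sα Sκ hrL t0 t1 (hin ω hω)
      exact ⟨LbOk.cls (le_max_right _ _) w1, w2, w3⟩) ζ0 ζn η E0 En Y
  have a1 : Stk.hc P (fun ω => (C1.H996.shf S (qa 0 (t ω)), fl1 0 (t ω), ())) E0 ≤ Real.log 2 := by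
    have b1 : Stk.hc P (fun ω => (C1.H996.shf S (qa 0 (t ω)), fl1 0 (t ω), ())) E0 ≤ Stk.hc P (fun ω => fl1 0 (t ω)) E0 := by
      refine Stk.hc_mono_left P fun ω ω' _ _ e => ?_
      have e' : fl1 0 (t ω) = fl1 0 (t ω') := (Prod.ext_iff.1 e).1
      simp only [qa, e']
    refine b1.trans ?_
    have b2 := Stk.hc_le_log P (fun ω => fl1 0 (t ω)) E0 2 (fun ω _ => ⟨{0, 1}, by simp, fun ω' h' _ => ?_⟩)
    · simpa using b2
    · obtain ⟨-, h0, h1⟩ := hne.ok ω' h'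
      have c0 : 0 ≤ fl1 0 (t ω') := by
        unfold fl1
        simp only [pow_zero, one_mul]
        exact Int.floor_nonneg.2 h0
      have c1 : fl1 0 (t ω') ≤ 1 := by
        unfold fl1
        simp only [pow_zero, one_mul]
        exact_mod_cast (Int.floor_le (t ω')).trans h1
      simp only [Finset.mem_insert, Finset.mem_singleton]
      omega
  have a2 := Dd_ge (C := fun _ : Ω => ()) hne.ok h
  have a3 : Dd P l t (fun _ : Ω => ()) 0 ≤ 0 := by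
    unfold Dd
    have := Stk.hc_nonneg P (fun ω => fl1 0 (t ω)) (fun ω => (l ω, ()))
    simp only [Nat.cast_zero, zero_mul, zero_sub]
    linarith
  have a4 : -(N * (Dd P l t (fun _ : Ω => ()) h - Dd P l t (fun _ : Ω => ()) 0)) ≤ N * Real.log 2 := by
    nlinarith
  have a5 : |(r : ℝ) - q| = (q : ℝ) - r := by
    have : (r : ℝ) ≤ q := by exact_mod_cast hrq
    rw [abs_of_nonpos (by linarith)]
    ring
  have b1 : Stk.hc P Y (fun ω => (W ω, fl1 h (t ω), ())) ≤ Stk.hc P Y (fun ω => (W ω, fl1 h (t ω))) :=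
    Stk.hc_mono_right P Y fun ω ω' _ _ e => by
      simp only [Prod.mk.injEq] at e ⊢
      exact ⟨e.1, e.2.1⟩
  have b2 : Stk.hc P (fun ω => (En ω, E0 ω)) (fun ω => (Y ω, W ω, fl1 h (t ω), ())) ≤
      Stk.hc P (fun ω => (En ω, E0 ω)) (fun ω => (Y ω, W ω, fl1 h (t ω))) :=
    Stk.hc_mono_right P _ fun ω ω' _ _ e => by
      simp only [Prod.mk.injEq] at e ⊢
      exact ⟨e.1, e.2.1, e.2.2.1⟩
  rw [a5] at key
  have e0 : ((0 : ℕ) : ℝ) = 0 := Nat.cast_zero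
  rw [e0] at key
  simp only [mul_zero, sub_zero, add_zero, zero_mul] at key
  nlinarith

/-- **TOT** for a chain of letters (helper712's `total`) -/
theorem tot_sum : ∀ lam N k k' β β' : ℝ, 0 ≤ lam → lam ≤ 1 → 0 ≤ k → k ≤ k' → 0 ≤ N →
    FIXA lam N k' β' → ∀ c : ℝ, 1 ≤ c → ∃ K : ℝ, 0 ≤ K ∧ ∀ (d : ℝ) (Ω : Type) [Fintype Ω]
      (P : Law Ω) (l : Ω → Ry) (t : Ω → ℝ) (L h q : ℕ) (W : Ω → Cbx), 1 ≤ h →
      NEx c lam N k β d P l t (fun _ => ()) L h q W →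
      ∀ (r : ℕ) (S : Cbx), S.u2 = 1 → S.u1 = (1 / 2 : ℝ) ^ r → |S.α| ≤ 1 / 8 → |S.κ| ≤ 1 / 8 → r ≤ q →
      (∀ ω, 0 < P.w ω → S.In 0 (l ω).y (l ω).s (l ω).z) →
      ∀ (ζ : Type) (n : ℕ) (E : ℕ → Ω → ζ) (b : ℕ),
      ∑ v ∈ Finset.range n, (Stk.hc P (E (v + 1)) (E v) - Stk.hc P (E v) (E (v + 1)) -
          Stk.hc P (E (v + 1)) (fun ω => (l ω, E v ω))) ≤
        (3 * (h : ℝ) + (1 - lam + k') * ((q : ℝ) - r) - (β - d) * h + 2 * b) * Real.log 2 +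
        Stk.hc P (fun ω => (E n ω, E 0 ω)) (fun ω => (fl b (l ω).s, W ω, fl1 h (t ω))) + K := by
  intro lam N k k' β β' h0 h1 hk hkk hN hF c hc
  obtain ⟨K, hK0, hK⟩ := tot0 lam N k k' β β' h0 h1 hk hkk hN hF c hc
  refine ⟨K + 2 * Real.log 7, by positivity, ?_⟩
  intro d Ω _ P l t L h q W hh hne r S S2 S1 Sα Sκ hrq hin ζ n E b
  have key := hK d Ω P l t L h q W hh hne r S S2 S1 Sα Sκ hrq hin ζ ζ _ (E 0) (E n) (fun ω => fl b (l ω).s)
  have a1 := H712.Side.total (P := P) l E n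
  have a2 := hc_slope hne.ok b (fun ω => (W ω, fl1 h (t ω)))
  linarith

end Vale.Agent.P106.U.G480
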