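import Vale.Agent.P106.U.H480.CostAvg
import Vale.Agent.P106.U.H470.AgeP

/-!
# P106 / U / H480 : the costs of the joint selection (helper480)

* `mi_avg_dep` : mean over the values `z` of a word of `mi (Q.cond Z z) (X z) (E z) (D z)`.
* `mi_avg_flag2`, `mi_avg_flag1` : the same with a flag which is a function of the word.
* `cost_of` : sums over places and caps.
* `cost_pos`, `cost_kap` : helper470's `pos_sumL`, `kap_sumP` for the caps `b0 + j s` of a window, sums over a finite family.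
-/

set_option autoImplicit false

namespace Vale.Agent.P106.U.G480

open Finset Vale.Agent.P127 Vale.Agent.P127.Stk Vale.Agent.P127.U Vale.Agent.P127.U.Nonat Vale.Agent.P127.U.YPat
open Vale.Agent.P127.U.JSB (hc_cond_sum cond_supp')
open Vale.Agent.P106.U.H565 (Dtm)
open Vale.Agent.P106.U.H661.Age

variable {Ω : Type} [Fintype Ω] {R S T U V : Type}

theorem hc_supp (P : Law Ω) {X X' : Ω → U} {D D' : Ω → T} (hX : ∀ ω, 0 < P.w ω → X ω = X' ω)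
    (hD : ∀ ω, 0 < P.w ω → D ω = D' ω) : Stk.hc P X D = Stk.hc P X' D' := by
  refine Stk.hc_congr P ?_ ?_ ?_ ?_
  · intro ω ω' p p' e
    rw [hX ω p, hX ω' p']
    exact congrArg Prod.fst e
  · intro ω ω' p p' e
    rw [← hX ω p, ← hX ω' p']
    exact congrArg Prod.fst e
  · intro ω ω' p p' e
    rw [hD ω p, hD ω' p']
    exact e
  · intro ω ω' p p' e
    rw [← hD ω p, ← hD ω' p']
    exact e

/-- variables which agree on the support -/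
theorem mi_supp (P : Law Ω) {X X' : Ω → U} {E E' : Ω → V} {D D' : Ω → T} (hX : ∀ ω, 0 < P.w ω → X ω = X' ω)
    (hE : ∀ ω, 0 < P.w ω → E ω = E' ω) (hD : ∀ ω, 0 < P.w ω → D ω = D' ω) : mi P X E D = mi P X' E' D' := by
  unfold mi
  rw [hc_supp P hX hD, hc_supp P (D := fun ω => (E ω, D ω)) (D' := fun ω => (E' ω, D' ω)) hX fun ω hω => by
    rw [hE ω hω, hD ω hω]]

/-- **informations of a conditioned law, variables which depend on the value of the word** -/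
theorem mi_avg_dep (Q : Law Ω) (Z : Ω → S) (X : S → Ω → U) (E : S → Ω → V) (D : S → Ω → T) :
    Q.ex (fun ω => mi (Q.cond Z (Z ω)) (X (Z ω)) (E (Z ω)) (D (Z ω))) =
      mi Q (fun ω => X (Z ω) ω) (fun ω => E (Z ω) ω) (fun ω => (D (Z ω) ω, Z ω)) := by
  rw [← mi_avg_pair Q (fun ω => D (Z ω) ω) Z]
  refine Q.ex_congr fun ω hω => ?_
  have hz : 0 < Q.pr Z (Z ω) := Q.pr_pos Z hω
  have h : ∀ ω', 0 < (Q.cond Z (Z ω)).w ω' → Z ω' = Z ω := fun ω' h' => cond_supp' Q Z _ hz h'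
  exact mi_supp _ (fun ω' h' => by rw [h ω' h']) (fun ω' h' => by rw [h ω' h']) fun ω' h' => by rw [h ω' h']

/-- entropies of a conditioned law, variables which depend on the value of the word -/
theorem hc_avg_dep (Q : Law Ω) (Z : Ω → S) (X : S → Ω → U) (D : S → Ω → T) :
    Q.ex (fun ω => Stk.hc (Q.cond Z (Z ω)) (X (Z ω)) (D (Z ω))) =
      Stk.hc Q (fun ω => X (Z ω) ω) (fun ω => (D (Z ω) ω, Z ω)) := by
  rw [← hc_avg' (Q := Q) (D := fun ω => (D (Z ω) ω, Z ω)) (Z := Z) (fun ω ω' _ _ e => (Prod.mk.inj e).2)]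
  refine Q.ex_congr fun ω hω => ?_
  have hz : 0 < Q.pr Z (Z ω) := Q.pr_pos Z hω
  have h : ∀ ω', 0 < (Q.cond Z (Z ω)).w ω' → Z ω' = Z ω := fun ω' h' => cond_supp' Q Z _ hz h'
  refine Stk.hc_congr _ (fun a b ha hb e => ?_) (fun a b ha hb e => ?_) (fun a b ha hb e => ?_) (fun a b ha hb e => ?_)
  · simp only [h a ha, h b hb, Prod.mk.injEq] at e
    exact e.1
  · simp only [h a ha, h b hb]
    exact congrArg Prod.fst e
  · simp only [h a ha, h b hb, Prod.mk.injEq] at e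
    exact e.1
  · simp only [h a ha, h b hb, Prod.mk.injEq]
    exact ⟨e, trivial⟩

/-- a constant in the second place -/
theorem mi_const2 (P : Law Ω) (X : Ω → U) {E : Ω → V} {D : Ω → T} (h : Fn P E D) : mi P X E D = 0 := by
  unfold mi
  rw [Stk.hc_congr P (X := X) (X' := X) (Y := fun ω => (E ω, D ω)) (Y' := D) (fun _ _ _ _ e => congrArg Prod.fst e)
    (fun _ _ _ _ e => congrArg Prod.fst e) (fun a b ha hb e => Prod.ext (h a b ha hb e) e)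
    (fun _ _ _ _ e => congrArg Prod.snd e), sub_self]

/-- a constant in the first place -/
theorem mi_const1 (P : Law Ω) {X : Ω → U} (E : Ω → V) {D : Ω → T} (h : Fn P X D) : mi P X E D = 0 := by
  rw [mi_symm]
  exact mi_const2 P E h

/-- **flag in the second place** -/
theorem mi_avg_flag2 {Q : Law Ω} {D : Ω → T} {Z : Ω → S} (h : Dtm Q D Z) (X : S → Ω → U) (yng : S → Prop)
    [DecidablePred yng] (E : S → Ω → V) :
    Q.ex (fun ω => if yng (Z ω) then mi (Q.cond Z (Z ω)) (X (Z ω)) (E (Z ω)) D else 0) =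
      mi Q (fun ω => X (Z ω) ω) (fun ω => if yng (Z ω) then some (E (Z ω) ω) else none) D := by
  have e1 := mi_avg_dep Q Z X (fun z ω => if yng z then some (E z ω) else none) (fun _ => D)
  have e2 : mi Q (fun ω => X (Z ω) ω) (fun ω => if yng (Z ω) then some (E (Z ω) ω) else none) (fun ω => (D ω, Z ω)) =
      mi Q (fun ω => X (Z ω) ω) (fun ω => if yng (Z ω) then some (E (Z ω) ω) else none) D :=
    mi_congr_cond Q _ _ (fun a b ha hb e => Prod.ext e (h a b ha hb e)) (fun _ _ _ _ e => congrArg Prod.fst e)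
  rw [← e2, ← e1]
  refine Q.ex_congr fun ω _ => ?_
  split_ifs with hy
  · unfold mi
    rw [Stk.hc_congr (Q.cond Z (Z ω)) (X := X (Z ω)) (X' := X (Z ω)) (Y := fun ω_1 => (E (Z ω) ω_1, D ω_1))
      (Y' := fun ω_1 => (some (E (Z ω) ω_1), D ω_1)) (fun _ _ _ _ e => congrArg Prod.fst e)
      (fun _ _ _ _ e => congrArg Prod.fst e) (fun a b _ _ e => by
        simp only [Prod.mk.injEq, Option.some.injEq] at e ⊢
        exact e) (fun a b _ _ e => by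
        simp only [Prod.mk.injEq, Option.some.injEq] at e ⊢
        exact e)]
  · exact (mi_const2 _ _ fun _ _ _ _ _ => rfl).symm

/-- **flag in the first place** -/
theorem mi_avg_flag1 {Q : Law Ω} {D : Ω → T} {Z : Ω → S} (h : Dtm Q D Z) (X : S → Ω → U) (old : S → Prop)
    [DecidablePred old] (E : S → Ω → V) :
    Q.ex (fun ω => if old (Z ω) then mi (Q.cond Z (Z ω)) (X (Z ω)) (E (Z ω)) D else 0) =
      mi Q (fun ω => if old (Z ω) then some (X (Z ω) ω) else none) (fun ω => E (Z ω) ω) D := by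
  rw [mi_symm, ← mi_avg_flag2 h E old X]
  refine Q.ex_congr fun ω _ => ?_
  split_ifs
  · exact mi_symm _ _ _ _
  · rfl

/-- **sums over places and caps** -/
theorem cost_of {Q : Law Ω} {B Tc s : ℕ} {Zw : ℕ → ℕ → Ω → S} {ψ : ℕ → ℕ → S → ℝ} {C : ℕ → ℕ → ℝ} {Φ : ℝ} (hΦ : 0 ≤ Φ)
    (hs : 0 < Tc * s) (hψ : ∀ b0 kk, kk < Tc → b0 + Tc * s ≤ B → Q.ex (fun ω => ψ b0 kk (Zw b0 kk ω)) ≤ C b0 kk)
    (hC : ∀ b0, b0 + Tc * s ≤ B → ∑ kk ∈ range Tc, C b0 kk ≤ Φ * Tc) :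
    ∑ b0 ∈ range (B + 1 - Tc * s), ∑ kk ∈ range Tc, Q.ex (fun ω => ψ b0 kk (Zw b0 kk ω)) ≤ Φ * (B * Tc) := by
  have h1 : ∑ b0 ∈ range (B + 1 - Tc * s), ∑ kk ∈ range Tc, Q.ex (fun ω => ψ b0 kk (Zw b0 kk ω)) ≤
      ∑ b0 ∈ range (B + 1 - Tc * s), Φ * Tc := by
    refine Finset.sum_le_sum fun b0 hb0 => ?_
    have h2 : b0 + Tc * s ≤ B := by
      have := Finset.mem_range.1 hb0
      omega
    exact (Finset.sum_le_sum fun kk hkk => hψ b0 kk (Finset.mem_range.1 hkk) h2).trans (hC b0 h2)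
  refine h1.trans ?_
  rw [Finset.sum_const, Finset.card_range, nsmul_eq_mul]
  have h3 : ((B + 1 - Tc * s : ℕ) : ℝ) ≤ B := by
    have : B + 1 - Tc * s ≤ B := by omega
    exact_mod_cast this
  have h4 : (0 : ℝ) ≤ Φ * Tc := mul_nonneg hΦ (Nat.cast_nonneg _)
  calc ((B + 1 - Tc * s : ℕ) : ℝ) * (Φ * Tc) ≤ B * (Φ * Tc) := mul_le_mul_of_nonneg_right h3 h4
    _ = Φ * (B * Tc) := by ring

/-- **a family of informations, flag in the second place (positions)** -/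
theorem cost_fam2 {ι : Type} {Q : Law Ω} {B Tc s : ℕ} (I : Finset ι) {Zw : ℕ → ℕ → Ω → S} (X : ι → ℕ → ℕ → S → Ω → U)
    (E : ι → ℕ → ℕ → S → Ω → V) (D : ι → ℕ → ℕ → Ω → T) (yng : ι → ℕ → ℕ → S → Prop)
    [∀ i b0 kk, DecidablePred (yng i b0 kk)] {Φ : ι → ℝ} (hΦ : ∀ i ∈ I, 0 ≤ Φ i) (hs : 0 < Tc * s)
    (hD : ∀ i ∈ I, ∀ b0 kk, kk < Tc → b0 + Tc * s ≤ B → Dtm Q (D i b0 kk) (Zw b0 kk))
    (hC : ∀ i ∈ I, ∀ b0, b0 + Tc * s ≤ B → ∑ kk ∈ range Tc, mi Q (fun ω => X i b0 kk (Zw b0 kk ω) ω)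
      (fun ω => if yng i b0 kk (Zw b0 kk ω) then some (E i b0 kk (Zw b0 kk ω) ω) else none) (D i b0 kk) ≤ Φ i * Tc) :
    ∑ b0 ∈ range (B + 1 - Tc * s), ∑ kk ∈ range Tc, Q.ex (fun ω => ∑ i ∈ I, if yng i b0 kk (Zw b0 kk ω) then
      mi (Q.cond (Zw b0 kk) (Zw b0 kk ω)) (X i b0 kk (Zw b0 kk ω)) (E i b0 kk (Zw b0 kk ω)) (D i b0 kk) else 0) ≤
        (∑ i ∈ I, Φ i) * (B * Tc) := by
  refine cost_of (ψ := fun b0 kk z => ∑ i ∈ I, if yng i b0 kk z then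
      mi (Q.cond (Zw b0 kk) z) (X i b0 kk z) (E i b0 kk z) (D i b0 kk) else 0)
    (C := fun b0 kk => ∑ i ∈ I, mi Q (fun ω => X i b0 kk (Zw b0 kk ω) ω)
      (fun ω => if yng i b0 kk (Zw b0 kk ω) then some (E i b0 kk (Zw b0 kk ω) ω) else none) (D i b0 kk))
    (Finset.sum_nonneg hΦ) hs ?_ ?_
  · intro b0 kk hkk hb0
    rw [H565.ex_sum' Q I fun i ω => if yng i b0 kk (Zw b0 kk ω) then
      mi (Q.cond (Zw b0 kk) (Zw b0 kk ω)) (X i b0 kk (Zw b0 kk ω)) (E i b0 kk (Zw b0 kk ω)) (D i b0 kk) else 0]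
    exact Finset.sum_le_sum fun i hi => (mi_avg_flag2 (hD i hi b0 kk hkk hb0) _ _ _).le
  · intro b0 hb0
    rw [Finset.sum_comm, Finset.sum_mul]
    exact Finset.sum_le_sum fun i hi => hC i hi b0 hb0

/-- **a family of informations, flag in the first place (old steps)** -/
theorem cost_fam1 {ι : Type} {Q : Law Ω} {B Tc s : ℕ} (I : Finset ι) {Zw : ℕ → ℕ → Ω → S} (X : ι → ℕ → ℕ → S → Ω → U)
    (E : ι → ℕ → ℕ → S → Ω → V) (D : ι → ℕ → ℕ → Ω → T) (old : ι → ℕ → ℕ → S → Prop)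
    [∀ i b0 kk, DecidablePred (old i b0 kk)] {Φ : ι → ℝ} (hΦ : ∀ i ∈ I, 0 ≤ Φ i) (hs : 0 < Tc * s)
    (hD : ∀ i ∈ I, ∀ b0 kk, kk < Tc → b0 + Tc * s ≤ B → Dtm Q (D i b0 kk) (Zw b0 kk))
    (hC : ∀ i ∈ I, ∀ b0, b0 + Tc * s ≤ B → ∑ kk ∈ range Tc, mi Q
      (fun ω => if old i b0 kk (Zw b0 kk ω) then some (X i b0 kk (Zw b0 kk ω) ω) else none)
      (fun ω => E i b0 kk (Zw b0 kk ω) ω) (D i b0 kk) ≤ Φ i * Tc) :
    ∑ b0 ∈ range (B + 1 - Tc * s), ∑ kk ∈ range Tc, Q.ex (fun ω => ∑ i ∈ I, if old i b0 kk (Zw b0 kk ω) then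
      mi (Q.cond (Zw b0 kk) (Zw b0 kk ω)) (X i b0 kk (Zw b0 kk ω)) (E i b0 kk (Zw b0 kk ω)) (D i b0 kk) else 0) ≤
        (∑ i ∈ I, Φ i) * (B * Tc) := by
  refine cost_of (ψ := fun b0 kk z => ∑ i ∈ I, if old i b0 kk z then
      mi (Q.cond (Zw b0 kk) z) (X i b0 kk z) (E i b0 kk z) (D i b0 kk) else 0)
    (C := fun b0 kk => ∑ i ∈ I, mi Q
      (fun ω => if old i b0 kk (Zw b0 kk ω) then some (X i b0 kk (Zw b0 kk ω) ω) else none)
      (fun ω => E i b0 kk (Zw b0 kk ω) ω) (D i b0 kk))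
    (Finset.sum_nonneg hΦ) hs ?_ ?_
  · intro b0 kk hkk hb0
    rw [H565.ex_sum' Q I fun i ω => if old i b0 kk (Zw b0 kk ω) then
      mi (Q.cond (Zw b0 kk) (Zw b0 kk ω)) (X i b0 kk (Zw b0 kk ω)) (E i b0 kk (Zw b0 kk ω)) (D i b0 kk) else 0]
    exact Finset.sum_le_sum fun i hi => (mi_avg_flag1 (hD i hi b0 kk hkk hb0) _ _ _).le
  · intro b0 hb0
    rw [Finset.sum_comm, Finset.sum_mul]
    exact Finset.sum_le_sum fun i hi => hC i hi b0 hb0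

/-- numbers of `kap_sumP` -/
theorem kap_num {ε : ℝ} (hε : 0 < ε) (β : ℕ) : ∃ K10 : ℕ, 0 < K10 ∧ β ≤ K10 ∧ ∀ K1 : ℕ, K10 ≤ K1 → ∃ T0 : ℕ, ∀ T : ℕ, T0 ≤ T →
    (β + (β * (T + β) : ℝ) / K1) ≤ ε * T := by
  obtain ⟨n, hn⟩ := exists_nat_gt (2 * (β : ℝ) / ε)
  refine ⟨n + β + 1, by omega, by omega, fun K1 hK1 => ?_⟩
  obtain ⟨T0, hT0⟩ := exists_nat_gt (2 * ((β : ℝ) + β * β) / ε)
  refine ⟨T0, fun T hT => ?_⟩
  have h1 : (n : ℝ) ≤ K1 := by exact_mod_cast (by omega : n ≤ K1)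
  have h2 : (1 : ℝ) ≤ K1 := by exact_mod_cast (by omega : 1 ≤ K1)
  have h3 : (T0 : ℝ) ≤ T := by exact_mod_cast hT
  have h4 : (0 : ℝ) ≤ β := Nat.cast_nonneg _
  have h5 : (0 : ℝ) ≤ T := Nat.cast_nonneg _
  rw [div_lt_iff₀ hε] at hn hT0
  have hK1 : (0 : ℝ) < K1 := by linarith
  have h6 : (β * (T + β) : ℝ) / K1 ≤ ε / 2 * T + β * β := by
    rw [div_le_iff₀ hK1]
    have h7 : (β : ℝ) * T ≤ ε / 2 * T * K1 := by
      have h8 : 2 * (β : ℝ) ≤ K1 * ε := hn.le.trans (mul_le_mul_of_nonneg_right h1 hε.le)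
      nlinarith
    have h9 : (β : ℝ) * β ≤ β * β * K1 := by
      have : (0 : ℝ) ≤ (β : ℝ) * β := mul_nonneg h4 h4
      nlinarith
    nlinarith
  have h10 : 2 * ((β : ℝ) + β * β) ≤ T * ε := hT0.le.trans (mul_le_mul_of_nonneg_right h3 hε.le)
  linarith

/-- numbers of `pos_sumL` -/
theorem pos_num {ε : ℝ} (hε : 0 < ε) (L K1 : ℕ) : ∃ K3 : ℕ, 0 < K3 ∧ ∃ T0 : ℕ, ∀ T : ℕ, T0 ≤ T →
    (L * K3 + (L * K1 * (T + L * K3) : ℝ) / K3) ≤ ε * T := by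
  obtain ⟨n, hn⟩ := exists_nat_gt (2 * ((L : ℝ) * K1) / ε)
  refine ⟨n + 1, by omega, ?_⟩
  obtain ⟨T0, hT0⟩ := exists_nat_gt (2 * ((L : ℝ) * ((n + 1 : ℕ) : ℝ) + L * K1 * L) / ε)
  refine ⟨T0, fun T hT => ?_⟩
  have h3 : (T0 : ℝ) ≤ T := by exact_mod_cast hT
  have h4 : (0 : ℝ) ≤ (L : ℝ) * K1 := by positivity
  have h5 : (0 : ℝ) ≤ T := Nat.cast_nonneg _
  rw [div_lt_iff₀ hε] at hn hT0
  have hK : (0 : ℝ) < ((n + 1 : ℕ) : ℝ) := by exact_mod_cast Nat.succ_pos n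
  have hn1 : (n : ℝ) ≤ ((n + 1 : ℕ) : ℝ) := by exact_mod_cast Nat.le_succ n
  have h6 : (L * K1 * (T + L * ((n + 1 : ℕ) : ℝ)) : ℝ) / ((n + 1 : ℕ) : ℝ) ≤ ε / 2 * T + L * K1 * L := by
    rw [div_le_iff₀ hK]
    have h8 : 2 * ((L : ℝ) * K1) ≤ ((n + 1 : ℕ) : ℝ) * ε := hn.le.trans (mul_le_mul_of_nonneg_right hn1 hε.le)
    nlinarith
  have h10 : 2 * ((L : ℝ) * ((n + 1 : ℕ) : ℝ) + L * K1 * L) ≤ T * ε := hT0.le.trans (mul_le_mul_of_nonneg_right h3 hε.le)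
  linarith

end Vale.Agent.P106.U.G480
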