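import Vale.Agent.P106.U.H480.Ych
import Vale.Agent.P106.U.H565.SelJ3

/-!
# P106 / U / H480 : joint selection with closures (helper480): type (ii) repair, note 19650

* `nex_selH` : as helper565's `nex_sel`, the word has ENTROPY `≤ Hm` (no bound of the number of values).
* `PSelG` (literal, constants explicit), `pSelG : PSelG` : word 1 + pattern of the direction blocks (law `Q1`), closures `Gb Q1 b`
  (finer nested pasts, price `gp`), place `b0` and cap `b0 + kk * s` (active given the closure), finitely many costs `φ j` averaged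
  over places and caps, then the value `e2` of the word `Zw Q1 b0 kk` (function of the closure at the cap `b0 + kk * s`), on an
  event `A`, with finitely many averages `ψ j`.
-/

set_option autoImplicit false

namespace Vale.Agent.P106.U

open Finset Vale.Agent.P127 Vale.Agent.P127.Stk Vale.Agent.P127.U Vale.Agent.P106.W Vale.Agent.P106.K
open Vale.Agent.P127.U.Nonat Vale.Agent.P127.U.YPat Vale.Agent.P127.U.JSB H565

namespace G480

theorem H_nonneg {Ω S : Type} [Fintype Ω] (P : Law Ω) (Pt : Ω → S) : 0 ≤ P.H Pt := by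
  unfold Law.H
  refine P.ex_nonneg fun ω _ => ?_
  have h1 : P.pr Pt (Pt ω) ≤ 1 := by
    have := Pin.sum_pr_le_one P Pt {Pt ω}
    simpa using this
  have := Real.log_nonpos (P.pr_nonneg _ _) h1
  linarith

end G480

/-- **selection of one word for near-extremal systems**, entropy form -/
theorem nex_selH {c lam N k β β' : ℝ} (hc : 1 ≤ c) (h0 : 0 ≤ lam) (h1 : lam ≤ 1) (hN : 0 ≤ N) (hk : 0 ≤ k)
    (hββ : β ≤ β') (hF : FIX c lam N k β') {ε : ℝ} (hε : 0 < ε) :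
    ∃ K : ℝ, 0 ≤ K ∧ ∀ (Ω : Type) [Fintype Ω] (γ : Type) (P : Law Ω) (l : Ω → Ry) (t : Ω → ℝ) (C : Ω → γ)
      (L h q : ℕ) (W : Ω → Cbx) (d : ℝ), NEx c lam N k β d P l t C L h q W →
      ∀ (S ι : Type) (Pt : Ω → S) (A : S → Prop) (s : Finset ι) (F : ι → S → ℝ) (cs : ι → ℝ)
        (g Hm : ℝ), 0 < g → P.H Pt ≤ Hm →
        (∀ j ∈ s, ∀ ω, 0 < P.w ω → 0 ≤ F j (Pt ω)) → (∀ j ∈ s, 0 < cs j) →
        (∀ j ∈ s, P.ex (fun ω => F j (Pt ω)) ≤ cs j) → g ≤ prE P (fun ω => A (Pt ω)) →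
        ∀ d' : ℝ, (s.card + 3) / g * ((β' - β + d + ε) * h * Real.log 2 + (N + 1) * Hm + K) ≤
            d' * h * Real.log 2 →
        ∃ ω, 0 < P.w ω ∧ A (Pt ω) ∧ -Real.log (P.pr Pt (Pt ω)) ≤ (s.card + 3) * (Hm + 1) / g ∧
          (∀ j ∈ s, F j (Pt ω) ≤ (s.card + 3) * cs j / g) ∧
          NEx c lam N k β d' (P.cond Pt (Pt ω)) l t C L h q W := by
  classical
  obtain ⟨K, hK⟩ := hF ε hε
  refine ⟨max K 0 + 2, by positivity, ?_⟩
  intro Ω _ γ P l t C L h q W d hP S ι Pt A s F cs g Hm hg hHm hF0 hcs hFa hA d' hd'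
  have hlog : 0 < Real.log 2 := Real.log_pos (by norm_num)
  have hHm0 : 0 ≤ Hm := (G480.H_nonneg P Pt).trans hHm
  have hh : (0 : ℝ) ≤ h := Nat.cast_nonneg _
  have hc0 : 0 ≤ c := by linarith
  set F₁ : ℝ := (β' + ε) * h * Real.log 2 + max K 0 with hF₁
  set D : ℝ := (β' - β + d + ε) * h * Real.log 2 + (N + 1) * Hm + (max K 0 + 2) with hD
  have hup : ∀ ω, 0 < P.w ω → Phi c lam N k (P.cond Pt (Pt ω)) l t C L h (0, q) W ≤ F₁ := by
    intro ω _
    have hsy : SyOk (P.cond Pt (Pt ω)) l t := fun ω' hω' => hP.ok ω' (cond_supp P Pt _ hω')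
    have a1 := hK Ω γ (P.cond Pt (Pt ω)) l t C L h (0, q) W (by have := hP.hL; omega) hsy (by
      intro ω' hω'
      obtain ⟨b1, b2, b3⟩ := hP.lb ω' (cond_supp P Pt _ hω')
      refine ⟨b1, ?_, b3⟩
      rw [b2, pow_zero])
    have a2 := le_max_left K 0
    unfold Phi
    rw [hF₁]
    linarith
  have hav : P.ex (fun ω => F₁ - Phi c lam N k (P.cond Pt (Pt ω)) l t C L h (0, q) W) ≤ D - 1 := by
    rw [P.ex_sub, P.ex_const]
    have a1 := Phi_avg (c := c) (lam := lam) (k := k) (N := N) hc0 h0 h1 hk hN P l t C L h (0, q) W Pt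
    have a2 : (N + 1) * P.H Pt ≤ (N + 1) * Hm := mul_le_mul_of_nonneg_left hHm (by linarith)
    have a3 := hP.phi
    have a4 : (β' + ε) * h * Real.log 2 - (β - d) * h * Real.log 2 = (β' - β + d + ε) * h * Real.log 2 := by
      ring
    rw [hF₁, hD]
    linarith
  have hav0 : 0 ≤ P.ex (fun ω => F₁ - Phi c lam N k (P.cond Pt (Pt ω)) l t C L h (0, q) W) :=
    H565.ex_nonneg' P fun ω hω => sub_nonneg.2 (hup ω hω)
  have hD0 : 0 < D := by linarith
  obtain ⟨ω, w1, w2, w4⟩ := H565.selGen P Pt A (Finset.insertNone (Finset.insertNone s))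
    (fun o e => o.elim (F₁ - Phi c lam N k (P.cond Pt e) l t C L h (0, q) W)
      (fun o' => o'.elim (-Real.log (P.pr Pt e)) (fun j => F j e)))
    (fun o => o.elim D (fun o' => o'.elim (Hm + 1) cs)) hg (by
      intro o ho ω hω
      cases o with
      | none => exact sub_nonneg.2 (hup ω hω)
      | some o' =>
        cases o' with
        | none =>
          show 0 ≤ -Real.log (P.pr Pt (Pt ω))
          have h1 : P.pr Pt (Pt ω) ≤ 1 := by
            have := Pin.sum_pr_le_one P Pt {Pt ω}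
            simpa using this
          have := Real.log_nonpos (P.pr_nonneg Pt (Pt ω)) h1
          linarith
        | some j =>
          exact hF0 j (Finset.some_mem_insertNone.1 (Finset.some_mem_insertNone.1 ho)) ω hω) (by
      intro o ho
      cases o with
      | none => exact hD0
      | some o' =>
        cases o' with
        | none =>
          show 0 < Hm + 1
          linarith
        | some j =>
          exact hcs j (Finset.some_mem_insertNone.1 (Finset.some_mem_insertNone.1 ho))) (by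
      intro o ho
      cases o with
      | none =>
        show P.ex (fun ω => F₁ - Phi c lam N k (P.cond Pt (Pt ω)) l t C L h (0, q) W) ≤ D
        linarith
      | some o' =>
        cases o' with
        | none =>
          show P.ex (fun ω => -Real.log (P.pr Pt (Pt ω))) ≤ Hm + 1
          have : P.ex (fun ω => -Real.log (P.pr Pt (Pt ω))) = P.H Pt := rfl
          linarith
        | some j =>
          exact hFa j (Finset.some_mem_insertNone.1 (Finset.some_mem_insertNone.1 ho))) hA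
  have hcard : (((Finset.insertNone (Finset.insertNone s)).card : ℕ) : ℝ) + 1 = s.card + 3 := by
    rw [Finset.card_insertNone, Finset.card_insertNone]
    push_cast
    ring
  rw [hcard] at w4
  have hs0 : (0 : ℝ) ≤ s.card := Nat.cast_nonneg _
  refine ⟨ω, w1, w2, w4 (some none) (Finset.some_mem_insertNone.2 Finset.none_mem_insertNone), fun j hj => w4 (some (some j))
    (Finset.some_mem_insertNone.2 (Finset.some_mem_insertNone.2 hj)),
    hP.of_phi (fun ω' hω' => cond_supp P Pt _ hω') ?_⟩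
  have w5 := w4 none Finset.none_mem_insertNone
  have w6 : F₁ - Phi c lam N k (P.cond Pt (Pt ω)) l t C L h (0, q) W ≤ (s.card + 3) * D / g := w5
  have w7 : β * h * Real.log 2 ≤ F₁ := by
    have e1 : 0 ≤ ε * h * Real.log 2 := by positivity
    have e2 : β * h * Real.log 2 ≤ β' * h * Real.log 2 := by
      have := mul_le_mul_of_nonneg_right hββ (mul_nonneg hh hlog.le)
      linarith [this, mul_assoc β (h : ℝ) (Real.log 2), mul_assoc β' (h : ℝ) (Real.log 2)]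
    have e3 := le_max_right K 0
    rw [hF₁]
    linarith [show (β' + ε) * h * Real.log 2 = β' * h * Real.log 2 + ε * h * Real.log 2 by ring]
  have e4 : (s.card + 3) * D / g = (s.card + 3) / g * D := by ring
  have e5 : (β - d') * h * Real.log 2 = β * h * Real.log 2 - d' * h * Real.log 2 := by ring
  rw [e5]
  rw [e4] at w6
  linarith

/-- **the result of the joint selection with closures** -/
structure SelG {Ω : Type} [Fintype Ω] (P : Law Ω) {S S2 T U V ι : Type} (Pw : Ω → S) (M1 : ℕ) (B : ℕ) (a μ ε₁ : ℝ)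
    (Y : ℕ → Ω → T) (F : ℕ → Ω → U) (Gb : Law Ω → ℕ → Ω → V) (Zw : Law Ω → ℕ → ℕ → Ω → S2) (A : Law Ω → ℕ → ℕ → S2 → Prop)
    (pg Hm : ℝ) (s Tc : ℕ) (J : Finset ι) (ψ : ι → Law Ω → ℕ → ℕ → S2 → ℝ) (Φ : ι → ℝ)
    (b0 kk : ℕ) (e1 : S) (E : Finset ℕ) (e2 : S2) (Q1 Q2 : Law Ω) : Prop where
  kT : kk < Tc
  room : b0 + Tc * s ≤ B
  act : b0 + kk * s ∈ E
  q1 : Q1 = P.cond (fun ω => (Pw ω, ypat P B Y F a ω)) (e1, E)
  q2 : Q2 = Q1.cond (Zw Q1 b0 kk) e2
  p1 : μ / (6 * (M1 * 2 ^ B)) ≤ P.pr (fun ω => (Pw ω, ypat P B Y F a ω)) (e1, E)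
  p2 : -Real.log (Q1.pr (Zw Q1 b0 kk) e2) ≤ (J.card + 4) / pg * (16 * (J.card + 2) / μ * Hm + 1)
  /-- the value of the second word is admissible -/
  good : A Q1 b0 kk e2
  pos1 : 0 < P.pr (fun ω => (Pw ω, ypat P B Y F a ω)) (e1, E)
  pos2 : 0 < Q1.pr (Zw Q1 b0 kk) e2
  dom1 : ∀ ω, P.pr (fun ω => (Pw ω, ypat P B Y F a ω)) (e1, E) * Q1.w ω ≤ P.w ω
  dom2 : ∀ ω, Q1.pr (Zw Q1 b0 kk) e2 * Q2.w ω ≤ Q1.w ω
  sup1 : ∀ ω, 0 < Q1.w ω → 0 < P.w ω ∧ Pw ω = e1 ∧ ypat P B Y F a ω = E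
  sup2 : ∀ ω, 0 < Q2.w ω → 0 < Q1.w ω ∧ Zw Q1 b0 kk ω = e2
  /-- the second word is a function of the closure at the cap -/
  dtm : Dtm Q1 (Gb Q1 (b0 + kk * s)) (Zw Q1 b0 kk)
  /-- the conditional laws given the closure at the cap do not change -/
  cpe : ∀ {X : Type} (f : Ω → X), ∀ ω, 0 < Q2.w ω →
    cp Q2 f (Gb Q1 (b0 + kk * s)) ω = cp Q1 f (Gb Q1 (b0 + kk * s)) ω
  gcol1 : colp Q1 (Y (b0 + kk * s)) (Gb Q1 (b0 + kk * s)) ≤ 2 * ε₁
  gcol2 : colp Q2 (Y (b0 + kk * s)) (Gb Q1 (b0 + kk * s)) ≤ (J.card + 4) / pg * (2 * ε₁)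
  light : ∀ b ∈ E, ∀ ω, 0 < Q1.w ω → cp P (Y b) (F b) ω ≤ a
  /-- the costs -/
  cost : ∀ j ∈ J, ψ j Q1 b0 kk e2 ≤ (J.card + 4) / pg * (16 * (J.card + 2) / μ * Φ j)

/-- **joint selection with closures** -/
def PSelG : Prop :=
  ∀ c lam N k β β' : ℝ, 1 ≤ c → 0 ≤ lam → lam ≤ 1 → 0 ≤ N → 0 ≤ k → β ≤ β' → FIX c lam N k β' → ∀ ε : ℝ, 0 < ε →
    ∃ K : ℝ, 0 ≤ K ∧ ∀ (Ω : Type) [Fintype Ω] (γ : Type) (P : Law Ω) (l : Ω → Ry) (t : Ω → ℝ) (C : Ω → γ)
      (L h q : ℕ) (W : Ω → Cbx) (d : ℝ), NEx c lam N k β d P l t C L h q W →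
      ∀ (S S2 T U V ι : Type) (Pw : Ω → S) (M1 : ℕ) (B Nb : ℕ) (Y : ℕ → Ω → T) (F : ℕ → Ω → U) (a μ ε₁ : ℝ)
        (Gb : Law Ω → ℕ → Ω → V) (Zw : Law Ω → ℕ → ℕ → Ω → S2) (A : Law Ω → ℕ → ℕ → S2 → Prop) (pg gp Hm : ℝ) (s Tc : ℕ)
        (J : Finset ι) (ψ : ι → Law Ω → ℕ → ℕ → S2 → ℝ) (Φ : ι → ℝ),
        (img Pw).card ≤ M1 → 0 < B → 0 < Tc → 1 < Nb → 0 < a → a ≤ 1 → 0 < μ → μ ≤ 1 → a < ε₁ → 1 < ε₁ * Real.log (ε₁ / a) →
        0 < pg → pg ≤ 1 → 0 < Hm → (∀ j ∈ J, 0 < Φ j) →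
        YBl P B Nb a μ Y F →
        Real.log (6 * (M1 * 2 ^ B) / μ) + gp ≤ μ / 8 * B * (ε₁ * Real.log (ε₁ / a) - 1) →
        ((Tc * s : ℕ) : ℝ) ≤ μ / 16 * B →
      ∀ d1 d2 : ℝ,
        -- the closures, the words, the costs under every possible law `Q1`
        (∀ (e1 : S) (E : Finset ℕ) (Q1 : Law Ω), Q1 = P.cond (fun ω => (Pw ω, ypat P B Y F a ω)) (e1, E) →
          μ / (6 * (M1 * 2 ^ B)) ≤ P.pr (fun ω => (Pw ω, ypat P B Y F a ω)) (e1, E) →
          (∀ ω, 0 < Q1.w ω → 0 < P.w ω ∧ Pw ω = e1 ∧ ypat P B Y F a ω = E) →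
          NEx c lam N k β d1 Q1 l t C L h q W →
          G480.Fin2 Q1 B Y F (Gb Q1) ∧
          Stk.hc Q1 (Gb Q1 0) (F 0) + ∑ b ∈ range B, Stk.hc Q1 (Gb Q1 (b + 1)) (fun ω => (Gb Q1 b ω, Y b ω)) ≤ gp ∧
          (∀ b0 kk, kk < Tc → b0 + Tc * s ≤ B → Dtm Q1 (Gb Q1 (b0 + kk * s)) (Zw Q1 b0 kk)) ∧
          (∀ b0 kk, kk < Tc → b0 + Tc * s ≤ B → pg ≤ prE Q1 (fun ω => A Q1 b0 kk (Zw Q1 b0 kk ω))) ∧
          ∑ b0 ∈ range (B + 1 - Tc * s), ∑ kk ∈ range Tc, Q1.H (Zw Q1 b0 kk) ≤ Hm * (B * Tc) ∧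
          (∀ j ∈ J, ∀ b0 kk, ∀ ω, 0 < Q1.w ω → 0 ≤ ψ j Q1 b0 kk (Zw Q1 b0 kk ω)) ∧
          (∀ j ∈ J, ∑ b0 ∈ range (B + 1 - Tc * s), ∑ kk ∈ range Tc, Q1.ex (fun ω => ψ j Q1 b0 kk (Zw Q1 b0 kk ω)) ≤
            Φ j * (B * Tc))) →
        6 / μ * ((β' - β + d + ε) * h * Real.log 2 + (N + 1) * (Real.log M1 + B * Real.log 2) + K) ≤
          d1 * h * Real.log 2 →
        (J.card + 4) / pg * ((β' - β + d1 + ε) * h * Real.log 2 + (N + 1) * (16 * (J.card + 2) / μ * Hm) + K) ≤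
          d2 * h * Real.log 2 →
      ∃ (b0 kk : ℕ) (e1 : S) (E : Finset ℕ) (e2 : S2) (Q1 Q2 : Law Ω),
        NEx c lam N k β d1 Q1 l t C L h q W ∧ NEx c lam N k β d2 Q2 l t C L h q W ∧
        SelG P Pw M1 B a μ ε₁ Y F Gb Zw A pg Hm s Tc J ψ Φ b0 kk e1 E e2 Q1 Q2

open Classical in
/-- **joint selection with closures** -/
theorem pSelG : PSelG := by
  intro c lam N k β β' hc h0 h1 hN hk hββ hF ε hε
  obtain ⟨K1, hK10, hK1⟩ := psel hc h0 h1 hN hk hββ hF hε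
  obtain ⟨K2, hK20, hK2⟩ := nex_selH hc h0 h1 hN hk hββ hF hε
  refine ⟨K1 + K2, by positivity, ?_⟩
  intro Ω _ γ P l t C L h q W d hP S S2 T U V ι Pw M1 B Nb Y F a μ ε₁ Gb Zw A pg gp Hm s Tc J ψ Φ hM1 hB hTc hNb ha ha1
    hμ hμ1 haε hε1 hpg hpg1 hHm hΦ hY hlog hroom d1 d2 hall hd1 hd2
  have hε₁ : 0 < ε₁ := ha.trans haε
  have hBr : (0 : ℝ) < B := by exact_mod_cast hB
  have hTr : (0 : ℝ) < Tc := by exact_mod_cast hTc
  obtain ⟨e1, E, Q1, q1, nex1, r1, dm1, sp1, Esub, Ecard, lgt, -, -⟩ := hK1 Ω γ P l t C L h q W d hP S Pw M1 hM1 T U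
    B Nb Y F a μ hB hNb ha ha1 hμ hY.blk hY.nest hY.thr hY.grow Unit ∅ (fun _ _ => 0) (fun _ => 1)
    (by simp) (by simp) (by simp) d1 (by
      refine le_trans ?_ hd1
      rw [Finset.card_empty, Nat.cast_zero, zero_add]
      have e0 : (3 : ℝ) * (2 / μ) = 6 / μ := by ring
      rw [e0]
      refine mul_le_mul_of_nonneg_left ?_ (by positivity)
      linarith)
  simp only [Finset.card_empty, Nat.cast_zero, zero_add] at r1
  have e6 : (2 : ℝ) * 3 = 6 := by norm_num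
  rw [e6] at r1
  have hM1pos : 0 < M1 := H565.img_card_pos P Pw hM1
  have hM1r : (0 : ℝ) < M1 := by exact_mod_cast hM1pos
  have hpos1 : 0 < P.pr (fun ω => (Pw ω, ypat P B Y F a ω)) (e1, E) := lt_of_lt_of_le (by positivity) r1
  have hsup1 : ∀ ω, 0 < Q1.w ω → 0 < P.w ω ∧ Pw ω = e1 ∧ ypat P B Y F a ω = E := by
    intro ω hω
    rw [q1] at hω
    have h2 := cond_supp' P (fun ω => (Pw ω, ypat P B Y F a ω)) (e1, E) hpos1 hω
    exact ⟨cond_supp P _ _ hω, (Prod.mk.inj h2).1, (Prod.mk.inj h2).2⟩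
  obtain ⟨hFin, hgp, hdtm, hA, hHs, hψ0, hψa⟩ := hall e1 E Q1 q1 r1 hsup1 nex1
  -- the good blocks
  set bad : Finset ℕ := E.filter fun b => 2 * ε₁ < colp Q1 (Y b) (Gb Q1 b) with hbad
  have hbadcard : (bad.card : ℝ) ≤ μ / 8 * (B : ℝ) := by
    have b1 := G480.few_badG hpos1 dm1 hY.nest hFin ha haε bad ((Finset.filter_subset _ _).trans Esub)
      (fun b hb => lgt b (Finset.mem_filter.1 hb).1) (fun b hb => (Finset.mem_filter.1 hb).2)
    have b3 : Real.log (1 / P.pr (fun ω => (Pw ω, ypat P B Y F a ω)) (e1, E)) ≤ Real.log (6 * (M1 * 2 ^ B) / μ) := by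
      refine Real.log_le_log (by positivity) ?_
      have h2B : (0 : ℝ) < 2 ^ B := by positivity
      rw [div_le_div_iff₀ hpos1 hμ]
      rw [div_le_iff₀ (by positivity)] at r1
      linarith
    have b2 : 0 < ε₁ * Real.log (ε₁ / a) - 1 := by linarith
    have b4 : (bad.card : ℝ) * (ε₁ * Real.log (ε₁ / a) - 1) ≤ μ / 8 * B * (ε₁ * Real.log (ε₁ / a) - 1) := by
      have e : (bad.card : ℝ) * (ε₁ * Real.log (ε₁ / a) - 1) =
        (bad.card : ℝ) * (ε₁ * Real.log (ε₁ / a)) - bad.card := by ring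
      rw [e]
      linarith
    exact le_of_mul_le_mul_right b4 b2
  set G1 : Finset ℕ := E \ bad with hG1
  have hG1card : μ / 8 * (B : ℝ) ≤ (G1.card : ℝ) := by
    have b1 : (E.card : ℝ) ≤ G1.card + bad.card := by
      have : E.card ≤ G1.card + bad.card := by
        rw [hG1, Finset.card_sdiff_add_card]
        exact Finset.card_le_card Finset.subset_union_left
      exact_mod_cast this
    have b2 : μ / 4 * (B : ℝ) = μ / 8 * (B : ℝ) + μ / 8 * (B : ℝ) := by ring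
    linarith
  -- place and cap
  obtain ⟨b0, kk, c1, c2, c3, c4⟩ := G480.place (B := B) (s := s) (T := Tc) (G := G1) (ρ := μ / 8)
    (Finset.sdiff_subset.trans Esub) (by positivity) hB hTc hG1card (by
      refine hroom.trans (le_of_eq ?_)
      ring) (Finset.insertNone J)
    (fun o b0 kk => o.elim (Q1.H (Zw Q1 b0 kk)) (fun j => Q1.ex (fun ω => ψ j Q1 b0 kk (Zw Q1 b0 kk ω))))
    (fun o => o.elim Hm Φ) (by
      intro o ho b0 kk
      cases o with
      | none => exact G480.H_nonneg _ _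
      | some j => exact H565.ex_nonneg' Q1 fun ω hω => hψ0 j (Finset.some_mem_insertNone.1 ho) b0 kk ω hω) (by
      intro o ho
      cases o with
      | none => exact hHm
      | some j => exact hΦ j (Finset.some_mem_insertNone.1 ho)) (by
      intro o ho
      cases o with
      | none => exact hHs
      | some j => exact hψa j (Finset.some_mem_insertNone.1 ho))
  have hcardJ : (((Finset.insertNone J).card : ℕ) : ℝ) = J.card + 1 := by
    rw [Finset.card_insertNone]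
    push_cast
    ring
  rw [hcardJ] at c4
  have hJ0 : (0 : ℝ) ≤ J.card := Nat.cast_nonneg _
  have hfac : 2 * ((J.card : ℝ) + 1 + 1) / (μ / 8) = 16 * (J.card + 2) / μ := by
    field_simp
    ring
  rw [hfac] at c4
  have cH : Q1.H (Zw Q1 b0 kk) ≤ 16 * (J.card + 2) / μ * Hm := c4 none Finset.none_mem_insertNone
  have cJ : ∀ j ∈ J, Q1.ex (fun ω => ψ j Q1 b0 kk (Zw Q1 b0 kk ω)) ≤ 16 * (J.card + 2) / μ * Φ j :=
    fun j hj => c4 (some j) (Finset.some_mem_insertNone.2 hj)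
  obtain ⟨c5, c6⟩ := Finset.mem_sdiff.1 c3
  have c7 : colp Q1 (Y (b0 + kk * s)) (Gb Q1 (b0 + kk * s)) ≤ 2 * ε₁ := by
    by_contra hcon
    exact c6 (Finset.mem_filter.2 ⟨c5, not_le.1 hcon⟩)
  have hD := hdtm b0 kk c1 c2
  -- the second word
  obtain ⟨ω₀, w1, w2, w3, w4, w5⟩ := hK2 Ω γ Q1 l t C L h q W d1 nex1 S2 (Option ι) (Zw Q1 b0 kk) (A Q1 b0 kk)
    (Finset.insertNone J)
    (fun o z => o.elim (colp (Q1.cond (Zw Q1 b0 kk) z) (Y (b0 + kk * s)) (Gb Q1 (b0 + kk * s)))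
      (fun j => ψ j Q1 b0 kk z))
    (fun o => o.elim (2 * ε₁) (fun j => 16 * (J.card + 2) / μ * Φ j)) pg (16 * (J.card + 2) / μ * Hm) hpg cH (by
      intro o ho ω hω
      cases o with
      | none => exact colp_nonneg _ _ _
      | some j => exact hψ0 j (Finset.some_mem_insertNone.1 ho) b0 kk ω hω) (by
      intro o ho
      cases o with
      | none =>
        show 0 < 2 * ε₁
        positivity
      | some j =>
        show 0 < 16 * ((J.card : ℝ) + 2) / μ * Φ j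
        have := hΦ j (Finset.some_mem_insertNone.1 ho)
        positivity) (by
      intro o ho
      cases o with
      | none =>
        show Q1.ex (fun ω => colp (Q1.cond (Zw Q1 b0 kk) (Zw Q1 b0 kk ω)) (Y (b0 + kk * s)) (Gb Q1 (b0 + kk * s))) ≤ 2 * ε₁
        rw [colp_avg hD]
        exact c7
      | some j => exact cJ j (Finset.some_mem_insertNone.1 ho)) (hA b0 kk c1 c2) d2 (by
      rw [hcardJ]
      have e1 : (J.card : ℝ) + 1 + 3 = J.card + 4 := by ring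
      rw [e1]
      refine le_trans ?_ hd2
      refine mul_le_mul_of_nonneg_left ?_ (by positivity)
      linarith)
  rw [hcardJ] at w3 w4
  have hp : 0 < Q1.pr (Zw Q1 b0 kk) (Zw Q1 b0 kk ω₀) := Q1.pr_pos _ w1
  refine ⟨b0, kk, e1, E, Zw Q1 b0 kk ω₀, Q1, Q1.cond (Zw Q1 b0 kk) (Zw Q1 b0 kk ω₀), nex1, w5, ⟨c1, c2, c5, q1, rfl, r1, ?_, w2,
    hpos1, hp, dm1, cond_dom Q1 _ _ hp, hsup1, fun ω hω => ⟨cond_supp Q1 _ _ hω, cond_supp' Q1 _ _ hp hω⟩, hD,
    fun f ω hω => cp_cond hD f hp hω, c7, ?_, lgt, fun j hj => ?_⟩⟩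
  · refine w3.trans (le_of_eq ?_)
    ring
  · have := w4 none Finset.none_mem_insertNone
    refine (show colp (Q1.cond (Zw Q1 b0 kk) (Zw Q1 b0 kk ω₀)) (Y (b0 + kk * s)) (Gb Q1 (b0 + kk * s)) ≤ _ from this).trans
      (le_of_eq ?_)
    show (((J.card : ℝ) + 1) + 3) * (2 * ε₁) / pg = _
    ring
  · have := w4 (some j) (Finset.some_mem_insertNone.2 hj)
    refine (show ψ j Q1 b0 kk (Zw Q1 b0 kk ω₀) ≤ _ from this).trans (le_of_eq ?_)
    show (((J.card : ℝ) + 1) + 3) * (16 * (J.card + 2) / μ * Φ j) / pg = _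
    ring

end Vale.Agent.P106.U
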