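import Vale.Agent.P106.U.H480.WordN
import Vale.Agent.P106.U.H480.Cost
import Vale.Agent.P106.U.H339.WordX
import Vale.Agent.P106.U.H465.GcK
import Vale.Agent.P106.U.H652.Sel6
import Vale.Agent.P106.U.H652.RunNum

/-!
# P106 / U / H480 : the selection over the concrete words and closures (helper480)

helper652's `sel6` with word 1 = `e.wd P n` (helper449), closures `GbC` (helper465), words = (all bits, joint word of the second paths).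

* `rtC`, `ZwC` : the joint words; `ZwC_dtm` (function of the closure at the cap), `ZwC_rt` (it determines the second paths).
* `Sel7` : the result: `SelG`, `Cn` for both laws, `GC` for the second law, price of the closure, activity, cost, prices.
* **`run_sel`** : hypotheses left: the bit (helper205) and one total cost `ψ`.
-/

set_option autoImplicit false

namespace Vale.Agent.P106.U.G480

open Finset Vale.Agent.P127 Vale.Agent.P127.Stk Vale.Agent.P127.U Vale.Agent.P106.W Vale.Agent.P106.K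
open Vale.Agent.P127.U.Nonat Vale.Agent.P127.U.YPat Vale.Agent.P127.U.JSB H565
open Vale.Agent.P106.U.H339W Vale.Agent.P106.U.H428.Cls
open Vale.Agent.P106.U.H449 Vale.Agent.P106.U.StripL Vale.Agent.P106.U.StripE Vale.Agent.P106.U.LinkW2
open Vale.Agent.P106.U.LSide Vale.Agent.P106.U.LinkR Vale.Agent.P106.U.InpC Vale.Agent.P106.U.GCof
open Vale.Agent.P106.U.H465.GcK

section defs

variable {Ω : Type} [Fintype Ω] {γ ζ₁ ζ₂ : Type} {T : Type*}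
variable (m : ℕ) (d0 : Ld) (e : Rl Ω 2 (ℤ × ℤ) γ ζ₁ ζ₂) (P : Law Ω) (n A : ℕ) (hm : 3 ≤ m) (c : ℝ) (F : ℕ → Ω → T)

/-- the second path, in the form of `H339W.Wd` -/
noncomputable def rtC (Q : Law Ω) (b : ℕ) (ω : Ω) (a : ℕ) : ℕ := RTC m d0 e P n A hm c F Q b a ω + (A - a)

/-- **the word of a window** : the bits and the second paths at the caps `b0, b0 + s, .., b0 + kk s` -/
noncomputable def ZwC (s : ℕ) (bt : Law Ω → ℕ → ℕ → Ω → Bool) (Q : Law Ω) (b0 kk : ℕ) (ω : Ω) :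
    (ℕ → Bool) × (ℕ → ℕ → ℕ) :=
  (fun j => if j ≤ kk then bt Q b0 j ω else false, jws A s (rtC m d0 e P n A hm c F Q) b0 kk ω)

end defs

section facts

variable {Ω : Type} [Fintype Ω] {γ ζ₁ ζ₂ : Type} {T : Type*}
  {m : ℕ} {d0 : Ld} {e : Rl Ω 2 (ℤ × ℤ) γ ζ₁ ζ₂} {P : Law Ω} {n A : ℕ} {hm : 3 ≤ m} {c : ℝ} {F : ℕ → Ω → T}
  {Q : Law Ω} {E : List (Lt 2)} {q : ℝ} {t κ : Ω → ℝ} {s : ℕ} {bt : Law Ω → ℕ → ℕ → Ω → Bool}

theorem rtC_eq (h : Cn e P Q n E q) : rtC m d0 e P n A hm c F Q = rtw (dC m d0 e P n E A hm (rR_mono h)) c Q F A := by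
  funext b ω a
  unfold rtC rtw
  rw [RTC_eq h]

/-- **the word is a function of the closure at the cap** -/
theorem ZwC_dtm (h : Cn e P Q n E q) {b0 kk : ℕ}
    (hbt : ∀ j ≤ kk, Dtm Q (GbC m d0 e P n A hm c F Q (b0 + j * s)) (bt Q b0 j)) :
    Dtm Q (GbC m d0 e P n A hm c F Q (b0 + kk * s)) (ZwC m d0 e P n A hm c F s bt Q b0 kk) := by
  intro ω ω' hω hω' he
  have hb : (fun j => if j ≤ kk then bt Q b0 j ω else false) = fun j => if j ≤ kk then bt Q b0 j ω' else false := by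
    funext j
    by_cases hj : j ≤ kk
    · rw [if_pos hj, if_pos hj]
      exact hbt j hj ω ω' hω hω' (GbC_nest h (Nat.add_le_add_left (Nat.mul_le_mul_right s hj) b0) he)
    · rw [if_neg hj, if_neg hj]
  refine Prod.ext hb ?_
  show jws A s (rtC m d0 e P n A hm c F Q) b0 kk ω = jws A s (rtC m d0 e P n A hm c F Q) b0 kk ω'
  rw [rtC_eq h]
  rw [GbC_eq h] at he
  exact jws_cls he

/-- the words are nested -/
theorem ZwC_nest {b0 kk kk' : ℕ} (hk : kk ≤ kk') {ω ω' : Ω}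
    (he : ZwC m d0 e P n A hm c F s bt Q b0 kk' ω = ZwC m d0 e P n A hm c F s bt Q b0 kk' ω') :
    ZwC m d0 e P n A hm c F s bt Q b0 kk ω = ZwC m d0 e P n A hm c F s bt Q b0 kk ω' := by
  have h1 := congrArg Prod.fst he
  have h2 := congrArg Prod.snd he
  refine Prod.ext (funext fun j => ?_) ?_
  · have h3 := congrFun h1 j
    simp only [ZwC] at h3 ⊢
    by_cases hj : j ≤ kk
    · rw [if_pos (hj.trans hk), if_pos (hj.trans hk)] at h3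
      rw [if_pos hj, if_pos hj]
      exact h3
    · rw [if_neg hj, if_neg hj]
  · exact jws_fn fun k hkk a ha => jws_eq h2 (hkk.trans hk) ha

/-- the bit of the cap `j ≤ kk` -/
theorem ZwC_bit {b0 kk : ℕ} {ω : Ω} {z : (ℕ → Bool) × (ℕ → ℕ → ℕ)} (hz : ZwC m d0 e P n A hm c F s bt Q b0 kk ω = z)
    {j : ℕ} (hj : j ≤ kk) : bt Q b0 j ω = z.1 j := by
  rw [← hz]
  simp only [ZwC, if_pos hj]

/-- **the word determines the second paths** -/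
theorem ZwC_rt {b0 kk : ℕ} {ω : Ω} {z : (ℕ → Bool) × (ℕ → ℕ → ℕ)} (hz : ZwC m d0 e P n A hm c F s bt Q b0 kk ω = z) {k a : ℕ}
    (hk : k ≤ kk) (ha : a ≤ A) : RTC m d0 e P n A hm c F Q (b0 + k * s) a ω = z.2 k a - (A - a) := by
  rw [← hz]
  show _ = jws A s (rtC m d0 e P n A hm c F Q) b0 kk ω k a - (A - a)
  rw [jws_apply ω hk ha]
  unfold rtC
  omega

end facts

/-- **the result of the selection** -/
structure Sel7 (σ : S5.Cst) (g : S5.Gv) (εW ε ε₁ pg CA : ℝ) (m Tc s : ℕ) {Ω : Type} [Fintype Ω] (P : Law Ω) (l : Ω → Ry) (t : Ω → ℝ)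
    (L h q : ℕ) (W : Ω → Cbx) {δ : Type} (v : Ω → ℝ) (Wd : Ω → δ) {γ ζ₁ ζ₂ : Type} (d0 : Ld) (e : Rl Ω 2 (ℤ × ℤ) γ ζ₁ ζ₂)
    (n A : ℕ) (hm : 3 ≤ m) (c : ℝ) (M1 : ℕ) (bt : Law Ω → ℕ → ℕ → Ω → Bool)
    (ψ : Law Ω → ℕ → ℕ → (ℕ → Bool) × (ℕ → ℕ → ℕ) → ℝ) (b0 kk : ℕ) (E1 : List (Lt 2)) (E : Finset ℕ)
    (e2 : (ℕ → Bool) × (ℕ → ℕ → ℕ)) (Q1 Q2 : Law Ω) : Prop where
  kT : kk < Tc
  room : b0 + Tc * s ≤ nBl σ.δ1 h m
  act : b0 + kk * s ∈ E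
  nex1 : NEx 100 σ.lam σ.N g.k g.β ε Q1 l t (fun _ => ()) L h q W
  nex2 : NEx 100 σ.lam σ.N g.k g.β ε Q2 l t (fun _ => ()) L h q W
  sel : ∃ ψ' : Law Ω → ℕ → ℕ → (ℕ → Bool) × (ℕ → ℕ → ℕ) → ℝ,
    SelG P (e.wd P n) M1 (nBl σ.δ1 h m) (ay σ.lam m) (σ.lam / 2) ε₁ (yb m v) (pst m v Wd)
      (GbC m d0 e P n A hm c (pst m v Wd)) (ZwC m d0 e P n A hm c (pst m v Wd) s bt) (fun _ _ kk z => ∀ j ≤ kk, z.1 j = true) pg
      (CA * h / m) s Tc ({()} : Finset Unit) (fun _ => ψ') (fun _ => 1) b0 kk E1 E e2 Q1 Q2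
  /-- word 1 -/
  cn1 : Cn e P Q1 n E1 (P.pr (fun ω => (e.wd P n ω, ypat P (nBl σ.δ1 h m) (yb m v) (pst m v Wd) (ay σ.lam m) ω)) (E1, E))
  cn2 : Cn e P Q2 n E1 (P.pr (fun ω => (e.wd P n ω, ypat P (nBl σ.δ1 h m) (yb m v) (pst m v Wd) (ay σ.lam m) ω)) (E1, E) *
    Q1.pr (ZwC m d0 e P n A hm c (pst m v Wd) s bt Q1 b0 kk) e2)
  bit : (∀ j ≤ kk, e2.1 j = true) ∧ ∀ ω, 0 < Q2.w ω → ∀ j ≤ kk, bt Q1 b0 j ω = true
  /-- the second paths are fixed -/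
  rt : ∀ k ≤ kk, ∀ a ≤ A, ∀ ω, 0 < Q2.w ω →
    RTC m d0 e P n A hm c (pst m v Wd) Q1 (b0 + k * s) a ω = e2.2 k a - (A - a)
  /-- the closure at the cap -/
  gc : GC m d0 e P n E1 Q2 A (GbC m d0 e P n A hm c (pst m v Wd) Q1 (b0 + kk * s)) (fun a => e2.2 kk a - (A - a))
    (gTC m d0 e P n A hm c (pst m v Wd) Q1 (b0 + kk * s)) c 0
  /-- its price -/
  prW : Stk.hc Q2 (GbC m d0 e P n A hm c (pst m v Wd) Q1 (b0 + kk * s)) (pst m v Wd (b0 + kk * s)) ≤ εW * h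
  /-- the directions are active given the closure -/
  colp : colp Q2 (yb m v (b0 + kk * s)) (GbC m d0 e P n A hm c (pst m v Wd) Q1 (b0 + kk * s)) ≤ 10 * ε₁ / pg
  cost : ψ Q1 b0 kk e2 ≤ 960 / (σ.lam * pg)
  /-- the price of the laws -/
  lp : Real.log (1 / (P.pr (fun ω => (e.wd P n ω, ypat P (nBl σ.δ1 h m) (yb m v) (pst m v Wd) (ay σ.lam m) ω)) (E1, E) *
    Q1.pr (ZwC m d0 e P n A hm c (pst m v Wd) s bt Q1 b0 kk) e2)) ≤ (CA + 2 + 480 * CA / (σ.lam * pg)) * h / m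

open S5

/-- **the selection over the concrete words and closures** -/
theorem run_sel {σ : Cst} (hσ : σ.Ok) {CA0 KR : ℝ} (hCA0 : 0 < CA0) (hKR : 0 ≤ KR) {εW ε₁ pg : ℝ} (hεW : 0 < εW) (hε₁ : 0 < ε₁)
    (hpg : 0 < pg) (hpg1 : pg ≤ 1) :
    ∃ CA : ℝ, CA0 ≤ CA ∧ ∃ c' : ℝ, 0 < c' ∧ c' ≤ 1 / 4 ∧ ∀ ε : ℝ, 0 < ε → ∃ d1 : ℝ, 0 < d1 ∧ ∀ g : Gv, g.Ok σ d1 → ∀ Kg : ℝ,
      ∃ m0 : ℕ, 3 ≤ m0 ∧ ∀ (m : ℕ) (hm : 3 ≤ m), m0 ≤ m → ∀ Tc s : ℕ, 0 < Tc → 1 ≤ s → ∃ h0 : ℕ,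
      ∀ (Ω : Type) [Fintype Ω] (P : Law Ω) (l : Ω → Ry) (t : Ω → ℝ) (L h q : ℕ) (W : Ω → Cbx), h0 ≤ h →
      NEx 100 σ.lam σ.N g.k g.β d1 P l t (fun _ => ()) L h q W →
      ∀ (δ : Type) (v : Ω → ℝ) (Wd : Ω → δ), (∀ ω, 0 < P.w ω → |v ω| ≤ 2) →
      (σ.lam - 8 * g.k) * (m * nBl σ.δ1 h m : ℕ) * Real.log 2 ≤
        Stk.hc P (fun ω => fl1 (m * nBl σ.δ1 h m) (v ω)) Wd + (3 * d1 * h * Real.log 2 + Kg) →
      ∀ (γ ζ₁ ζ₂ : Type) (d0 : Ld) (e : Rl Ω 2 (ℤ × ℤ) γ ζ₁ ζ₂) (n A : ℕ) (tW κ : Ω → ℝ) (c : ℝ) (M1 : ℕ),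
        IsL m d0 tW κ e → 0 ≤ c → c ≤ c' → (img (e.wd P n)).card ≤ M1 → Real.log M1 ≤ CA0 * h / m → m * A ≤ h →
        (∀ ω, 0 < P.w ω → (m : ℝ) * rR n (e.wd P n ω) A ≤ KR * h) →
      ∀ (bt : Law Ω → ℕ → ℕ → Ω → Bool) (ψ : Law Ω → ℕ → ℕ → (ℕ → Bool) × (ℕ → ℕ → ℕ) → ℝ),
        (∀ (E1 : List (Lt 2)) (E : Finset ℕ) (Q1 : Law Ω),
          Q1 = P.cond (fun ω => (e.wd P n ω, ypat P (nBl σ.δ1 h m) (yb m v) (pst m v Wd) (ay σ.lam m) ω)) (E1, E) →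
          σ.lam / 2 / (6 * (M1 * 2 ^ (nBl σ.δ1 h m))) ≤
            P.pr (fun ω => (e.wd P n ω, ypat P (nBl σ.δ1 h m) (yb m v) (pst m v Wd) (ay σ.lam m) ω)) (E1, E) →
          (∀ ω, 0 < Q1.w ω → 0 < P.w ω ∧ e.wd P n ω = E1 ∧
            ypat P (nBl σ.δ1 h m) (yb m v) (pst m v Wd) (ay σ.lam m) ω = E) →
          NEx 100 σ.lam σ.N g.k g.β ε Q1 l t (fun _ => ()) L h q W →
          Cn e P Q1 n E1 (P.pr (fun ω => (e.wd P n ω, ypat P (nBl σ.δ1 h m) (yb m v) (pst m v Wd) (ay σ.lam m) ω)) (E1, E)) →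
          (∀ b0 kk, kk < Tc → b0 + Tc * s ≤ nBl σ.δ1 h m →
            Dtm Q1 (GbC m d0 e P n A hm c (pst m v Wd) Q1 (b0 + kk * s)) (bt Q1 b0 kk)) ∧
          (∀ b0 kk, kk < Tc → b0 + Tc * s ≤ nBl σ.δ1 h m → pg ≤ prE Q1 (fun ω => ∀ j ≤ kk, bt Q1 b0 j ω = true)) ∧
          (∀ b0 kk, ∀ ω, 0 < Q1.w ω → 0 ≤ ψ Q1 b0 kk (ZwC m d0 e P n A hm c (pst m v Wd) s bt Q1 b0 kk ω)) ∧
          ∑ b0 ∈ range (nBl σ.δ1 h m + 1 - Tc * s), ∑ kk ∈ range Tc,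
            Q1.ex (fun ω => ψ Q1 b0 kk (ZwC m d0 e P n A hm c (pst m v Wd) s bt Q1 b0 kk ω)) ≤ nBl σ.δ1 h m * Tc) →
      0 < nBl σ.δ1 h m ∧ ∃ (b0 kk : ℕ) (E1 : List (Lt 2)) (E : Finset ℕ) (e2 : (ℕ → Bool) × (ℕ → ℕ → ℕ)) (Q1 Q2 : Law Ω),
        Sel7 σ g εW ε ε₁ pg CA m Tc s P l t L h q W v Wd d0 e n A hm c M1 bt ψ b0 kk E1 E e2 Q1 Q2 := by
  classical
  have hlam := hσ.bs.lam0
  have hδ := hσ.δ0
  -- constants
  obtain ⟨CAw, hCAw, HW⟩ := wordB 0 hKR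
  obtain ⟨CA, hCA⟩ : ∃ CA : ℝ, CA = max CA0 CAw := ⟨_, rfl⟩
  have hCA1 : CA0 ≤ CA := hCA ▸ le_max_left _ _
  have hCA2 : CAw ≤ CA := hCA ▸ le_max_right _ _
  have hCApos : 0 < CA := by linarith
  obtain ⟨κ0, hκ0⟩ : ∃ κ0 : ℝ, κ0 = min (σ.lam ^ 2 * σ.δ1 * ε₁ / 4096) (σ.lam * pg * εW / 960) := ⟨_, rfl⟩
  have hκpos : 0 < κ0 := by rw [hκ0]; positivity
  have hκa : κ0 ≤ σ.lam ^ 2 * σ.δ1 * ε₁ / 4096 := hκ0 ▸ min_le_left _ _
  have hκb : κ0 ≤ σ.lam * pg * εW / 960 := hκ0 ▸ min_le_right _ _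
  obtain ⟨c', hc', hc'4, m1, hm11, hgp⟩ := H652.gp_num (CX := 4 + KR) (κ := κ0) (by linarith) hκpos
  refine ⟨CA, hCA1, c', hc', hc'4, fun ε hε => ?_⟩
  obtain ⟨d1, hd1, H6⟩ := sel6 hσ hCApos hε hε₁ hpg hpg1
  refine ⟨d1, hd1, fun g hg Kg => ?_⟩
  obtain ⟨m2, hm2, H6'⟩ := H6 g hg Kg
  refine ⟨max (max m1 m2) 3, le_max_right _ _, fun m hm hmm Tc s hTc hs => ?_⟩
  have hmm1 : m1 ≤ m := ((le_max_left _ _).trans (le_max_left _ _)).trans hmm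
  have hmm2 : m2 ≤ m := ((le_max_right _ _).trans (le_max_left _ _)).trans hmm
  have hmpos : 0 < m := by omega
  have hmr : (0 : ℝ) < m := by exact_mod_cast hmpos
  obtain ⟨h1, H6''⟩ := H6' m hmm2 Tc s hTc
  obtain ⟨h2, HW'⟩ := HW σ.δ1 m Tc s hδ hmpos hTc hs
  refine ⟨max (max h1 h2) (max m 1), ?_⟩
  intro Ω _ P l t L h q W hh hne δ v Wd hv hgr γ ζ₁ ζ₂ d0 e n A tW κ c M1 hL hc0 hcc hM1 hlM1 hmA hRI bt ψ hall
  have hh1 : h1 ≤ h := ((le_max_left _ _).trans (le_max_left _ _)).trans hh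
  have hh2 : h2 ≤ h := ((le_max_right _ _).trans (le_max_left _ _)).trans hh
  have hh3 : m ≤ h := ((le_max_left _ _).trans (le_max_right _ _)).trans hh
  have hh4 : 1 ≤ h := ((le_max_right _ _).trans (le_max_right _ _)).trans hh
  have hhr : (0 : ℝ) < h := by exact_mod_cast hh4
  have hhm : (1 : ℝ) ≤ h / m := by
    rw [le_div_iff₀ hmr, one_mul]
    exact_mod_cast hh3
  obtain ⟨hTs, HW''⟩ := HW' h hh2
  set nB : ℕ := nBl σ.δ1 h m with hnB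
  -- the pasts
  have hF1 : ∀ (Q : Law Ω), ∀ b < nB, Fn Q (pst m v Wd (b + 1)) (fun ω => (pst m v Wd b ω, yb m v b ω)) := by
    intro Q b _ ω ω' _ _ he
    simp only [Prod.mk.injEq] at he
    obtain ⟨he1, he2⟩ := he
    unfold pst at he1 ⊢
    simp only [Prod.mk.injEq] at he1 ⊢
    refine ⟨he1.1, ?_⟩
    rw [fl1_succ, fl1_succ, he1.2, he2]
  have hF2 : ∀ (Q : Law Ω), ∀ b < nB, Fn Q (pst m v Wd b) (pst m v Wd (b + 1)) :=
    fun Q b _ ω ω' _ _ he => (pst_nest m v Wd b he).1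
  have hF3 : ∀ (Q : Law Ω), ∀ b < nB, Fn Q (yb m v b) (pst m v Wd (b + 1)) :=
    fun Q b _ ω ω' _ _ he => (pst_nest m v Wd b he).2
  -- the price of the closures
  have hprice : ∀ (E1 : List (Lt 2)) (Q1 : Law Ω) (q1 : ℝ), Cn e P Q1 n E1 q1 → (∃ ω, 0 < P.w ω ∧ e.wd P n ω = E1) →
      ((3 * A + rR n E1 A + 1 : ℕ) : ℝ) * (Real.log 5 + (2 * Real.sqrt c + c * ((m + 1) * Real.log 2))) ≤ κ0 * h := by
    intro E1 Q1 q1 _ hE1
    obtain ⟨ω₀, hω₀, hE1'⟩ := hE1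
    have e1 := hgp c hc0 hcc m h (3 * A + rR n E1 A + 1) hmm1 (by
      have r1 := hRI ω₀ hω₀
      rw [hE1'] at r1
      have r2 : (rR n E1 A : ℝ) ≤ KR * (h / m) := by
        rw [← mul_div_assoc, le_div_iff₀ hmr]
        linarith
      have r3 : (A : ℝ) ≤ h / m := by
        rw [le_div_iff₀ hmr]
        have : ((m * A : ℕ) : ℝ) ≤ h := by exact_mod_cast hmA
        push_cast at this
        linarith
      push_cast
      rw [mul_div_assoc]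
      linarith)
    have e2 : Real.log ((2 * 2 ^ m : ℕ) : ℝ) = (m + 1) * Real.log 2 := by
      push_cast
      rw [Real.log_mul (by norm_num) (by positivity), Real.log_pow]
      ring
    rwa [e2] at e1
  -- the total cost
  obtain ⟨ψ', hψ'⟩ : ∃ ψ' : Law Ω → ℕ → ℕ → (ℕ → Bool) × (ℕ → ℕ → ℕ) → ℝ, ∀ Q b0 kk z, ψ' Q b0 kk z = ψ Q b0 kk z / 2 +
      Stk.hc (Q.cond (ZwC m d0 e P n A hm c (pst m v Wd) s bt Q b0 kk) z) (GbC m d0 e P n A hm c (pst m v Wd) Q (b0 + kk * s))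
        (pst m v Wd (b0 + kk * s)) / (2 * (κ0 * h)) := ⟨_, fun _ _ _ _ => rfl⟩
  have hκh : 0 < κ0 * h := mul_pos hκpos hhr
  obtain ⟨r1, b0, kk, E1, E, e2, Q1, Q2, x1, x2, x3, x4, x5, x6⟩ := H6'' Ω P l t L h q W hh1 hne δ v Wd hv hgr (List (Lt 2))
    ((ℕ → Bool) × (ℕ → ℕ → ℕ)) (Set Ω) (e.wd P n) M1 (GbC m d0 e P n A hm c (pst m v Wd)) (ZwC m d0 e P n A hm c (pst m v Wd) s bt)
    (fun _ _ kk z => ∀ j ≤ kk, z.1 j = true) (κ0 * h) ψ' hM1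
    (hlM1.trans (by
      rw [mul_div_assoc, mul_div_assoc]
      exact mul_le_mul_of_nonneg_right hCA1 (by linarith)))
    (mul_le_mul_of_nonneg_right hκa hhr.le) (by
      intro E1 E Q1 q1 p1 sp nx
      have hpos : 0 < P.pr (fun ω => (e.wd P n ω, ypat P nB (yb m v) (pst m v Wd) (ay σ.lam m) ω)) (E1, E) := by
        obtain ⟨ω, hω⟩ := H465.GcK.ex_supp Q1
        obtain ⟨s1, s2, s3⟩ := sp ω hω
        have := P.pr_pos (fun ω => (e.wd P n ω, ypat P nB (yb m v) (pst m v Wd) (ay σ.lam m) ω)) s1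
        rwa [s2, s3] at this
      have hcn : Cn e P Q1 n E1 (P.pr (fun ω => (e.wd P n ω, ypat P nB (yb m v) (pst m v Wd) (ay σ.lam m) ω)) (E1, E)) := by
        refine ⟨hpos, fun ω => ?_, fun ω hω => (sp ω hω).2.1⟩
        rw [q1]
        exact H565.cond_dom P _ _ hpos ω
      obtain ⟨k1, k2, k3, k4⟩ := hall E1 E Q1 q1 p1 sp nx hcn
      obtain ⟨ω₀, hω₀⟩ := H465.GcK.ex_supp Q1
      have hE1 : ∃ ω, 0 < P.w ω ∧ e.wd P n ω = E1 := ⟨ω₀, (sp ω₀ hω₀).1, (sp ω₀ hω₀).2.1⟩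
      have hpr := hprice E1 Q1 _ hcn hE1
      refine ⟨fin2C hcn (hF1 Q1) (hF2 Q1) (hF3 Q1), (gpC' hcn hL hc0 (hF1 Q1) (hF3 Q1)).trans hpr, ?_, ?_, ?_, ?_, ?_⟩
      · exact fun b0 kk hkk hb0 => ZwC_dtm hcn fun j hj => k1 b0 j (lt_of_le_of_lt hj hkk) hb0
      · intro b0 kk hkk hb0
        refine (k2 b0 kk hkk hb0).trans (le_of_eq ?_)
        congr 1
        funext ω
        refine propext (forall₂_congr fun j hj => ?_)
        show bt Q1 b0 j ω = true ↔ (if j ≤ kk then bt Q1 b0 j ω else false) = true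
        rw [if_pos hj]
      · have w1 := HW'' Ω Q1 (dC m d0 e P n E1 A hm (rR_mono hcn)) c (δ × ℤ) (pst m v Wd) A (bt Q1) rfl (su hcn hL) hc0
          le_rfl hmA (by
            have := hRI ω₀ (sp ω₀ hω₀).1
            rwa [(sp ω₀ hω₀).2.1] at this)
        have w2 : ∀ b0 kk, ZwC m d0 e P n A hm c (pst m v Wd) s bt Q1 b0 kk =
            fun ω => (bts (bt Q1 b0) kk ω, jws A s (rtw (dC m d0 e P n E1 A hm (rR_mono hcn)) c Q1 (pst m v Wd) A) b0 kk ω) := by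
          intro b0 kk
          funext ω
          unfold ZwC bts
          rw [rtC_eq hcn]
        simp only [w2]
        refine w1.trans (mul_le_mul_of_nonneg_right ?_ (by positivity))
        rw [mul_div_assoc, mul_div_assoc]
        exact mul_le_mul_of_nonneg_right hCA2 (by linarith)
      · intro b0 kk ω hω
        rw [hψ']
        have a1 := k3 b0 kk ω hω
        have a2 := Stk.hc_nonneg (Q1.cond (ZwC m d0 e P n A hm c (pst m v Wd) s bt Q1 b0 kk)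
          (ZwC m d0 e P n A hm c (pst m v Wd) s bt Q1 b0 kk ω)) (GbC m d0 e P n A hm c (pst m v Wd) Q1 (b0 + kk * s))
          (pst m v Wd (b0 + kk * s))
        have a3 := div_nonneg a2 (mul_pos two_pos hκh).le
        linarith
      · have a1 : ∀ b0 kk, Q1.ex (fun ω => ψ' Q1 b0 kk (ZwC m d0 e P n A hm c (pst m v Wd) s bt Q1 b0 kk ω)) ≤
            Q1.ex (fun ω => ψ Q1 b0 kk (ZwC m d0 e P n A hm c (pst m v Wd) s bt Q1 b0 kk ω)) / 2 + 1 / 2 := by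
          intro b0 kk
          have a2 : Q1.ex (fun ω => ψ' Q1 b0 kk (ZwC m d0 e P n A hm c (pst m v Wd) s bt Q1 b0 kk ω)) =
              Q1.ex (fun ω => ψ Q1 b0 kk (ZwC m d0 e P n A hm c (pst m v Wd) s bt Q1 b0 kk ω)) / 2 +
              Q1.ex (fun ω => Stk.hc (Q1.cond (ZwC m d0 e P n A hm c (pst m v Wd) s bt Q1 b0 kk)
                (ZwC m d0 e P n A hm c (pst m v Wd) s bt Q1 b0 kk ω)) (GbC m d0 e P n A hm c (pst m v Wd) Q1 (b0 + kk * s))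
                (pst m v Wd (b0 + kk * s))) / (2 * (κ0 * h)) := by
            simp only [hψ']
            rw [Q1.ex_add]
            congr 1
            · simp only [div_eq_inv_mul]
              rw [Q1.ex_const_mul]
            · simp only [div_eq_inv_mul]
              rw [Q1.ex_const_mul]
          have a3 := hc_avg_le Q1 (pst m v Wd (b0 + kk * s)) (ZwC m d0 e P n A hm c (pst m v Wd) s bt Q1 b0 kk)
            (GbC m d0 e P n A hm c (pst m v Wd) Q1 (b0 + kk * s))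
          have a4 : Stk.hc Q1 (GbC m d0 e P n A hm c (pst m v Wd) Q1 (b0 + kk * s)) (pst m v Wd (b0 + kk * s)) ≤ κ0 * h :=
            (prWC' hcn hL hc0 (fun b ω ω' he => (pst_nest m v Wd b he).1) _).trans hpr
          rw [a2]
          have a5 : Q1.ex (fun ω => Stk.hc (Q1.cond (ZwC m d0 e P n A hm c (pst m v Wd) s bt Q1 b0 kk)
                (ZwC m d0 e P n A hm c (pst m v Wd) s bt Q1 b0 kk ω)) (GbC m d0 e P n A hm c (pst m v Wd) Q1 (b0 + kk * s))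
                (pst m v Wd (b0 + kk * s))) / (2 * (κ0 * h)) ≤ 1 / 2 := by
            rw [div_le_iff₀ (mul_pos two_pos hκh)]
            linarith
          linarith
        refine (Finset.sum_le_sum fun b0 _ => Finset.sum_le_sum fun kk _ => a1 b0 kk).trans ?_
        simp only [Finset.sum_add_distrib, Finset.sum_const, card_range, nsmul_eq_mul, ← Finset.sum_div]
        have a6 : ((nB + 1 - Tc * s : ℕ) : ℝ) ≤ nB := by
          have : nB + 1 - Tc * s ≤ nB := by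
            have : 0 < Tc * s := Nat.mul_pos hTc hs
            omega
          exact_mod_cast this
        have a7 : ((nB + 1 - Tc * s : ℕ) : ℝ) * (Tc * (1 / 2)) ≤ nB * (Tc * (1 / 2)) :=
          mul_le_mul_of_nonneg_right a6 (by positivity)
        linarith)
  have hpos1 := x3.pos1
  have hpos2 := x3.pos2
  have hcn1 : Cn e P Q1 n E1 (P.pr (fun ω => (e.wd P n ω, ypat P nB (yb m v) (pst m v Wd) (ay σ.lam m) ω)) (E1, E)) :=
    ⟨hpos1, x3.dom1, fun ω hω => (x3.sup1 ω hω).2.1⟩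
  have hcn2 : Cn e P Q2 n E1 (P.pr (fun ω => (e.wd P n ω, ypat P nB (yb m v) (pst m v Wd) (ay σ.lam m) ω)) (E1, E) *
      Q1.pr (ZwC m d0 e P n A hm c (pst m v Wd) s bt Q1 b0 kk) e2) := by
    refine ⟨mul_pos hpos1 hpos2, fun ω => ?_, fun ω hω => (x3.sup1 ω (x3.sup2 ω hω).1).2.1⟩
    have y1 := x3.dom1 ω
    have y2 := mul_le_mul_of_nonneg_left (x3.dom2 ω) hpos1.le
    rw [mul_assoc]
    exact y2.trans y1
  have hrt : ∀ k ≤ kk, ∀ a ≤ A, ∀ ω, 0 < Q2.w ω →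
      RTC m d0 e P n A hm c (pst m v Wd) Q1 (b0 + k * s) a ω = e2.2 k a - (A - a) :=
    fun k hk a ha ω hω => ZwC_rt (x3.sup2 ω hω).2 hk ha
  have hψ0 : 0 ≤ ψ Q1 b0 kk e2 ∧ 0 ≤ ψ' Q1 b0 kk e2 := by
    obtain ⟨ω₁, hω₁⟩ := H465.GcK.ex_supp Q2
    obtain ⟨y1, y2⟩ := x3.sup2 ω₁ hω₁
    obtain ⟨-, -, k3, -⟩ := hall E1 E Q1 x3.q1 x3.p1 x3.sup1 x1 hcn1
    have y3 := k3 b0 kk ω₁ y1
    rw [y2] at y3
    refine ⟨y3, ?_⟩
    rw [hψ']
    have a2 := Stk.hc_nonneg (Q1.cond (ZwC m d0 e P n A hm c (pst m v Wd) s bt Q1 b0 kk) e2)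
      (GbC m d0 e P n A hm c (pst m v Wd) Q1 (b0 + kk * s)) (pst m v Wd (b0 + kk * s))
    have a3 := div_nonneg a2 (mul_pos two_pos hκh).le
    linarith
  have hlp : 0 < σ.lam * pg := mul_pos hlam hpg
  rw [hψ'] at x5
  have hh0 := Stk.hc_nonneg (Q1.cond (ZwC m d0 e P n A hm c (pst m v Wd) s bt Q1 b0 kk) e2)
      (GbC m d0 e P n A hm c (pst m v Wd) Q1 (b0 + kk * s)) (pst m v Wd (b0 + kk * s))
  refine ⟨r1, b0, kk, E1, E, e2, Q1, Q2, x3.kT, x3.room, x3.act, x1, x2, ⟨ψ', x3⟩, hcn1, hcn2, ⟨x3.good, fun ω hω => ?_⟩, hrt,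
    ?_, ?_, x4, ?_, x6⟩
  · exact fun j hj => (ZwC_bit (x3.sup2 ω hω).2 hj).trans (x3.good j hj)
  · rw [x3.q2]
    refine H465.GcK.gc hcn1 hL hc0 (b0 + kk * s) _ e2 _ hpos2 x3.dtm fun a ha ω hω hz => ?_
    exact ZwC_rt hz le_rfl ha
  · have y1 : Stk.hc (Q1.cond (ZwC m d0 e P n A hm c (pst m v Wd) s bt Q1 b0 kk) e2)
        (GbC m d0 e P n A hm c (pst m v Wd) Q1 (b0 + kk * s)) (pst m v Wd (b0 + kk * s)) / (2 * (κ0 * h)) ≤
        480 / (σ.lam * pg) := by linarith [hψ0.1]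
    rw [div_le_iff₀ (mul_pos two_pos hκh)] at y1
    rw [x3.q2]
    refine y1.trans ?_
    rw [div_mul_eq_mul_div, div_le_iff₀ hlp]
    have y2 : κ0 * h ≤ σ.lam * pg * εW / 960 * h := mul_le_mul_of_nonneg_right hκb hhr.le
    linarith
  · have y1 : ψ Q1 b0 kk e2 / 2 ≤ 480 / (σ.lam * pg) := by
      have := div_nonneg hh0 (mul_pos two_pos hκh).le
      linarith
    have y2 : 960 / (σ.lam * pg) = 2 * (480 / (σ.lam * pg)) := by ring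
    rw [y2]
    linarith

end Vale.Agent.P106.U.G480
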