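import Vale.Agent.P106.U.H565.SelC
import Vale.Agent.P106.U.H61.KL

/-!
# P106 / U / H480 : YCH (helper480): activity of the direction blocks given a nested family of FINER pasts

Note 19650 (1b). `F b` past of the block `Y b` (law `P`, `Q`, `p Q ≤ P`), `G b` finer pasts (the closures `G_b`), nested.
* `chainF`, `chainG`, `price` : `∑ (H_Q(Y b | F b) - H_Q(Y b | G b)) ≤ H_Q(G 0 | F 0) + ∑ H_Q(G (b+1) | G b, Y b)`.
* `kapG`, `coll_leG`, `few_badG` : small collision probability given the finer past.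
* `place` : choice of a place `b0` and of a cap `b0 + k s` (active, finitely many averages).
-/

set_option autoImplicit false

namespace Vale.Agent.P106.U.G480

open Finset Vale.Agent.P127 Vale.Agent.P127.Stk Vale.Agent.P127.U Vale.Agent.P127.U.Nonat Vale.Agent.P127.U.YPat

variable {Ω : Type} [Fintype Ω] {S T U V : Type*}

/-- nested pasts `F b`, blocks `Y b`, finer nested pasts `G b` -/
structure Fin2 (Q : Law Ω) (B : ℕ) (Y : ℕ → Ω → S) (F : ℕ → Ω → T) (G : ℕ → Ω → V) : Prop where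
  F1 : ∀ b < B, Fn Q (F (b + 1)) (fun ω => (F b ω, Y b ω))
  F2 : ∀ b < B, Fn Q (F b) (F (b + 1))
  F3 : ∀ b < B, Fn Q (Y b) (F (b + 1))
  FG : ∀ b ≤ B, Fn Q (F b) (G b)
  GG : ∀ b < B, Fn Q (G b) (G (b + 1))

namespace Fin2

variable {Q : Law Ω} {B : ℕ} {Y : ℕ → Ω → S} {F : ℕ → Ω → T} {G : ℕ → Ω → V}

theorem f0 (h : Fin2 Q B Y F G) : ∀ b ≤ B, Fn Q (F 0) (F b) := by
  intro b
  induction b with
  | zero => exact fun _ => fun _ _ _ _ e => e
  | succ n ih => exact fun hn => KL.Fn_trans (ih (by omega)) (h.F2 n (by omega))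

theorem g0 (h : Fin2 Q B Y F G) : ∀ b ≤ B, Fn Q (G 0) (G b) := by
  intro b
  induction b with
  | zero => exact fun _ => fun _ _ _ _ e => e
  | succ n ih => exact fun hn => KL.Fn_trans (ih (by omega)) (h.GG n (by omega))

theorem chainF (h : Fin2 Q B Y F G) : ∀ b ≤ B, Stk.hc Q (F b) (F 0) = ∑ j ∈ range b, Stk.hc Q (Y j) (F j) := by
  intro b
  induction b with
  | zero =>
    intro _
    rw [Finset.sum_range_zero]
    exact Stk.hc_zero Q fun _ _ _ _ e => e
  | succ n ih =>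
    intro hn
    rw [Finset.sum_range_succ, ← ih (by omega)]
    have h1 := Stk.hc_pair Q (F n) (Y n) (F 0)
    have h2 : Stk.hc Q (F (n + 1)) (F 0) = Stk.hc Q (fun ω => (F n ω, Y n ω)) (F 0) := by
      refine le_antisymm (Stk.hc_mono_left Q fun ω ω' a b e => ?_) (Stk.hc_mono_left Q fun ω ω' a b e => ?_)
      · exact h.F1 n (by omega) ω ω' a b (congrArg Prod.fst e)
      · have e1 : F (n + 1) ω = F (n + 1) ω' := congrArg Prod.fst e
        exact Prod.ext (h.F2 n (by omega) ω ω' a b e1) (h.F3 n (by omega) ω ω' a b e1)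
    have h3 : Stk.hc Q (Y n) (fun ω => (F n ω, F 0 ω)) = Stk.hc Q (Y n) (F n) := by
      refine le_antisymm (Stk.hc_mono_right Q _ fun ω ω' a b e => congrArg Prod.fst e)
        (Stk.hc_mono_right Q _ fun ω ω' a b e => Prod.ext e (h.f0 n (by omega) ω ω' a b e))
    rw [h2, h1, h3]

theorem chainG (h : Fin2 Q B Y F G) : ∀ b ≤ B, Stk.hc Q (G b) (G 0) =
    ∑ j ∈ range b, (Stk.hc Q (Y j) (G j) + Stk.hc Q (G (j + 1)) (fun ω => (G j ω, Y j ω))) := by
  intro b
  induction b with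
  | zero =>
    intro _
    rw [Finset.sum_range_zero]
    exact Stk.hc_zero Q fun _ _ _ _ e => e
  | succ n ih =>
    intro hn
    rw [Finset.sum_range_succ, ← ih (by omega)]
    have h1 := Stk.hc_pair Q (G n) (fun ω => (Y n ω, G (n + 1) ω)) (G 0)
    have h2 : Stk.hc Q (G (n + 1)) (G 0) = Stk.hc Q (fun ω => (G n ω, (Y n ω, G (n + 1) ω))) (G 0) := by
      refine le_antisymm (Stk.hc_mono_left Q fun ω ω' a b e => ?_) (Stk.hc_mono_left Q fun ω ω' a b e => ?_)
      · exact congrArg (fun x => x.1.2.2) e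
      · have e1 : G (n + 1) ω = G (n + 1) ω' := congrArg Prod.fst e
        have e2 : F (n + 1) ω = F (n + 1) ω' := h.FG (n + 1) hn ω ω' a b e1
        exact Prod.ext (h.GG n (by omega) ω ω' a b e1) (Prod.ext (h.F3 n (by omega) ω ω' a b e2) e1)
    have h3 : Stk.hc Q (fun ω => (Y n ω, G (n + 1) ω)) (fun ω => (G n ω, G 0 ω)) =
        Stk.hc Q (fun ω => (Y n ω, G (n + 1) ω)) (G n) := by
      refine le_antisymm (Stk.hc_mono_right Q _ fun ω ω' a b e => congrArg Prod.fst e)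
        (Stk.hc_mono_right Q _ fun ω ω' a b e => Prod.ext e (h.g0 n (by omega) ω ω' a b e))
    have h4 := Stk.hc_pair Q (Y n) (G (n + 1)) (G n)
    have h5 : Stk.hc Q (G (n + 1)) (fun ω => (Y n ω, G n ω)) = Stk.hc Q (G (n + 1)) (fun ω => (G n ω, Y n ω)) := by
      refine le_antisymm (Stk.hc_mono_right Q _ fun ω ω' a b e => ?_) (Stk.hc_mono_right Q _ fun ω ω' a b e => ?_)
      · simp only [Prod.mk.injEq] at e ⊢
        exact ⟨e.2, e.1⟩
      · simp only [Prod.mk.injEq] at e ⊢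
        exact ⟨e.2, e.1⟩
    rw [h2, h1, h3, h4, h5]

/-- **price** of the finer pasts -/
theorem price (h : Fin2 Q B Y F G) : ∑ b ∈ range B, (Stk.hc Q (Y b) (F b) - Stk.hc Q (Y b) (G b)) ≤
    Stk.hc Q (G 0) (F 0) + ∑ b ∈ range B, Stk.hc Q (G (b + 1)) (fun ω => (G b ω, Y b ω)) := by
  have h1 := h.chainF B le_rfl
  have h2 := h.chainG B le_rfl
  have h3 : Stk.hc Q (F B) (F 0) ≤ Stk.hc Q (G B) (F 0) :=
    Stk.hc_mono_left Q fun ω ω' a b e => h.FG B le_rfl ω ω' a b (congrArg Prod.fst e)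
  have h4 := Stk.hc_le_add' Q (G B) (G 0) (F 0)
  have h5 : Stk.hc Q (G B) (fun ω => (G 0 ω, F 0 ω)) ≤ Stk.hc Q (G B) (G 0) :=
    Stk.hc_mono_right Q _ fun ω ω' a b e => congrArg Prod.fst e
  rw [Finset.sum_sub_distrib]
  rw [Finset.sum_add_distrib] at h2
  linarith

/-- information of the closures on the blocks -/
theorem mi_price (h : Fin2 Q B Y F G) : ∑ b ∈ range B, (Stk.hc Q (Y b) (F b) - Stk.hc Q (Y b) (fun ω => (G b ω, F b ω))) ≤
    Stk.hc Q (G 0) (F 0) + ∑ b ∈ range B, Stk.hc Q (G (b + 1)) (fun ω => (G b ω, Y b ω)) := by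
  refine le_trans (Finset.sum_le_sum fun b hb => ?_) h.price
  have : Stk.hc Q (Y b) (G b) ≤ Stk.hc Q (Y b) (fun ω => (G b ω, F b ω)) :=
    Stk.hc_mono_right Q _ fun ω ω' a b' e => Prod.ext e (h.FG b (Finset.mem_range.1 hb).le ω ω' a b' e)
  linarith

end Fin2

/-- the mean of a kernel against the conditional probabilities -/
theorem ex_ratio_ker (Q : Law Ω) (X : Ω → S) (C : Ω → T) (κ : S → T → ℝ) (h0 : ∀ x c, 0 ≤ κ x c)
    (h1 : ∀ c (A : Finset S), ∑ x ∈ A, κ x c ≤ 1) : Q.ex (fun ω => κ (X ω) (C ω) / cp Q X C ω) ≤ 1 := by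
  classical
  have h1' := Pin.ex_sp Q (fun ω => (X ω, C ω)) (fun q =>
    κ q.1 q.2 / (Q.pr (fun ω => (X ω, C ω)) q / Q.pr C q.2))
  have h2 : Q.ex (fun ω => κ (X ω) (C ω) / cp Q X C ω) = ∑ q ∈ Pin.sp Q (fun ω => (X ω, C ω)),
      Q.pr (fun ω => (X ω, C ω)) q * (κ q.1 q.2 / (Q.pr (fun ω => (X ω, C ω)) q / Q.pr C q.2)) := h1'
  rw [h2]
  have h3 : ∀ q ∈ Pin.sp Q (fun ω => (X ω, C ω)),
      Q.pr (fun ω => (X ω, C ω)) q * (κ q.1 q.2 / (Q.pr (fun ω => (X ω, C ω)) q / Q.pr C q.2)) =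
      Q.pr C q.2 * κ q.1 q.2 := by
    intro q hq
    have h4 : 0 < Q.pr (fun ω => (X ω, C ω)) q := Pin.sp_pos Q _ hq
    have h5 : 0 < Q.pr C q.2 := h4.trans_le (pr_pair_le Q X C q.1 q.2)
    field_simp
  rw [Finset.sum_congr rfl h3]
  have hsub : Pin.sp Q (fun ω => (X ω, C ω)) ⊆ img X ×ˢ img C := by
    intro q hq
    have h4 : 0 < Q.pr (fun ω => (X ω, C ω)) q := Pin.sp_pos Q _ hq
    by_contra hcon
    have h6 : q ∉ img (fun ω => (X ω, C ω)) := by
      intro h7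
      obtain ⟨ω, rfl⟩ := mem_img.1 h7
      exact hcon (Finset.mem_product.2 ⟨mem_img.2 ⟨ω, rfl⟩, mem_img.2 ⟨ω, rfl⟩⟩)
    rw [Pin.pr_zero_of_not_img Q _ h6] at h4
    exact lt_irrefl _ h4
  refine (Finset.sum_le_sum_of_subset_of_nonneg hsub fun q _ _ =>
    mul_nonneg (Q.pr_nonneg _ _) (h0 _ _)).trans ?_
  rw [Finset.sum_product_right]
  have h4 : ∀ c ∈ img C, ∑ x ∈ img X, Q.pr C c * κ x c ≤ Q.pr C c := by
    intro c _
    rw [← Finset.mul_sum]
    calc _ ≤ Q.pr C c * 1 := mul_le_mul_of_nonneg_left (h1 c _) (Q.pr_nonneg _ _)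
      _ = _ := mul_one _
  exact (Finset.sum_le_sum h4).trans (Pin.sum_pr_le_one Q C _)

/-- relative entropy with a finer past on the side of `Q` -/
noncomputable def kapG (Q P : Law Ω) (X : Ω → S) (G : Ω → V) (F : Ω → T) : ℝ :=
  Q.ex fun ω => Real.log (cp Q X G ω) - Real.log (cp P X F ω)

theorem kapG_eq (Q P : Law Ω) (X : Ω → S) (G : Ω → V) (F : Ω → T) :
    kapG Q P X G F = kap Q P X F + (Stk.hc Q X F - Stk.hc Q X G) := by
  rw [KL.hc_ex_cp, KL.hc_ex_cp]
  unfold kapG kap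
  rw [← Q.ex_sub, ← Q.ex_add]
  refine Q.ex_congr fun ω _ => ?_
  ring

theorem ex_ratioG {Q P : Law Ω} (X : Ω → S) {G : Ω → V} {F : Ω → T} (h : Fn Q F G) :
    Q.ex (fun ω => cp P X F ω / cp Q X G ω) ≤ 1 := by
  have h1 := ex_ratio_ker Q X (fun ω => (G ω, F ω)) (fun x c => P.pr (fun ω => (X ω, F ω)) (x, c.2) / P.pr F c.2)
    (fun _ _ => div_nonneg (P.pr_nonneg _ _) (P.pr_nonneg _ _)) (fun c A => by
      rw [← Finset.sum_div]
      exact div_le_one_of_le₀ (P.sum_pr_pair_le X F c.2 A) (P.pr_nonneg _ _))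
  refine le_trans (le_of_eq (Q.ex_congr fun ω hω => ?_)) h1
  rw [KL.cp_congr Q X (Z := G) (Y := fun ω => (G ω, F ω)) (fun a b _ _ e => congrArg Prod.fst e)
    (fun a b ha hb e => Prod.ext e (h a b ha hb e)) hω]
  rfl

theorem kapG_nonneg {Q P : Law Ω} (hQP : ∀ ω, 0 < Q.w ω → 0 < P.w ω) (X : Ω → S) {G : Ω → V} {F : Ω → T} (h : Fn Q F G) :
    0 ≤ kapG Q P X G F := by
  have h1 := ex_ratioG (Q := Q) (P := P) X h
  have h2 : Q.ex (fun ω => 1 - cp P X F ω / cp Q X G ω) ≤ kapG Q P X G F := by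
    refine Q.ex_mono fun ω hω => ?_
    have a := YPat.cp_pos (P := P) X F (hQP ω hω)
    have b := YPat.cp_pos (P := Q) X G hω
    have h3 := Real.log_le_sub_one_of_pos (div_pos a b)
    rw [Real.log_div a.ne' b.ne'] at h3
    linarith
  rw [Q.ex_sub, Q.ex_const] at h2
  linarith

/-- **small collision probability** given the finer past -/
theorem coll_leG {Q P : Law Ω} (hQP : ∀ ω, 0 < Q.w ω → 0 < P.w ω) (X : Ω → S) {G : Ω → V} {F : Ω → T} (hFG : Fn Q F G)
    {thr ε : ℝ} (ht : 0 < thr) (hε : thr < ε) (h : ∀ ω, 0 < Q.w ω → cp P X F ω ≤ thr) :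
    colp Q X G ≤ ε + (kapG Q P X G F + 1) / Real.log (ε / thr) := by
  have hL : 0 < Real.log (ε / thr) := Real.log_pos (by rwa [one_lt_div ht])
  have hε0 : 0 < ε := ht.trans hε
  have h1 := ex_ratioG (Q := Q) (P := P) X hFG
  have key : ∀ ω, 0 < Q.w ω → Real.log (ε / thr) * (cp Q X G ω - ε) ≤
      (Real.log (cp Q X G ω) - Real.log (cp P X F ω)) + cp P X F ω / cp Q X G ω := by
    intro ω hω
    set q := cp Q X G ω with hq
    set g := cp P X F ω with hg
    have a : 0 < g := YPat.cp_pos (P := P) X F (hQP ω hω)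
    have b : 0 < q := YPat.cp_pos (P := Q) X G hω
    have hq1 : q ≤ 1 := YPat.cp_le_one Q X G ω
    have hgt : g ≤ thr := h ω hω
    have h3 := Real.log_le_sub_one_of_pos (div_pos a b)
    rw [Real.log_div a.ne' b.ne'] at h3
    have hr : 0 ≤ g / q := (div_pos a b).le
    rcases lt_or_ge q ε with h4 | h4
    · have : Real.log (ε / thr) * (q - ε) ≤ 0 :=
        mul_nonpos_of_nonneg_of_nonpos hL.le (by linarith)
      linarith
    · have h5 : Real.log (ε / thr) ≤ Real.log q - Real.log g := by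
        rw [Real.log_div hε0.ne' ht.ne']
        have := Real.log_le_log hε0 h4
        have := Real.log_le_log a hgt
        linarith
      have h6 : Real.log (ε / thr) * (q - ε) ≤ Real.log (ε / thr) * 1 :=
        mul_le_mul_of_nonneg_left (by linarith) hL.le
      linarith
  have h2 := Q.ex_mono key
  rw [Q.ex_const_mul, Q.ex_sub, Q.ex_const, Q.ex_add] at h2
  have h3 : Real.log (ε / thr) * (colp Q X G - ε) ≤ kapG Q P X G F + 1 := by
    unfold colp kapG
    linarith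
  have h4 : colp Q X G - ε ≤ (kapG Q P X G F + 1) / Real.log (ε / thr) := by
    rw [le_div_iff₀ hL, mul_comm]
    exact h3
  linarith

/-- sum of the relative entropies with finer pasts -/
theorem sum_kapG {Q P : Law Ω} {p : ℝ} (hp : 0 < p) (hd : ∀ ω, p * Q.w ω ≤ P.w ω) {B : ℕ} {Y : ℕ → Ω → S} {F : ℕ → Ω → T}
    {G : ℕ → Ω → V}
    (hF : ∀ k, k < B → ∀ ω ω', 0 < P.w ω → 0 < P.w ω' → F (k + 1) ω = F (k + 1) ω' → F k ω = F k ω' ∧ Y k ω = Y k ω')
    (hQ : Fin2 Q B Y F G) :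
    ∑ b ∈ range B, kapG Q P (Y b) (G b) (F b) ≤ Real.log (1 / p) + (Stk.hc Q (G 0) (F 0) +
      ∑ b ∈ range B, Stk.hc Q (G (b + 1)) (fun ω => (G b ω, Y b ω))) := by
  have h1 := sum_kap_le hp hd Y F B hF
  have h2 := hQ.price
  simp only [kapG_eq, Finset.sum_add_distrib]
  linarith

/-- **few blocks with a collision probability above `2 ε` given the finer past** -/
theorem few_badG {Q P : Law Ω} {p : ℝ} (hp : 0 < p) (hd : ∀ ω, p * Q.w ω ≤ P.w ω) {B : ℕ} {Y : ℕ → Ω → S} {F : ℕ → Ω → T}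
    {G : ℕ → Ω → V}
    (hF : ∀ k, k < B → ∀ ω ω', 0 < P.w ω → 0 < P.w ω' → F (k + 1) ω = F (k + 1) ω' → F k ω = F k ω' ∧ Y k ω = Y k ω')
    (hQ : Fin2 Q B Y F G) {thr ε : ℝ} (ht : 0 < thr) (hε : thr < ε) (K : Finset ℕ) (hK : K ⊆ range B)
    (h : ∀ k ∈ K, ∀ ω, 0 < Q.w ω → cp P (Y k) (F k) ω ≤ thr) (hb : ∀ k ∈ K, 2 * ε < colp Q (Y k) (G k)) :
    (K.card : ℝ) * (ε * Real.log (ε / thr)) ≤ Real.log (1 / p) + (Stk.hc Q (G 0) (F 0) +
      ∑ b ∈ range B, Stk.hc Q (G (b + 1)) (fun ω => (G b ω, Y b ω))) + K.card := by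
  have hQP : ∀ ω, 0 < Q.w ω → 0 < P.w ω := fun ω h => (mul_pos hp h).trans_le (hd ω)
  have hL : 0 < Real.log (ε / thr) := Real.log_pos (by rwa [one_lt_div ht])
  have h1 := sum_kapG hp hd hF hQ
  have h2 : ∑ k ∈ K, kapG Q P (Y k) (G k) (F k) ≤ ∑ k ∈ range B, kapG Q P (Y k) (G k) (F k) :=
    Finset.sum_le_sum_of_subset_of_nonneg hK fun k hk _ => kapG_nonneg hQP _ (hQ.FG k (Finset.mem_range.1 hk).le)
  have h3 : ∑ _k ∈ K, ε * Real.log (ε / thr) ≤ ∑ k ∈ K, (kapG Q P (Y k) (G k) (F k) + 1) := by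
    refine Finset.sum_le_sum fun k hk => ?_
    have h4 := coll_leG hQP (Y k) (hQ.FG k (Finset.mem_range.1 (hK hk)).le) ht hε (h k hk)
    have h5 := hb k hk
    have h6 : ε < (kapG Q P (Y k) (G k) (F k) + 1) / Real.log (ε / thr) := by linarith
    rw [lt_div_iff₀ hL] at h6
    exact h6.le
  rw [Finset.sum_const, nsmul_eq_mul, Finset.sum_add_distrib, Finset.sum_const, nsmul_eq_mul,
    mul_one] at h3
  linarith

/-- **choice of a place and of a cap** : active caps `G` of density `ρ` in `range B`, windows `b0 + k s`, `k < T`, and finitely many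
nonnegative costs with small averages over all places and caps -/
theorem place {B s T : ℕ} {G : Finset ℕ} {ρ : ℝ} (hG : G ⊆ range B) (hρ : 0 < ρ) (hB : 0 < B) (hT : 0 < T)
    (hcard : ρ * B ≤ G.card) (hs : ((T * s : ℕ) : ℝ) ≤ ρ / 2 * B) {ι : Type*} (J : Finset ι) (φ : ι → ℕ → ℕ → ℝ) (Φ : ι → ℝ)
    (h0 : ∀ j ∈ J, ∀ b0 k, 0 ≤ φ j b0 k) (hΦ : ∀ j ∈ J, 0 < Φ j)
    (havg : ∀ j ∈ J, ∑ b0 ∈ range (B + 1 - T * s), ∑ k ∈ range T, φ j b0 k ≤ Φ j * (B * T)) :
    ∃ b0 k, k < T ∧ b0 + T * s ≤ B ∧ b0 + k * s ∈ G ∧ ∀ j ∈ J, φ j b0 k ≤ 2 * (J.card + 1) / ρ * Φ j := by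
  classical
  by_contra hcon
  push Not at hcon
  have hBr : (0 : ℝ) < B := by exact_mod_cast hB
  have hTr : (0 : ℝ) < T := by exact_mod_cast hT
  have hcB : (G.card : ℝ) ≤ B := by
    have := Finset.card_le_card hG
    rw [card_range] at this
    exact_mod_cast this
  have hρ1 : ρ ≤ 1 := by
    by_contra h
    push Not at h
    nlinarith
  have hsB : T * s ≤ B := by
    have h1 : ((T * s : ℕ) : ℝ) ≤ B := hs.trans (by nlinarith)
    exact_mod_cast h1
  set Bp : ℕ := B + 1 - T * s with hBp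
  set Pr : Finset (ℕ × ℕ) := (range Bp ×ˢ range T).filter fun p => p.1 + p.2 * s ∈ G with hPr
  -- number of pairs
  have hk : ∀ k ∈ range T, (G.card : ℝ) - (T * s : ℕ) ≤ (((range Bp).filter fun b0 => b0 + k * s ∈ G).card : ℝ) := by
    intro k hk
    have hkT := Finset.mem_range.1 hk
    have hks : k * s ≤ T * s := Nat.mul_le_mul_right s hkT.le
    have h1 : G ⊆ ((range Bp).filter fun b0 => b0 + k * s ∈ G).image (fun b0 => b0 + k * s) ∪
        (range (k * s) ∪ Finset.Ico (Bp + k * s) B) := by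
      intro g hg
      have hgB := Finset.mem_range.1 (hG hg)
      rw [Finset.mem_union, Finset.mem_union, Finset.mem_image, Finset.mem_range, Finset.mem_Ico]
      rcases lt_or_ge g (k * s) with h2 | h2
      · exact Or.inr (Or.inl h2)
      · rcases lt_or_ge g (Bp + k * s) with h3 | h3
        · refine Or.inl ⟨g - k * s, ?_, by omega⟩
          rw [Finset.mem_filter, Finset.mem_range]
          refine ⟨by omega, ?_⟩
          rwa [Nat.sub_add_cancel h2]
        · exact Or.inr (Or.inr ⟨h3, hgB⟩)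
    have h2 := Finset.card_le_card h1
    have h3 := h2.trans ((Finset.card_union_le _ _).trans (Nat.add_le_add_left (Finset.card_union_le _ _) _))
    have h4 := Finset.card_image_le (s := (range Bp).filter fun b0 => b0 + k * s ∈ G) (f := fun b0 => b0 + k * s)
    rw [card_range, Nat.card_Ico] at h3
    have h5 : G.card ≤ ((range Bp).filter fun b0 => b0 + k * s ∈ G).card + T * s := by omega
    have h6 : (G.card : ℝ) ≤ (((range Bp).filter fun b0 => b0 + k * s ∈ G).card : ℝ) + (T * s : ℕ) := by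
      exact_mod_cast h5
    linarith
  have hPc : ρ / 2 * B * T ≤ (Pr.card : ℝ) := by
    have h1 : (Pr.card : ℝ) = ∑ k ∈ range T, (((range Bp).filter fun b0 => b0 + k * s ∈ G).card : ℝ) := by
      rw [hPr, Finset.card_filter]
      push_cast
      rw [Finset.sum_product_right]
      refine Finset.sum_congr rfl fun k _ => ?_
      rw [Finset.card_filter]
      push_cast
      rfl
    rw [h1]
    have h2 : ∑ _k ∈ range T, ρ / 2 * B ≤
        ∑ k ∈ range T, (((range Bp).filter fun b0 => b0 + k * s ∈ G).card : ℝ) := by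
      refine Finset.sum_le_sum fun k hk' => ?_
      have := hk k hk'
      linarith
    rw [Finset.sum_const, card_range, nsmul_eq_mul] at h2
    linarith
  -- the costs
  have h1 : ∑ p ∈ Pr, ∑ j ∈ J, φ j p.1 p.2 / Φ j ≤ J.card * (B * T) := by
    rw [Finset.sum_comm]
    have h2 : ∀ j ∈ J, ∑ p ∈ Pr, φ j p.1 p.2 / Φ j ≤ B * T := by
      intro j hj
      rw [← Finset.sum_div, div_le_iff₀ (hΦ j hj)]
      have h3 : ∑ p ∈ Pr, φ j p.1 p.2 ≤ ∑ p ∈ range Bp ×ˢ range T, φ j p.1 p.2 :=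
        Finset.sum_le_sum_of_subset_of_nonneg (Finset.filter_subset _ _) fun p _ _ => h0 j hj _ _
      rw [Finset.sum_product] at h3
      have h4 := havg j hj
      linarith
    have h5 := Finset.sum_le_sum h2
    rw [Finset.sum_const, nsmul_eq_mul] at h5
    exact h5
  have h2 : (Pr.card : ℝ) * (2 * (J.card + 1) / ρ) ≤ ∑ p ∈ Pr, ∑ j ∈ J, φ j p.1 p.2 / Φ j := by
    rw [← nsmul_eq_mul, ← Finset.sum_const]
    refine Finset.sum_le_sum fun p hp => ?_
    rw [hPr, Finset.mem_filter, Finset.mem_product, Finset.mem_range, Finset.mem_range] at hp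
    obtain ⟨⟨p1, p2⟩, p3⟩ := hp
    obtain ⟨j, hj, hj2⟩ := hcon p.1 p.2 p2 (by omega) p3
    refine le_trans ?_ (Finset.single_le_sum (f := fun j => φ j p.1 p.2 / Φ j)
      (fun i hi => div_nonneg (h0 i hi _ _) (hΦ i hi).le) hj)
    rw [le_div_iff₀ (hΦ j hj)]
    exact hj2.le
  have h3 : ρ / 2 * B * T * (2 * (J.card + 1) / ρ) ≤ (Pr.card : ℝ) * (2 * (J.card + 1) / ρ) :=
    mul_le_mul_of_nonneg_right hPc (by positivity)
  have h4 : ρ / 2 * B * T * (2 * (J.card + 1) / ρ) = (J.card + 1) * (B * T) := by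
    field_simp
  rw [h4] at h3
  have h5 : (0 : ℝ) < B * T := mul_pos hBr hTr
  nlinarith

end Vale.Agent.P106.U.G480
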