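import Vale.Agent.P106.U.H480.RunSel
import Vale.Agent.P106.U.H315.KR
import Vale.Agent.P106.U.H315.GroC
import Vale.Agent.P106.U.H652.NumsH
import Vale.Agent.P106.U.H465.GcR

/-!
# P106 / U / H480 : the selection for the data `c : C0` (helper480)

* `hf σ` : `σ` with the caps halved;  `hf_ok`, `hf_g`.
* **`app_sel`** : `run_sel` for `c : C0` (565), caps `b0 + Tc s ≤ nBl (δ1 / 2) h m`, `8 B < b0`, one cost `ψ` (average `≤ 1`);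
  hypotheses on `c` : `St`, `Good`, `NEx`; hypotheses left : the bit (`Dtm`, joint probability `≥ pg`), the cost.
-/

set_option autoImplicit false

namespace Vale.Agent.P106.U.G480

open Finset Vale.Agent.P127 Vale.Agent.P127.Stk Vale.Agent.P127.U Vale.Agent.P106.W Vale.Agent.P106.K
open Vale.Agent.P127.U.Nonat Vale.Agent.P127.U.YPat Vale.Agent.P127.U.JSB H565
open Vale.Agent.P106.U.H339W Vale.Agent.P106.U.H428.Cls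
open Vale.Agent.P106.U.H449 Vale.Agent.P106.U.StripL Vale.Agent.P106.U.StripE Vale.Agent.P106.U.LinkW2
open Vale.Agent.P106.U.LSide Vale.Agent.P106.U.LinkR Vale.Agent.P106.U.InpC Vale.Agent.P106.U.GCof
open Vale.Agent.P106.U.H465.GcK

open S5

/-- the caps halved -/
noncomputable def hf (σ : Cst) : Cst := { σ with δ1 := σ.δ1 / 2 }

theorem hf_ok {σ : Cst} (h : σ.Ok) : (hf σ).Ok where
  bs := h.bs
  θ0 := h.θ0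
  θ4 := h.θ4
  δ0 := half_pos h.δ0
  δθ := by
    have h1 := h.δθ
    have h2 := h.δ0
    show 8 * (σ.δ1 / 2) ≤ σ.θ
    linarith
  δC := by
    have h1 := h.δC
    have h2 : 40 * σ.C1 * (σ.δ1 / 2) = 40 * σ.C1 * σ.δ1 / 2 := by ring
    show 40 * σ.C1 * (σ.δ1 / 2) ≤ 1
    linarith

theorem hf_g {σ : Cst} {ε : ℝ} {g : Gv} (h : g.Ok σ ε) : g.Ok (hf σ) ε := ⟨h.k0, h.kε, h.β0, h.βb, h.bε, h.b3, h.fix⟩

/-- **the selection for the data `c`** -/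
theorem app_sel {σ : Cst} (hσ : σ.Ok) {εW ε₁ pg : ℝ} (hεW : 0 < εW) (hε₁ : 0 < ε₁) (hpg : 0 < pg) (hpg1 : pg ≤ 1) :
    ∃ CA : ℝ, 0 < CA ∧ ∃ c' : ℝ, 0 < c' ∧ c' ≤ 1 / 4 ∧ ∀ ε : ℝ, 0 < ε → ∃ d1 : ℝ, 0 < d1 ∧ ∀ g : Gv, g.Ok σ d1 →
      ∃ m0 : ℕ, 3 ≤ m0 ∧ ∀ m : ℕ, m0 ≤ m → ∀ B Tc s : ℕ, 0 < Tc → 1 ≤ s → ∃ h0 : ℕ,
      ∀ (Ω : Type) [Fintype Ω] (c : C0 Ω) (hm : 3 ≤ c.I.m) (Rm N0 : ℕ), c.St Rm → c.I.Good (σ.K1 + 1 / 2) N0 →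
        c.I.m = m → c.I.δ1 = σ.δ1 → h0 ≤ c.I.h →
        NEx 100 σ.lam σ.N g.k g.β d1 c.P c.l c.t (fun _ => ()) c.L c.I.h c.I.q c.W →
      ∀ (cc : ℝ), 0 ≤ cc → cc ≤ c' →
      ∀ (bt : Law Ω → ℕ → ℕ → Ω → Bool) (ψ : Law Ω → ℕ → ℕ → (ℕ → Bool) × (ℕ → ℕ → ℕ) → ℝ),
        (∀ (Q1 : Law Ω) (E1 : List (Lt 2)) (x1 : ℝ), Cn c.rule c.P Q1 c.I.pm.n E1 x1 →
          NEx 100 σ.lam σ.N g.k g.β ε Q1 c.l c.t (fun _ => ()) c.L c.I.h c.I.q c.W →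
          (∀ b0 kk, kk < Tc → b0 + Tc * s ≤ nBl (σ.δ1 / 2) c.I.h c.I.m → Dtm Q1 (c.Gb hm cc Q1 (b0 + kk * s)) (bt Q1 b0 kk)) ∧
          (∀ b0 kk, kk < Tc → b0 + Tc * s ≤ nBl (σ.δ1 / 2) c.I.h c.I.m → pg ≤ prE Q1 (fun ω => ∀ j ≤ kk, bt Q1 b0 j ω = true)) ∧
          (∀ b0 kk, ∀ ω, 0 < Q1.w ω → 0 ≤ ψ Q1 b0 kk (ZwC c.I.m c.d0 c.rule c.P c.I.pm.n c.I.ha hm cc c.Fy s bt Q1 b0 kk ω)) ∧
          ∑ b0 ∈ range (nBl (σ.δ1 / 2) c.I.h c.I.m + 1 - Tc * s), ∑ kk ∈ range Tc,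
            Q1.ex (fun ω => ψ Q1 b0 kk (ZwC c.I.m c.d0 c.rule c.P c.I.pm.n c.I.ha hm cc c.Fy s bt Q1 b0 kk ω)) ≤
            nBl (σ.δ1 / 2) c.I.h c.I.m * Tc) →
      ∃ (ψ' : Law Ω → ℕ → ℕ → (ℕ → Bool) × (ℕ → ℕ → ℕ) → ℝ) (b0 kk : ℕ) (E1 : List (Lt 2)) (E : Finset ℕ)
        (e2 : (ℕ → Bool) × (ℕ → ℕ → ℕ)) (Q1 Q2 : Law Ω),
        Sel7 (hf σ) g εW ε ε₁ pg CA c.I.m Tc s c.P c.l c.t c.L c.I.h c.I.q c.W c.v c.Wd c.d0 c.rule c.I.pm.n c.I.ha hm cc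
          (H315.M1 c.I) bt ψ' b0 kk E1 E e2 Q1 Q2 ∧ 8 * B < b0 ∧ ψ Q1 b0 kk e2 ≤ 1920 / (σ.lam * pg) := by
  have hσ' := hf_ok hσ
  have hK1 : 0 ≤ σ.K1 + 1 / 2 := by have := hσ.bs.K10; linarith
  have hlam := hσ.bs.lam0
  have hlp : 0 < σ.lam * pg := mul_pos hlam hpg
  have hCA0 : 0 < H315.cW1 (σ.K1 + 1 / 2) := H315.cW1_pos hK1
  obtain ⟨CA, hCA, c', hc', hc'4, H⟩ := run_sel hσ' hCA0 (H315.KR_nn hK1) hεW hε₁ hpg hpg1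
  refine ⟨CA, by linarith, c', hc', hc'4, fun ε hε => ?_⟩
  obtain ⟨d1, hd1, H⟩ := H ε hε
  refine ⟨d1, hd1, fun g hg => ?_⟩
  obtain ⟨Kg, hKg, hgr⟩ := H315.gro hσ' hd1 (hf_g hg)
  obtain ⟨m0, hm0, H⟩ := H g (hf_g hg) Kg
  refine ⟨m0, hm0, fun m hmm B Tc s hTc hs => ?_⟩
  have hmpos : 0 < m := by omega
  obtain ⟨h1, H⟩ := H m (by omega) hmm Tc s hTc hs
  obtain ⟨h2, hbig⟩ := H652.nBl_big (half_pos hσ.δ0) hmpos (1920 / (σ.lam * pg) * ((8 * B + 1 : ℕ) : ℝ))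
  refine ⟨max (max h1 h2) 1, ?_⟩
  intro Ω _ c hm Rm N0 st good em eδ hh hne cc hc0 hcc bt ψ hall
  subst em
  have hh1 : h1 ≤ c.I.h := ((le_max_left _ _).trans (le_max_left _ _)).trans hh
  have hh2 : h2 ≤ c.I.h := ((le_max_right _ _).trans (le_max_left _ _)).trans hh
  have hh3 : 1 ≤ c.I.h := (le_max_right _ _).trans hh
  have hbig' := hbig c.I.h hh2
  set nB : ℕ := nBl (σ.δ1 / 2) c.I.h c.I.m with hnB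
  have hq : c.I.m * nBl (σ.δ1 / 2) c.I.h c.I.m ≤ c.I.q := H315.nBl_q good (by
    have := hσ.δ0
    rw [eδ]
    linarith)
  obtain ⟨ψ', hψ'⟩ : ∃ ψ' : Law Ω → ℕ → ℕ → (ℕ → Bool) × (ℕ → ℕ → ℕ) → ℝ,
    ∀ Q b0 kk z, ψ' Q b0 kk z = (ψ Q b0 kk z + H652.lowc nB (8 * B + 1) b0) / 2 := ⟨_, fun _ _ _ _ => rfl⟩
  obtain ⟨-, b0, kk, E1, E, e2, Q1, Q2, S⟩ := H Ω c.P c.l c.t c.L c.I.h c.I.q c.W hh1 hne (Cbx × ℤ) c.v c.Wd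
    (fun ω hω => H315.v_le st hω) (hgr Ω c Rm st hh3 hne (σ.δ1 / 2) hq) (Option (ℤ × ℤ)) (Ry × ℤ) Unit c.d0 c.rule
    c.I.pm.n c.I.ha c.tW c.κ cc (H315.M1 c.I) (C0.isL0 st.in0) hc0 hcc (H315.hM1 c) (H315.hlM1 c good) (H315.hmA c good)
    (H315.hRI c good) bt ψ' (by
      intro E1 E Q1 q1 p1 sp nx cn
      obtain ⟨k1, k2, k3, k4⟩ := hall Q1 E1 _ cn nx
      refine ⟨k1, k2, fun b0 kk ω hω => ?_, ?_⟩
      · rw [hψ']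
        have a1 := k3 b0 kk ω hω
        have a2 := H652.lowc_nonneg nB (8 * B + 1) b0
        have a3 : (0 : ℝ) ≤ ψ Q1 b0 kk (ZwC c.I.m c.d0 c.rule c.P c.I.pm.n c.I.ha hm cc c.Fy s bt Q1 b0 kk ω) +
          H652.lowc nB (8 * B + 1) b0 := by linarith
        exact div_nonneg a3 two_pos.le
      · have a1 : ∀ b0 kk, Q1.ex (fun ω => ψ' Q1 b0 kk (ZwC c.I.m c.d0 c.rule c.P c.I.pm.n c.I.ha hm cc c.Fy s bt Q1 b0 kk ω)) =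
            (Q1.ex (fun ω => ψ Q1 b0 kk (ZwC c.I.m c.d0 c.rule c.P c.I.pm.n c.I.ha hm cc c.Fy s bt Q1 b0 kk ω)) +
              H652.lowc nB (8 * B + 1) b0) / 2 := by
          intro b0 kk
          simp only [hψ', div_eq_inv_mul]
          rw [Q1.ex_const_mul, Q1.ex_add, Q1.ex_const]
        have a2 := H652.lowc_sum (nB := nB) (z0 := 8 * B + 1) (by omega) (nB + 1 - Tc * s) Tc
        have a3 : ∑ b0 ∈ range (nB + 1 - Tc * s), ∑ kk ∈ range Tc,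
            Q1.ex (fun ω => ψ' Q1 b0 kk (ZwC c.I.m c.d0 c.rule c.P c.I.pm.n c.I.ha hm cc c.Fy s bt Q1 b0 kk ω)) =
            (∑ b0 ∈ range (nB + 1 - Tc * s), ∑ kk ∈ range Tc,
              Q1.ex (fun ω => ψ Q1 b0 kk (ZwC c.I.m c.d0 c.rule c.P c.I.pm.n c.I.ha hm cc c.Fy s bt Q1 b0 kk ω)) +
            ∑ b0 ∈ range (nB + 1 - Tc * s), ∑ _kk ∈ range Tc, H652.lowc nB (8 * B + 1) b0) / 2 := by
          simp only [a1, ← Finset.sum_div, Finset.sum_add_distrib]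
        show ∑ b0 ∈ range (nB + 1 - Tc * s), ∑ kk ∈ range Tc,
            Q1.ex (fun ω => ψ' Q1 b0 kk (ZwC c.I.m c.d0 c.rule c.P c.I.pm.n c.I.ha hm cc c.Fy s bt Q1 b0 kk ω)) ≤ nB * Tc
        rw [a3]
        have a4 : ∑ b0 ∈ range (nB + 1 - Tc * s), ∑ kk ∈ range Tc,
              Q1.ex (fun ω => ψ Q1 b0 kk (ZwC c.I.m c.d0 c.rule c.P c.I.pm.n c.I.ha hm cc c.Fy s bt Q1 b0 kk ω)) ≤ nB * Tc := k4
        linarith)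
  refine ⟨ψ', b0, kk, E1, E, e2, Q1, Q2, S, ?_⟩
  have hcost := S.cost
  rw [hψ'] at hcost
  have hlow := H652.lowc_nonneg nB (8 * B + 1) b0
  have hC : 960 / (σ.lam * pg) * 2 = 1920 / (σ.lam * pg) := by ring
  have hcost' : ψ Q1 b0 kk e2 + H652.lowc nB (8 * B + 1) b0 ≤ 1920 / (σ.lam * pg) := by
    have h9 : (ψ Q1 b0 kk e2 + H652.lowc nB (8 * B + 1) b0) / 2 ≤ 960 / (σ.lam * pg) := hcost
    rw [div_le_iff₀ two_pos] at h9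
    linarith
  have hψ0 : 0 ≤ ψ Q1 b0 kk e2 := by
    obtain ⟨ψ'', x3⟩ := S.sel
    obtain ⟨ω₁, hω₁⟩ := H465.GcK.ex_supp Q2
    obtain ⟨y1, y2⟩ := x3.sup2 ω₁ hω₁
    obtain ⟨-, -, k3, -⟩ := hall Q1 E1 _ S.cn1 S.nex1
    have y3 := k3 b0 kk ω₁ y1
    have y4 : ZwC c.I.m c.d0 c.rule c.P c.I.pm.n c.I.ha hm cc c.Fy s bt Q1 b0 kk ω₁ = e2 := y2
    rwa [y4] at y3
  refine ⟨?_, by linarith⟩
  have h8 := H652.lowc_get (nB := nB) (z0 := 8 * B + 1) (b0 := b0) (C := 1920 / (σ.lam * pg)) (by linarith) hbig'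
  omega

end Vale.Agent.P106.U.G480
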