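import Vale.Agent.P106.U.H480.Tot
import Vale.Agent.P106.U.CellN
import Vale.Agent.P106.U.H786.Adp
import Vale.Agent.P106.U.H864.Ax

/-!
# P106 / U / H480 : BAS (helper480): start label of a cell, upper bound of the information of the ray after a cell

* `ofF θ s F` : the functional of `H786` with the numbers `F` at the time `s` (inverse of `toF`).
* `cell_close` : two rays of one cell `(i, b)` (`Lev i b`) are `Close` at the level `a i`, widths `2^-rk i`, `1`.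
* `start_lab` : a box which is a function of the cell and a label of level `a i`, shape `(0, rk i)`, of all rays of the cell.
* `bas` : `I(l ; (Y, W, t_h) | cell i b) ≤ (3 (h - a_i) + (1 - lam + k') (q - rk_i) - (β - d) h + (β' + ε) a_i) log 2 +
  H(Y | W, t_h) + H(cell i b | Y, W, t_h) + K`.
-/

set_option autoImplicit false

namespace Vale.Agent.P106.U.G480

open Vale.Agent.P127 Vale.Agent.P127.Stk Vale.Agent.P127.U Vale.Agent.P106.W Vale.Agent.P106.K Vale.Agent.P106.U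
open Vale.Agent.P106.U.H523
open Vale.Agent.P122.C2 (fw fn)
open Vale.Agent.P127.U.CellD (q2 rd q2_pos q2_le q2_add)
open Vale.Agent.P106.U.H786 (Close)
open Vale.Agent.P106.U.H786.Adp (toR toF)

/-- the functional with the numbers `F` at the time `s` -/
noncomputable def ofF (θ s : ℝ) (F : Cell.Fu) : H786.Fu where
  e := ![-(Real.cos θ * F.ph) - Real.sin θ * F.ga, -(Real.sin θ * F.ph) + Real.cos θ * F.ga]
  κ := -F.ka - F.al * s
  α := F.al / 2

theorem toF_ofF (θ s : ℝ) (F : Cell.Fu) : toF θ s (ofF θ s F) = F := by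
  have hs := Real.sin_sq_add_cos_sq θ
  have e1 : fn θ (ofF θ s F).e = F.ga := by
    simp [fn, ofF]
    linear_combination F.ga * hs
  have e2 : fw θ (ofF θ s F).e = -F.ph := by
    simp [fw, ofF]
    linear_combination -(F.ph * hs)
  ext
  · exact e1
  · show -(fw θ (ofF θ s F).e) = F.ph
    rw [e2, neg_neg]
  · show -((ofF θ s F).κ + 2 * (ofF θ s F).α * s) = F.ka
    simp only [ofF]
    ring
  · show 2 * (ofF θ s F).α = F.al
    simp only [ofF]
    ring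

theorem abs_rot (θ : ℝ) (u : Fin 2 → ℝ) (k : Fin 2) : |u k| ≤ |fw θ u| + |fn θ u| := by
  have hs := Real.sin_sq_add_cos_sq θ
  have h1 := Real.abs_cos_le_one θ
  have h2 := Real.abs_sin_le_one θ
  have hm : ∀ c x : ℝ, |c| ≤ 1 → |c * x| ≤ |x| := fun c x hc => by
    rw [abs_mul]
    calc |c| * |x| ≤ 1 * |x| := mul_le_mul_of_nonneg_right hc (abs_nonneg _)
      _ = |x| := one_mul _
  fin_cases k
  · show |u 0| ≤ _
    have e : u 0 = Real.cos θ * fw θ u - Real.sin θ * fn θ u := by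
      simp only [fw, fn]
      linear_combination -(u 0 * hs)
    rw [e]
    exact (abs_sub _ _).trans (add_le_add (hm _ _ h1) (hm _ _ h2))
  · show |u 1| ≤ _
    have e : u 1 = Real.sin θ * fw θ u + Real.cos θ * fn θ u := by
      simp only [fw, fn]
      linear_combination -(u 1 * hs)
    rw [e]
    exact (abs_add_le _ _).trans (add_le_add (hm _ _ h2) (hm _ _ h1))

theorem pow_q2 (a : ℕ) : (2 : ℝ) ^ a * q2 a = 1 := by
  unfold q2
  rw [← mul_pow]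
  norm_num

theorem pow_q2_le {a n m : ℕ} (h : a + m ≤ n) : (2 : ℝ) ^ a * q2 n ≤ q2 m := by
  calc (2 : ℝ) ^ a * q2 n ≤ 2 ^ a * q2 (a + m) := mul_le_mul_of_nonneg_left (q2_le h) (by positivity)
    _ = (2 ^ a * q2 a) * q2 m := by rw [q2_add]; ring
    _ = q2 m := by rw [pow_q2, one_mul]

theorem q2_one (n : ℕ) : q2 n ≤ 1 := by
  unfold q2
  exact pow_le_one₀ (by norm_num) (by norm_num)

variable {Ω τ : Type}

/-- two rays of one cell -/
theorem cell_close (C : Cell.Pth Ω τ) {θ : ℝ} {l : Ω → Ry} (hl : ∀ ω, C.l ω = toR θ (l ω)) {K : ℝ} (hK : 1 ≤ K) {i b : ℕ}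
    (hLev : C.Lev i b) {ω ω' : Ω} (n1 : 1 ≤ K * (C.F i ω).cN (C.l ω) (C.s i ω)) (k1 : |(C.F i ω).ka| ≤ K)
    (a1 : |(C.F i ω).al| * q2 (C.a i) ≤ K) (h : C.cell i b ω = C.cell i b ω') :
    Close (3 * K ^ 2) ((1 / 2 : ℝ) ^ C.rk i) ((1 / 2 : ℝ) ^ 0) ((ofF θ (C.s i ω) (C.F i ω)).lev (C.a i) (C.s i ω))
      (bl (C.a i) (l ω') (C.t ω')) (bl (C.a i) (l ω) (C.t ω)) := by
  obtain ⟨hN, -⟩ := Cell.Pth.Nr_of_cell hLev h
  obtain ⟨hb, hR⟩ := hLev
  have hT : C.T i ω = C.T i ω' := (Cell.Pth.cell_iff.1 h).1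
  have s2 : C.s i ω' = C.s i ω := Cell.Pth.s_eq hT
  have q1 : qa (C.a i) (C.t ω) = C.s i ω := rfl
  have q2' : qa (C.a i) (C.t ω') = C.s i ω := by
    rw [← s2]; rfl
  have hRk : C.rk i ≤ C.R i b := by unfold Cell.Pth.R; omega
  obtain ⟨nv, nw, nX, nN, nz, nc, ng⟩ := hN
  set a := C.a i with ha
  set s := C.s i ω with hs
  set F := C.F i ω with hF
  set G := ofF θ s F with hG
  have hGF : toF θ s G = F := toF_ofF θ s F
  have p2 : (0 : ℝ) < 2 ^ a := by positivity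
  have hK2 : 1 ≤ K ^ 2 := one_le_pow₀ hK
  -- positions
  have eX : ∀ ω1, (C.l ω1).X s = fw θ ((l ω1).pos s) := fun ω1 => by rw [hl, H786.Adp.toR_X]
  have eN : ∀ ω1, (C.l ω1).N s = fn θ ((l ω1).pos s) := fun ω1 => by rw [hl, H786.Adp.toR_N]
  have X1 : 2 ^ a * |(C.l ω').X s - (C.l ω).X s| ≤ 1 := by
    refine (mul_le_mul_of_nonneg_left nX p2.le).trans ((pow_q2_le (m := 0) (by omega)).trans_eq ?_)
    simp [q2]
  have N1 : 2 ^ a * |(C.l ω').N s - (C.l ω).N s| ≤ 1 := by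
    refine (mul_le_mul_of_nonneg_left nN p2.le).trans ((pow_q2_le (m := 0) (by omega)).trans_eq ?_)
    simp [q2]
  have v1 : |(C.l ω').v - (C.l ω).v| ≤ 1 := nv.trans (q2_one _)
  have w1 : |(C.l ω').w - (C.l ω).w| ≤ 1 := nw.trans (q2_one _)
  -- length
  have hlen : 1 / K ≤ G.len (l ω) := by
    have e := H786.Adp.toF_cN θ s G (l ω)
    rw [hGF, ← hl] at e
    have h1 : fn θ (G.cov (l ω)) ^ 2 ≤ G.cov (l ω) 0 ^ 2 + G.cov (l ω) 1 ^ 2 := by
      have := H786.Adp.norm_sq θ (G.cov (l ω))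
      nlinarith [sq_nonneg (fw θ (G.cov (l ω)))]
    have h2 : fn θ (G.cov (l ω)) ≤ G.len (l ω) := by
      unfold H786.Fu.len
      exact (le_abs_self _).trans (Real.abs_le_sqrt h1)
    rw [← e] at h2
    rw [div_le_iff₀ (by linarith)]
    nlinarith
  have hlen' : (G.lev a s).len (bl a (l ω) (C.t ω)) = G.len (l ω) := by
    have := H786.Fu.lev_len G a (l ω) (C.t ω)
    rwa [q1] at this
  have hc1 : 3 * K ≤ 3 * K ^ 2 * G.len (l ω) := by
    have h1 : 3 * K = 3 * K ^ 2 * (1 / K) := by field_simp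
    rw [h1]
    exact mul_le_mul_of_nonneg_left hlen (by positivity)
  refine ⟨fun k => ?_, fun k => ?_, ?_, ?_, ?_, ?_, ?_, ?_⟩
  · have e : (bl a (l ω') (C.t ω')).y k - (bl a (l ω) (C.t ω)).y k =
        2 ^ a * (((l ω').pos s - (l ω).pos s) k) := by
      simp only [bl, q1, q2', Pi.sub_apply]
      ring
    rw [e, abs_mul, abs_of_pos p2]
    have h1 := abs_rot θ ((l ω').pos s - (l ω).pos s) k
    have e1 : fw θ ((l ω').pos s - (l ω).pos s) = (C.l ω').X s - (C.l ω).X s := by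
      rw [eX, eX]; simp only [fw, Pi.sub_apply]; ring
    have e2 : fn θ ((l ω').pos s - (l ω).pos s) = (C.l ω').N s - (C.l ω).N s := by
      rw [eN, eN]; simp only [fn, Pi.sub_apply]; ring
    rw [e1, e2] at h1
    have h2 := mul_le_mul_of_nonneg_left h1 p2.le
    rw [mul_add] at h2
    simp only [pow_zero, mul_one]
    linarith
  · have e : (bl a (l ω') (C.t ω')).s k - (bl a (l ω) (C.t ω)).s k = (((l ω').s - (l ω).s) k) := rfl
    rw [e]
    have h1 := abs_rot θ ((l ω').s - (l ω).s) k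
    have e1 : fw θ ((l ω').s - (l ω).s) = (C.l ω').v - (C.l ω).v := by
      rw [hl, hl]; simp only [toR, fw, Pi.sub_apply]; ring
    have e2 : fn θ ((l ω').s - (l ω).s) = (C.l ω').w - (C.l ω).w := by
      rw [hl, hl]; simp only [toR, fn, Pi.sub_apply]; ring
    rw [e1, e2] at h1
    simp only [pow_zero, mul_one]
    linarith
  · have e := H786.Adp.bl_dz θ a (l ω) (l ω') (C.t ω)
    rw [q1, ← hl, ← hl] at e
    have e0 : bl a (l ω') (C.t ω') = bl a (l ω') (C.t ω) := by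
      unfold bl
      rw [q1, q2']
    rw [e0, e, abs_mul, abs_of_pos p2]
    have h1 : 2 ^ a * |(C.l ω).dz (C.l ω') s| ≤ 3 * 1 := by
      calc 2 ^ a * |(C.l ω).dz (C.l ω') s| ≤ 2 ^ a * (3 * q2 (a + 2 * b - 3 * C.μ)) := mul_le_mul_of_nonneg_left nz p2.le
        _ = 3 * (2 ^ a * q2 (a + 2 * b - 3 * C.μ)) := by ring
        _ ≤ 3 * 1 := by
            refine mul_le_mul_of_nonneg_left ((pow_q2_le (m := 0) (by omega)).trans_eq ?_) (by norm_num)
            simp [q2]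
    simp only [pow_zero, one_pow, mul_one]
    linarith
  · have e := H786.Adp.lev_g θ a G (l ω) (C.t ω)
    have e' := H786.Adp.lev_g θ a G (l ω') (C.t ω')
    rw [q1, hGF, ← hl] at e
    rw [q2', hGF, ← hl] at e'
    rw [e, e', ← mul_sub, abs_mul, abs_of_pos p2, hlen']
    calc 2 ^ a * |F.g (C.l ω') s - F.g (C.l ω) s| ≤ 2 ^ a * (2 * q2 (a + b + C.R i b - 7 * C.μ)) :=
          mul_le_mul_of_nonneg_left ng p2.le
      _ = 2 * (2 ^ a * q2 (a + b + C.R i b - 7 * C.μ)) := by ring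
      _ ≤ 2 * q2 (C.rk i) := mul_le_mul_of_nonneg_left (pow_q2_le (by omega)) (by norm_num)
      _ ≤ 3 * K ^ 2 * G.len (l ω) * (1 / 2 : ℝ) ^ C.rk i := by
          refine mul_le_mul_of_nonneg_right ?_ (q2_pos _).le
          linarith
  · have e := H786.Adp.lev_gd θ a G (l ω) (C.t ω)
    have e' := H786.Adp.lev_gd θ a G (l ω') (C.t ω')
    rw [q1, hGF, ← hl] at e
    rw [q2', hGF, ← hl] at e'
    rw [e, e', hlen']
    calc |F.gd (C.l ω') s - F.gd (C.l ω) s| ≤ 2 * q2 (C.R i b + b - 5 * C.μ) := nc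
      _ ≤ 2 * q2 (C.rk i) := mul_le_mul_of_nonneg_left (q2_le (by omega)) (by norm_num)
      _ ≤ 3 * K ^ 2 * G.len (l ω) * (1 / 2 : ℝ) ^ C.rk i := by
          refine mul_le_mul_of_nonneg_right ?_ (q2_pos _).le
          linarith
  · rw [hlen']
    exact lt_of_lt_of_le (by positivity) hlen
  · rw [hlen']
    have e : |(G.lev a s).α| = |F.al| * q2 a / 2 := by
      simp only [H786.Fu.lev, hG, ofF, q2, abs_div, abs_two, abs_pow, one_div, inv_pow]
      field_simp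
    rw [e, pow_zero, mul_one]
    have := abs_nonneg F.al
    linarith
  · rw [hlen']
    have e : (G.lev a s).κ = -F.ka := by
      simp only [H786.Fu.lev, hG, ofF]
      ring
    rw [e, abs_neg, pow_zero, mul_one]
    linarith

/-- **start label** of the cell: a box which is a function of the cell and a label of level `a i`, shape `(0, rk i)` -/
theorem start_lab [Fintype Ω] (P : Law Ω) (C : Cell.Pth Ω τ) {θ : ℝ} {l : Ω → Ry} (hl : ∀ ω, C.l ω = toR θ (l ω)) {K : ℝ}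
    (hK : 1 ≤ K) {i b : ℕ} (hLev : C.Lev i b)
    (ok : ∀ ω, 0 < P.w ω → 1 ≤ K * (C.F i ω).cN (C.l ω) (C.s i ω) ∧ |(C.F i ω).ka| ≤ K ∧
      |(C.F i ω).al| * q2 (C.a i) ≤ K) {L : ℕ} (hL : C.a i + C.rk i ≤ L) :
    ∃ A : τ × Cell.Pth.Dg → Cbx, ∀ ω, 0 < P.w ω →
      LbOk (3 * K ^ 2) L (C.a i) (A (C.cell i b ω)) (l ω) (C.t ω) ∧ (A (C.cell i b ω)).u2 = 1 ∧
        (A (C.cell i b ω)).u1 = (1 / 2 : ℝ) ^ C.rk i := by
  classical
  have hrep : ∃ r : τ × Cell.Pth.Dg → Ω, ∀ ω, 0 < P.w ω → 0 < P.w (r (C.cell i b ω)) ∧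
      C.cell i b (r (C.cell i b ω)) = C.cell i b ω := by
    have hex : ∃ ω, 0 < P.w ω := by
      by_contra hcon
      push Not at hcon
      have : ∑ ω, P.w ω ≤ 0 := Finset.sum_nonpos fun ω _ => hcon ω
      rw [P.sum_one] at this
      linarith
    obtain ⟨ω0, _⟩ := hex
    refine ⟨fun d => if hd : ∃ ω, 0 < P.w ω ∧ C.cell i b ω = d then hd.choose else ω0, fun ω hω => ?_⟩
    have hd : ∃ ω', 0 < P.w ω' ∧ C.cell i b ω' = C.cell i b ω := ⟨ω, hω, rfl⟩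
    simp only [dif_pos hd]
    exact hd.choose_spec
  obtain ⟨r, hr⟩ := hrep
  refine ⟨fun d => ((ofF θ (C.s i (r d)) (C.F i (r d))).lev (C.a i) (C.s i (r d))).box ((1 / 2 : ℝ) ^ C.rk i)
    ((1 / 2 : ℝ) ^ 0) (bl (C.a i) (l (r d)) (C.t (r d))), fun ω hω => ?_⟩
  obtain ⟨r1, r2⟩ := hr ω hω
  obtain ⟨o1, o2, o3⟩ := ok _ r1
  obtain ⟨b1, b2, b3⟩ := (cell_close C hl hK hLev o1 o2 o3 r2).bin
  exact ⟨⟨⟨0, C.rk i, rfl, rfl, Nat.zero_le _, hL⟩, b1, b2, b3⟩, pow_zero _, rfl⟩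

/-- **BAS** -/
theorem bas : ∀ lam N k k' β β' : ℝ, 0 ≤ lam → lam ≤ 1 → 0 ≤ k → k ≤ k' → 0 ≤ N →
    FIXA lam N k' β' → ∀ c K0 : ℝ, 1 ≤ c → 1 ≤ K0 → ∀ ε : ℝ, 0 < ε → ∃ K : ℝ, 0 ≤ K ∧ ∀ (d : ℝ) (Ω : Type) [Fintype Ω]
      (P : Law Ω) (l : Ω → Ry) (t : Ω → ℝ) (L h q : ℕ) (W : Ω → Cbx), 1 ≤ h →
      NEx c lam N k β d P l t (fun _ => ()) L h q W →
      ∀ (τ : Type) (C : Cell.Pth Ω τ) (θ : ℝ), (∀ ω, C.l ω = toR θ (l ω)) → (∀ ω, C.t ω = t ω) →
      ∀ i b : ℕ, C.Lev i b → C.a i ≤ h → C.rk i ≤ q →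
      (∀ ω, 0 < P.w ω → 1 ≤ K0 * (C.F i ω).cN (C.l ω) (C.s i ω) ∧ |(C.F i ω).ka| ≤ K0 ∧
        |(C.F i ω).al| * q2 (C.a i) ≤ K0) →
      ∀ (η : Type) (Y : Ω → η),
      mi P l (fun ω => (Y ω, W ω, fl1 h (t ω))) (C.cell i b) ≤
        (3 * ((h : ℝ) - C.a i) + (1 - lam + k') * ((q : ℝ) - C.rk i) - (β - d) * h + (β' + ε) * C.a i) * Real.log 2 +
        Stk.hc P Y (fun ω => (W ω, fl1 h (t ω))) +
        Stk.hc P (C.cell i b) (fun ω => (Y ω, W ω, fl1 h (t ω))) + K := by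
  intro lam N k k' β β' h0 h1 hk hkk hN hF c K0 hc hK0 ε hε
  have hK2 : 1 ≤ K0 ^ 2 := one_le_pow₀ hK0
  obtain ⟨K, hKn, hK⟩ := tot lam N k k' β β' h0 h1 hk hkk hN hF c (max c (3 * K0 ^ 2)) hc (le_max_left _ _) ε hε
  refine ⟨K, hKn, ?_⟩
  intro d Ω _ P l t L h q W hh hne τ C θ hl ht i b hLev hah hrq ok η Y
  have ht' : C.t = t := funext ht
  obtain ⟨A, hA⟩ := start_lab P C hl hK0 hLev ok (L := L) (by have := hne.hL; omega)
  rw [ht'] at hA
  have key := hK d Ω Unit P l t (fun _ => ()) L h q W hh hne (C.a i) (C.rk i) (fun ω => A (C.cell i b ω)) hah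
    (fun ω hω => by
      obtain ⟨w1, w2, w3⟩ := hA ω hω
      exact ⟨LbOk.cls (le_max_right _ _) w1, w2, w3⟩) _ _ _ (C.cell i b) (fun ω => (Y ω, W ω, fl1 h (t ω))) Y
  have a1 : Stk.hc P (fun ω => (A (C.cell i b ω), fl1 (C.a i) (t ω), ())) (C.cell i b) = 0 := by
    refine Stk.hc_zero P fun ω ω' _ _ e => ?_
    have hT : C.T i ω = C.T i ω' := (Cell.Pth.cell_iff.1 e).1
    have e2 : fl1 (C.a i) (t ω) = fl1 (C.a i) (t ω') := by
      have h1 := C.htm i ω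
      have h2 := C.htm i ω'
      rw [ht'] at h1 h2
      rw [← h1, ← h2, hT]
    simp only [e, e2]
  have a2 := H864.Dd_mono P l t (fun _ : Ω => ()) hah
  have a4 : 0 ≤ N * (Dd P l t (fun _ : Ω => ()) h - Dd P l t (fun _ : Ω => ()) (C.a i)) :=
    mul_nonneg hN (by linarith)
  have a5 : |(C.rk i : ℝ) - q| = (q : ℝ) - C.rk i := by
    have : (C.rk i : ℝ) ≤ q := by exact_mod_cast hrq
    rw [abs_of_nonpos (by linarith)]
    ring
  have b1 : Stk.hc P Y (fun ω => (W ω, fl1 h (t ω), ())) ≤ Stk.hc P Y (fun ω => (W ω, fl1 h (t ω))) :=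
    Stk.hc_mono_right P Y fun ω ω' _ _ e => by
      simp only [Prod.mk.injEq] at e ⊢
      exact ⟨e.1, e.2.1⟩
  have b2 : Stk.hc P (fun ω => ((Y ω, W ω, fl1 h (t ω)), C.cell i b ω)) (fun ω => (Y ω, W ω, fl1 h (t ω), ())) ≤
      Stk.hc P (C.cell i b) (fun ω => (Y ω, W ω, fl1 h (t ω))) := by
    have c1 : Stk.hc P (fun ω => ((Y ω, W ω, fl1 h (t ω)), C.cell i b ω)) (fun ω => (Y ω, W ω, fl1 h (t ω), ())) ≤
        Stk.hc P (C.cell i b) (fun ω => (Y ω, W ω, fl1 h (t ω), ())) := by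
      refine Stk.hc_mono_left P fun ω ω' _ _ e => ?_
      simp only [Prod.mk.injEq] at e ⊢
      exact ⟨⟨e.2.1, e.2.2.1, e.2.2.2.1⟩, e.1⟩
    refine c1.trans (Stk.hc_mono_right P _ fun ω ω' _ _ e => ?_)
    simp only [Prod.mk.injEq] at e ⊢
    exact ⟨e.1, e.2.1, e.2.2.1⟩
  rw [a5, a1] at key
  nlinarith

end Vale.Agent.P106.U.G480
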