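import Vale.Agent.P106.U.H459.C1Props
import Vale.Agent.P106.U.H377.FunDg
import Vale.Agent.P127.U.ApxS

/-!
# P106 / U / H480 : `PGrowE` (helper459's C1Props) : GROW in the environment of END7 (helper480)

Label `(h; b; q)` : the box of the functional of the slab in the time block of level `h`, cap `2^-b`.
-/

set_option autoImplicit false

namespace Vale.Agent.P106.U.G480E

open Finset Vale.Agent.P127 Vale.Agent.P127.Stk Vale.Agent.P127.U Vale.Agent.P106.W Vale.Agent.P106.U.End7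
open Vale.Agent.P127.U.CellD (rd)
open Vale.Agent.P106.K (Ry RyOk bl Bin pl plm)
open Vale.Agent.P106.U.FL (Fu tr sub ad nrm fuW cenW dg labOf hc_dg hc_fl1_diam)
open Vale.Agent.P122.C2 (fw fn)

/-- dot product with the normal of the frame -/
theorem dot_le {θ : ℝ} {e : Fin 2 → ℝ} (he : ∀ k, |e k| ≤ 5 / 8) : |fn θ e| ≤ 9 / 10 ∧ |fw θ e| ≤ 9 / 10 := by
  have sc := Real.sin_sq_add_cos_sq θ
  have h0 := abs_le.1 (he 0)
  have h1 := abs_le.1 (he 1)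
  have q0 : e 0 ^ 2 ≤ 25 / 64 := by nlinarith
  have q1 : e 1 ^ 2 ≤ 25 / 64 := by nlinarith
  have key : fn θ e ^ 2 + fw θ e ^ 2 = e 0 ^ 2 + e 1 ^ 2 := by
    unfold fn fw
    linear_combination (e 0 ^ 2 + e 1 ^ 2) * sc
  constructor
  · refine abs_le_of_sq_le_sq ?_ (by norm_num)
    nlinarith [sq_nonneg (fw θ e)]
  · refine abs_le_of_sq_le_sq ?_ (by norm_num)
    nlinarith [sq_nonneg (fn θ e)]

/-- a vector is determined by its two coordinates -/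
theorem vec_le {θ : ℝ} (D : Fin 2 → ℝ) : ∀ k, |D k| ≤ |fw θ D| + |fn θ D| := by
  have sc := Real.sin_sq_add_cos_sq θ
  have s1 : |Real.sin θ| ≤ 1 := Real.abs_sin_le_one θ
  have c1 : |Real.cos θ| ≤ 1 := Real.abs_cos_le_one θ
  have e0 : D 0 = Real.cos θ * fw θ D - Real.sin θ * fn θ D := by
    unfold fn fw
    linear_combination -(D 0) * sc
  have e1 : D 1 = Real.sin θ * fw θ D + Real.cos θ * fn θ D := by
    unfold fn fw
    linear_combination -(D 1) * sc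
  intro k
  fin_cases k
  · show |D 0| ≤ _
    rw [e0]
    refine (abs_sub _ _).trans ?_
    rw [abs_mul, abs_mul]
    exact add_le_add (mul_le_of_le_one_left (abs_nonneg _) c1) (mul_le_of_le_one_left (abs_nonneg _) s1)
  · show |D 1| ≤ _
    rw [e1]
    refine (abs_add_le _ _).trans ?_
    rw [abs_mul, abs_mul]
    exact add_le_add (mul_le_of_le_one_left (abs_nonneg _) s1) (mul_le_of_le_one_left (abs_nonneg _) c1)

/-- **the normal component** from the functional -/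
theorem fn_le {θ : ℝ} {e D : Fin 2 → ℝ} {X w : ℝ} (he : ∀ k, |e k| ≤ 5 / 8) (hX : X = fn θ D + ∑ k, e k * D k + w) :
    |fn θ D| ≤ 10 * (|X| + |w| + |fw θ D|) := by
  obtain ⟨h1, h2⟩ := dot_le (θ := θ) he
  have sc := Real.sin_sq_add_cos_sq θ
  have e0 : ∑ k, e k * D k = fn θ e * fn θ D + fw θ e * fw θ D := by
    rw [Fin.sum_univ_two]
    unfold fn fw
    linear_combination -(e 0 * D 0 + e 1 * D 1) * sc
  have e1 : fn θ D = X - w - fw θ e * fw θ D - fn θ e * fn θ D := by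
    rw [hX, e0]
    ring
  have a1 : |fw θ e * fw θ D| ≤ |fw θ D| := by
    rw [abs_mul]
    exact mul_le_of_le_one_left (abs_nonneg _) (by linarith)
  have a2 : |fn θ e * fn θ D| ≤ 9 / 10 * |fn θ D| := by
    rw [abs_mul]
    exact mul_le_mul_of_nonneg_right h1 (abs_nonneg _)
  have a3 : |fn θ D| ≤ |X| + |w| + |fw θ D| + 9 / 10 * |fn θ D| := by
    calc |fn θ D| = |X - w - fw θ e * fw θ D - fn θ e * fn θ D| := by rw [← e1]
      _ ≤ |X - w - fw θ e * fw θ D| + |fn θ e * fn θ D| := abs_sub _ _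
      _ ≤ (|X - w| + |fw θ e * fw θ D|) + |fn θ e * fn θ D| := by
          linarith [abs_sub (X - w) (fw θ e * fw θ D)]
      _ ≤ ((|X| + |w|) + |fw θ e * fw θ D|) + |fn θ e * fn θ D| := by linarith [abs_sub X w]
      _ ≤ _ := by linarith
  linarith

/-- the value of the functional of the box at the time `τ` -/
noncomputable def Gt (B : Cbx) (l : Ry) (τ : ℝ) : ℝ := B.g0 l.y l.s l.z + τ * B.g1 l.y l.s l.z

/-- difference of the values at one time, adapted form -/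
theorem dG_ad (B : Cbx) (l o : Ry) (τ : ℝ) : Gt B l τ - Gt B o τ =
    fn B.θ (fun k => l.pos τ k - o.pos τ k) +
      ∑ k, (B.κ * (o.s k - B.v k) + B.α * ((B.p k - l.y k) + (B.p k - o.y k) + τ * (o.s k - l.s k))) *
        (l.pos τ k - o.pos τ k) +
      (B.κ + 2 * B.α * τ) * ((l.z - τ * (∑ k, l.s k ^ 2) / 2) + ∑ k, l.pos τ k * (l.s k - o.s k) -
        (o.z - τ * (∑ k, o.s k ^ 2) / 2)) := by
  simp only [Gt, Cbx.g0, Cbx.g1, fn, Ry.pos, Fin.sum_univ_two, Pi.sub_apply]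
  ring

/-- difference of the values at one time, form with the heights -/
theorem dG_hgt (B : Cbx) (l o : Ry) (τ : ℝ) : Gt B l τ - Gt B o τ =
    fn B.θ (fun k => l.pos τ k - o.pos τ k) +
      ∑ k, (-(B.κ * B.v k) + B.α * ((B.p k - l.y k) + (B.p k - o.y k) - τ * (l.s k + o.s k))) *
        (l.pos τ k - o.pos τ k) +
      (B.κ + 2 * B.α * τ) * (l.hgt τ - o.hgt τ) := by
  simp only [Gt, Cbx.g0, Cbx.g1, fn, Ry.pos, Ry.hgt, Fin.sum_univ_two, Pi.sub_apply]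
  ring

/-- adapted distance in the block -/
theorem ad_bl (h : ℕ) (l o : Ry) (τ : ℝ) : ad (sub h τ l) (sub h τ o) =
    2 ^ h * (l.hgt τ - o.hgt τ) - ∑ k, 2 ^ h * (l.pos τ k - o.pos τ k) * o.s k := by
  simp only [ad, sub, Ry.pos, Ry.hgt, Fin.sum_univ_two]
  ring

theorem ad_bl' (h : ℕ) (l o : Ry) (τ : ℝ) : ad (sub h τ l) (sub h τ o) =
    2 ^ h * ((l.z - τ * (∑ k, l.s k ^ 2) / 2) + ∑ k, l.pos τ k * (l.s k - o.s k) -
        (o.z - τ * (∑ k, o.s k ^ 2) / 2)) := by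
  simp only [ad, sub, Ry.pos, Fin.sum_univ_two]
  ring

/-- the standing hypotheses for one pair of rays -/
structure Pr (B : Cbx) (l o : Ry) (τ : ℝ) : Prop where
  u2 : B.u2 = 1
  α8 : |B.α| ≤ 1 / 8
  κ8 : |B.κ| ≤ 1 / 8
  p1 : ∀ k, |B.p k| ≤ 1
  v1 : ∀ k, |B.v k| ≤ 1
  l1 : RyOk l
  o1 : RyOk o
  il : B.In 0 l.y l.s l.z
  io : B.In 0 o.y o.s o.z
  t0 : 0 ≤ τ
  t1 : τ ≤ 1

theorem aκ {B : Cbx} {l o : Ry} {τ : ℝ} (h : Pr B l o τ) : |B.κ + 2 * B.α * τ| ≤ 3 / 8 := by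
  have h1 := h.κ8
  have h2 : |2 * B.α * τ| ≤ 1 / 4 := by
    rw [abs_mul, abs_mul, abs_of_nonneg h.t0, abs_two]
    have := h.α8
    have h3 := h.t1
    have h4 := h.t0
    nlinarith [abs_nonneg B.α]
  refine (abs_add_le _ _).trans ?_
  linarith

theorem e_ad {B : Cbx} {l o : Ry} {τ : ℝ} (h : Pr B l o τ) (k : Fin 2) :
    |B.κ * (o.s k - B.v k) + B.α * ((B.p k - l.y k) + (B.p k - o.y k) + τ * (o.s k - l.s k))| ≤ 5 / 8 := by
  have i1 := h.il.1 k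
  have i2 := h.io.1 k
  have i3 := h.il.2.1 k
  have i4 := h.io.2.1 k
  rw [h.u2] at i1 i2 i3 i4
  have a1 : |B.κ * (o.s k - B.v k)| ≤ 1 / 8 * 1 := by
    rw [abs_mul]
    exact mul_le_mul h.κ8 i4 (abs_nonneg _) (by norm_num)
  have a2 : |τ * (o.s k - l.s k)| ≤ 2 := by
    rw [abs_mul, abs_of_nonneg h.t0]
    have : |o.s k - l.s k| ≤ 2 := by
      have e : o.s k - l.s k = (o.s k - B.v k) - (l.s k - B.v k) := by ring
      rw [e]
      exact (abs_sub _ _).trans (by linarith)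
    exact (mul_le_mul h.t1 this (abs_nonneg _) (by norm_num)).trans (by norm_num)
  have a3 : |(B.p k - l.y k) + (B.p k - o.y k) + τ * (o.s k - l.s k)| ≤ 4 := by
    rw [abs_sub_comm] at i1 i2
    have := abs_add_le (B.p k - l.y k) (B.p k - o.y k)
    have := abs_add_le ((B.p k - l.y k) + (B.p k - o.y k)) (τ * (o.s k - l.s k))
    linarith
  have a4 : |B.α * ((B.p k - l.y k) + (B.p k - o.y k) + τ * (o.s k - l.s k))| ≤ 1 / 8 * 4 := by
    rw [abs_mul]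
    exact mul_le_mul h.α8 a3 (abs_nonneg _) (by norm_num)
  refine (abs_add_le _ _).trans ?_
  linarith

theorem e_hgt {B : Cbx} {l o : Ry} {τ : ℝ} (h : Pr B l o τ) (k : Fin 2) :
    |-(B.κ * B.v k) + B.α * ((B.p k - l.y k) + (B.p k - o.y k) - τ * (l.s k + o.s k))| ≤ 5 / 8 := by
  have i1 := h.il.1 k
  have i2 := h.io.1 k
  rw [h.u2] at i1 i2
  have a1 : |-(B.κ * B.v k)| ≤ 1 / 8 * 1 := by
    rw [abs_neg, abs_mul]
    exact mul_le_mul h.κ8 (h.v1 k) (abs_nonneg _) (by norm_num)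
  have a2 : |τ * (l.s k + o.s k)| ≤ 2 := by
    rw [abs_mul, abs_of_nonneg h.t0]
    have : |l.s k + o.s k| ≤ 2 := by
      have h1 := h.l1.2.1 k
      have h2 := h.o1.2.1 k
      exact (abs_add_le _ _).trans (by linarith)
    exact (mul_le_mul h.t1 this (abs_nonneg _) (by norm_num)).trans (by norm_num)
  have a3 : |(B.p k - l.y k) + (B.p k - o.y k) - τ * (l.s k + o.s k)| ≤ 4 := by
    rw [abs_sub_comm] at i1 i2
    have := abs_add_le (B.p k - l.y k) (B.p k - o.y k)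
    have := abs_sub ((B.p k - l.y k) + (B.p k - o.y k)) (τ * (l.s k + o.s k))
    linarith
  have a4 : |B.α * ((B.p k - l.y k) + (B.p k - o.y k) - τ * (l.s k + o.s k))| ≤ 1 / 8 * 4 := by
    rw [abs_mul]
    exact mul_le_mul h.α8 a3 (abs_nonneg _) (by norm_num)
  refine (abs_add_le _ _).trans ?_
  linarith

/-- **step 1** : rays with the same cell -/
theorem step1 {B : Cbx} {l o : Ry} {τ : ℝ} {h : ℕ} {X : ℝ} (hp : Pr B l o τ)
    (h0 : |fw B.θ (fun k => 2 ^ h * (l.pos τ k - o.pos τ k))| ≤ 2) (h1 : |2 ^ h * (l.hgt τ - o.hgt τ)| ≤ 1)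
    (h2 : |2 ^ h * (Gt B l τ - Gt B o τ)| ≤ X) (hX : X ≤ 1) :
    (∀ k, |2 ^ h * (l.pos τ k - o.pos τ k)| ≤ 36) ∧ |ad (sub h τ l) (sub h τ o)| ≤ 73 := by
  have key := fn_le (θ := B.θ) (e := fun k => -(B.κ * B.v k) +
    B.α * ((B.p k - l.y k) + (B.p k - o.y k) - τ * (l.s k + o.s k))) (D := fun k => 2 ^ h * (l.pos τ k - o.pos τ k))
    (X := 2 ^ h * (Gt B l τ - Gt B o τ)) (w := (B.κ + 2 * B.α * τ) * (2 ^ h * (l.hgt τ - o.hgt τ)))
    (e_hgt hp) (by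
      rw [dG_hgt]
      simp only [fn, Fin.sum_univ_two]
      ring)
  have a1 : |(B.κ + 2 * B.α * τ) * (2 ^ h * (l.hgt τ - o.hgt τ))| ≤ 3 / 8 * 1 := by
    rw [abs_mul]
    exact mul_le_mul (aκ hp) h1 (abs_nonneg _) (by norm_num)
  have hv := vec_le (θ := B.θ) (fun k => 2 ^ h * (l.pos τ k - o.pos τ k))
  have hD : ∀ k, |2 ^ h * (l.pos τ k - o.pos τ k)| ≤ 36 := fun k => (hv k).trans (by linarith)
  refine ⟨hD, ?_⟩
  rw [ad_bl, Fin.sum_univ_two]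
  have b : ∀ k, |2 ^ h * (l.pos τ k - o.pos τ k) * o.s k| ≤ 36 := fun k => by
    rw [abs_mul]
    exact (mul_le_mul (hD k) (hp.o1.2.1 k) (abs_nonneg _) (by norm_num)).trans (by norm_num)
  refine (abs_sub _ _).trans ?_
  have := abs_add_le (2 ^ h * (l.pos τ 0 - o.pos τ 0) * o.s 0) (2 ^ h * (l.pos τ 1 - o.pos τ 1) * o.s 1)
  linarith [b 0, b 1]

/-- **step 2** : given more digits -/
theorem step2 {B : Cbx} {l o : Ry} {τ : ℝ} {h : ℕ} {r : ℝ} (hp : Pr B l o τ) (hr : 0 < r)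
    (h0 : |fw B.θ (fun k => 2 ^ h * (l.pos τ k - o.pos τ k))| ≤ r) (h1 : |ad (sub h τ l) (sub h τ o)| ≤ 73 * r)
    (h2 : |2 ^ h * (Gt B l τ - Gt B o τ)| ≤ r) :
    ∀ k, |2 ^ h * (l.pos τ k - o.pos τ k)| ≤ 301 * r := by
  have key := fn_le (θ := B.θ) (e := fun k => B.κ * (o.s k - B.v k) +
    B.α * ((B.p k - l.y k) + (B.p k - o.y k) + τ * (o.s k - l.s k))) (D := fun k => 2 ^ h * (l.pos τ k - o.pos τ k))
    (X := 2 ^ h * (Gt B l τ - Gt B o τ)) (w := (B.κ + 2 * B.α * τ) * ad (sub h τ l) (sub h τ o))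
    (e_ad hp) (by
      rw [dG_ad, ad_bl']
      simp only [fn, Fin.sum_univ_two]
      ring)
  have a1 : |(B.κ + 2 * B.α * τ) * ad (sub h τ l) (sub h τ o)| ≤ 3 / 8 * (73 * r) := by
    rw [abs_mul]
    exact mul_le_mul (aκ hp) h1 (abs_nonneg _) (by norm_num)
  have hv := vec_le (θ := B.θ) (fun k => 2 ^ h * (l.pos τ k - o.pos τ k))
  intro k
  refine (hv k).trans ?_
  linarith

theorem rd_mem {h : ℕ} {t : ℝ} (h0 : 0 ≤ t) (h1 : t ≤ 1) : 0 ≤ rd h t ∧ rd h t ≤ 1 := by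
  have hp : (0 : ℝ) < 2 ^ h := by positivity
  unfold rd fl1
  constructor
  · refine div_nonneg ?_ hp.le
    exact_mod_cast Int.floor_nonneg.2 (mul_nonneg hp.le h0)
  · rw [div_le_one hp]
    refine (Int.floor_le _).trans ?_
    nlinarith

section env

variable {Ω : Type} [Fintype Ω] (E : Env Ω)

omit [Fintype Ω] in
theorem comp0 (ω : Ω) (τ : ℝ) : E.X ω 0 + τ * E.Q ω 0 = fw E.B0.θ ((E.l ω).pos τ) / 2 := by
  simp only [Env.X, Env.Q, fw, Ry.pos, Matrix.cons_val_zero]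
  ring

omit [Fintype Ω] in
theorem comp1 (ω : Ω) (τ : ℝ) : E.X ω 1 + τ * E.Q ω 1 = (E.l ω).hgt τ := by
  simp only [Env.X, Env.Q, Ry.hgt, Matrix.cons_val_one, Matrix.cons_val_zero]
  ring

omit [Fintype Ω] in
theorem comp2 (ω : Ω) (τ : ℝ) : E.X ω 2 + τ * E.Q ω 2 = 2 ^ E.q * Gt E.B0 (E.l ω) τ := by
  simp only [Env.X, Env.Q, Gt, Matrix.cons_val]
  ring

theorem pair {P : Law Ω} (hS : E.Supp P) {ω ω' : Ω} (hω : 0 < P.w ω) (hω' : 0 < P.w ω')
    (e : E.Zh E.h ω = E.Zh E.h ω') :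
    rd E.h (E.t ω') = rd E.h (E.t ω) ∧ Pr E.B0 (E.l ω) (E.l ω') (rd E.h (E.t ω)) ∧
      |fw E.B0.θ (fun k => 2 ^ E.h * ((E.l ω).pos (rd E.h (E.t ω)) k - (E.l ω').pos (rd E.h (E.t ω)) k))| ≤ 2 ∧
      |2 ^ E.h * ((E.l ω).hgt (rd E.h (E.t ω)) - (E.l ω').hgt (rd E.h (E.t ω)))| ≤ 1 ∧
      |2 ^ E.h * (Gt E.B0 (E.l ω) (rd E.h (E.t ω)) - Gt E.B0 (E.l ω') (rd E.h (E.t ω)))| ≤ (1 / 2 : ℝ) ^ E.q := by
  unfold Env.Zh at e
  simp only [Prod.mk.injEq] at e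
  obtain ⟨e1, e2⟩ := e
  have hτ : rd E.h (E.t ω') = rd E.h (E.t ω) := by unfold rd; rw [e1]
  rw [hτ] at e2
  obtain ⟨hr, ht0, ht1⟩ := hS.ok ω hω
  obtain ⟨hr', -, -⟩ := hS.ok ω' hω'
  have hm := rd_mem (h := E.h) ht0 ht1
  have hp : (0 : ℝ) < 2 ^ E.h := by positivity
  have hh : (2 : ℝ) ^ E.h * (1 / 2 : ℝ) ^ E.h = 1 := by rw [← mul_pow]; norm_num
  have hq : (2 : ℝ) ^ E.q * (1 / 2 : ℝ) ^ E.q = 1 := by rw [← mul_pow]; norm_num
  have hq0 : (0 : ℝ) < 2 ^ E.q := by positivity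
  have c0 := Stk.Bs.fl1_close (congrFun e2 0)
  have c1 := Stk.Bs.fl1_close (congrFun e2 1)
  have c2 := Stk.Bs.fl1_close (congrFun e2 2)
  rw [comp0, comp0] at c0
  rw [comp1, comp1] at c1
  rw [comp2, comp2] at c2
  refine ⟨hτ, ⟨hS.u2, hS.α8, hS.κ8, hS.p1, hS.v1, hr, hr', hS.inn ω hω, hS.inn ω' hω', hm.1, hm.2⟩, ?_, ?_, ?_⟩
  · have e3 : fw E.B0.θ (fun k => 2 ^ E.h * ((E.l ω).pos (rd E.h (E.t ω)) k - (E.l ω').pos (rd E.h (E.t ω)) k)) =
        2 ^ E.h * (2 * (fw E.B0.θ ((E.l ω).pos (rd E.h (E.t ω))) / 2 - fw E.B0.θ ((E.l ω').pos (rd E.h (E.t ω))) / 2)) := by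
      simp only [fw]
      ring
    rw [e3, abs_mul, abs_of_pos hp, abs_mul, abs_two]
    nlinarith
  · rw [abs_mul, abs_of_pos hp]
    nlinarith
  · rw [← mul_sub, abs_mul, abs_of_pos hq0] at c2
    rw [abs_mul, abs_of_pos hp]
    have c3 : |Gt E.B0 (E.l ω) (rd E.h (E.t ω)) - Gt E.B0 (E.l ω') (rd E.h (E.t ω))| ≤
        (1 / 2 : ℝ) ^ E.q * (1 / 2 : ℝ) ^ E.h := by
      have := mul_le_mul_of_nonneg_left c2 (by positivity : (0 : ℝ) ≤ (1 / 2 : ℝ) ^ E.q)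
      rw [← mul_assoc, mul_comm ((1 / 2 : ℝ) ^ E.q) (2 ^ E.q), hq, one_mul] at this
      exact this
    calc (2 : ℝ) ^ E.h * |Gt E.B0 (E.l ω) (rd E.h (E.t ω)) - Gt E.B0 (E.l ω') (rd E.h (E.t ω))|
        ≤ 2 ^ E.h * ((1 / 2 : ℝ) ^ E.q * (1 / 2 : ℝ) ^ E.h) := mul_le_mul_of_nonneg_left c3 hp.le
      _ = (1 / 2 : ℝ) ^ E.q * (2 ^ E.h * (1 / 2 : ℝ) ^ E.h) := by ring
      _ = (1 / 2 : ℝ) ^ E.q := by rw [hh, mul_one]

/-- the ray of the block -/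
noncomputable def rb (ω : Ω) : Ry := bl E.h (E.l ω) (E.t ω)

/-- the functional of the block -/
noncomputable def Fb (ω : Ω) : Fu := tr E.h (rd E.h (E.t ω)) (fuW E.B0)

/-- the adapted coordinate with respect to the rounded slope -/
noncomputable def zt (b : ℕ) (ω : Ω) : ℝ :=
  (rb E ω).z + ∑ k, (rb E ω).y k * ((rb E ω).s k - (fl b (rb E ω).s k : ℝ) / 2 ^ b)

omit [Fintype Ω] in
theorem zt_sub (b : ℕ) {ω ω' : Ω} (h : fl b (E.l ω).s = fl b (E.l ω').s) :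
    zt E b ω - zt E b ω' = ad (rb E ω) (rb E ω') +
      ∑ k, ((rb E ω).y k - (rb E ω').y k) * ((E.l ω').s k - (fl b (E.l ω').s k : ℝ) / 2 ^ b) := by
  have h1 : fl b (rb E ω).s = fl b (E.l ω').s := h
  have h2 : (rb E ω').s = (E.l ω').s := rfl
  unfold zt ad
  rw [h1, h2]
  simp only [Fin.sum_univ_two]
  ring

theorem rnd_le (b : ℕ) (s : Fin 2 → ℝ) (k : Fin 2) : |s k - (fl b s k : ℝ) / 2 ^ b| ≤ (1 / 2 : ℝ) ^ b := by
  have h4 : (0 : ℝ) < 2 ^ b := by positivity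
  have h5 := Int.floor_le ((2:ℝ) ^ b * s k)
  have h6 := Int.lt_floor_add_one ((2:ℝ) ^ b * s k)
  have e : (1 / 2 : ℝ) ^ b = 1 / 2 ^ b := by rw [div_pow, one_pow]
  have e2 : (fl b s k : ℝ) = ⌊(2 : ℝ) ^ b * s k⌋ := rfl
  rw [e, e2, abs_le]
  constructor
  · have : (⌊(2:ℝ) ^ b * s k⌋ : ℝ) / 2 ^ b ≤ s k := by
      rw [div_le_iff₀ h4]
      linarith
    have h7 : (0:ℝ) < 1 / 2 ^ b := by positivity
    linarith
  · rw [sub_le_iff_le_add, ← add_div, le_div_iff₀ h4]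
    linarith

theorem sum_le {D s : Fin 2 → ℝ} {x y : ℝ} (hx : ∀ k, |D k| ≤ x) (hy : ∀ k, |s k| ≤ y) : |∑ k, D k * s k| ≤ 2 * (x * y) := by
  have h0 : 0 ≤ x := (abs_nonneg _).trans (hx 0)
  rw [Fin.sum_univ_two]
  refine (abs_add_le _ _).trans ?_
  rw [abs_mul, abs_mul]
  have a1 := mul_le_mul (hx 0) (hy 0) (abs_nonneg _) h0
  have a2 := mul_le_mul (hx 1) (hy 1) (abs_nonneg _) h0
  linarith

theorem log_aux (c n N : ℕ) (hN : N ≤ c) (hc : 3 ≤ c) : Real.log (2 * ((N * 2 ^ n : ℕ) : ℝ) + 3) ≤ n * Real.log 2 + Real.log (3 * c) := by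
  have h1 : (1 : ℝ) ≤ 2 ^ n := one_le_pow₀ (by norm_num)
  have hN' : (N : ℝ) ≤ c := by exact_mod_cast hN
  have hc' : (3 : ℝ) ≤ c := by exact_mod_cast hc
  rw [← Real.log_pow, ← Real.log_mul (by positivity) (by positivity)]
  refine Real.log_le_log (by positivity) ?_
  push_cast
  nlinarith

theorem hc_dgE {P : Law Ω} (hS : E.Supp P) {b : ℕ} (hb : b ≤ E.q) :
    Stk.hc P (fun ω => dg b E.q (Fb E ω) (rb E ω)) (E.Zh E.h) ≤
      Stk.hc P (fun ω => fl b (E.l ω).s) (E.Zh E.h) + 3 * b * Real.log 2 +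
        (2 * Real.log (3 * 145) + 7 * Real.log (6 * (603 : ℕ) + 3)) := by
  have hb0 : (0 : ℝ) < (1 / 2 : ℝ) ^ b := by positivity
  have hb1 : (1 / 2 : ℝ) ^ b ≤ 1 := pow_le_one₀ (by norm_num) (by norm_num)
  have hq1 : (1 / 2 : ℝ) ^ E.q ≤ (1 / 2 : ℝ) ^ b := pow_le_pow_of_le_one (by norm_num) (by norm_num) hb
  have p2 : (1 / 2 : ℝ) ^ (2 * b) = (1 / 2 : ℝ) ^ b * (1 / 2 : ℝ) ^ b := by rw [two_mul, pow_add]
  -- basic facts for one pair
  have base : ∀ ω ω', 0 < P.w ω → 0 < P.w ω' → E.Zh E.h ω = E.Zh E.h ω' →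
      rd E.h (E.t ω') = rd E.h (E.t ω) ∧ Pr E.B0 (E.l ω) (E.l ω') (rd E.h (E.t ω)) ∧
      |fw E.B0.θ (rb E ω).y - fw E.B0.θ (rb E ω').y| ≤ 2 ∧ (∀ k, |(rb E ω).y k - (rb E ω').y k| ≤ 36) ∧
      |ad (rb E ω) (rb E ω')| ≤ 73 ∧
      |2 ^ E.h * (Gt E.B0 (E.l ω) (rd E.h (E.t ω)) - Gt E.B0 (E.l ω') (rd E.h (E.t ω)))| ≤ (1 / 2 : ℝ) ^ E.q := by
    intro ω ω' hω hω' e
    obtain ⟨e1, e2, e3, e4, e5⟩ := pair E hS hω hω' e
    have hr : rb E ω = sub E.h (rd E.h (E.t ω)) (E.l ω) := rfl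
    have hr' : rb E ω' = sub E.h (rd E.h (E.t ω)) (E.l ω') := by rw [← e1]; rfl
    obtain ⟨f1, f2⟩ := step1 e2 e3 e4 e5 (hq1.trans hb1)
    have hy : ∀ k, (rb E ω).y k - (rb E ω').y k =
        2 ^ E.h * ((E.l ω).pos (rd E.h (E.t ω)) k - (E.l ω').pos (rd E.h (E.t ω)) k) := by
      intro k
      rw [hr, hr']
      simp only [sub, Ry.pos]
      ring
    refine ⟨e1, e2, ?_, fun k => by rw [hy]; exact f1 k, by rw [hr, hr']; exact f2, e5⟩
    have e6 : fw E.B0.θ (rb E ω).y - fw E.B0.θ (rb E ω').y =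
        fw E.B0.θ (fun k => 2 ^ E.h * ((E.l ω).pos (rd E.h (E.t ω)) k - (E.l ω').pos (rd E.h (E.t ω)) k)) := by
      simp only [fw]
      rw [← hy 0, ← hy 1]
      ring
    rw [e6]
    exact e3
  -- (1)
  have h1 : Stk.hc P (fun ω => fl1 (2 * b) (zt E b ω)) (fun ω => (fl b (E.l ω).s, E.Zh E.h ω)) ≤
      2 * b * Real.log 2 + Real.log (3 * 145) := by
    have := hc_fl1_diam P (2 * b) (145 * 2 ^ (2 * b)) (zt E b) (fun ω => (fl b (E.l ω).s, E.Zh E.h ω)) (by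
      intro ω ω' hω hω' e
      simp only [Prod.mk.injEq] at e
      obtain ⟨-, -, -, y36, a73, -⟩ := base ω ω' hω hω' e.2
      rw [zt_sub E b e.1]
      have s1 := sum_le y36 (rnd_le b (E.l ω').s)
      have e3 : (((145 * 2 ^ (2 * b) : ℕ) : ℝ)) * (1 / 2 : ℝ) ^ (2 * b) = 145 := by
        push_cast
        rw [mul_assoc, ← mul_pow]
        norm_num
      rw [e3]
      refine (abs_add_le _ _).trans ?_
      nlinarith)
    refine this.trans ?_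
    have := log_aux 145 (2 * b) 145 le_rfl (by norm_num)
    push_cast at this ⊢
    exact this
  -- (2)
  have h2 : Stk.hc P (fun ω => fl1 b (fw E.B0.θ (rb E ω).y))
      (fun ω => (fl1 (2 * b) (zt E b ω), fl b (E.l ω).s, E.Zh E.h ω)) ≤ b * Real.log 2 + Real.log (3 * 145) := by
    have := hc_fl1_diam P b (2 * 2 ^ b) (fun ω => fw E.B0.θ (rb E ω).y)
      (fun ω => (fl1 (2 * b) (zt E b ω), fl b (E.l ω).s, E.Zh E.h ω)) (by
      intro ω ω' hω hω' e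
      simp only [Prod.mk.injEq] at e
      obtain ⟨-, -, f2, -, -, -⟩ := base ω ω' hω hω' e.2.2
      have e3 : (((2 * 2 ^ b : ℕ) : ℝ)) * (1 / 2 : ℝ) ^ b = 2 := by
        push_cast
        rw [mul_assoc, ← mul_pow]
        norm_num
      rw [e3]
      exact f2)
    refine this.trans ?_
    have := log_aux 145 b 2 (by norm_num) (by norm_num)
    push_cast at this ⊢
    exact this
  -- (3)
  have h3 : Stk.hc P (fun ω => dg b E.q (Fb E ω) (rb E ω))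
      (fun ω => (fl1 b (fw E.B0.θ (rb E ω).y), fl1 (2 * b) (zt E b ω), fl b (E.l ω).s, E.Zh E.h ω)) ≤
      7 * Real.log (6 * (603 : ℕ) + 3) := by
    refine hc_dg P (Fb E) (rb E) _ b E.q 603 ?_
    intro ω ω' hω hω' e
    simp only [Prod.mk.injEq] at e
    obtain ⟨e1, e2, e3, e4⟩ := e
    obtain ⟨e5, hp, -, y36, a73, g6⟩ := base ω ω' hω hω' e4
    have hr : rb E ω = sub E.h (rd E.h (E.t ω)) (E.l ω) := rfl
    have hr' : rb E ω' = sub E.h (rd E.h (E.t ω)) (E.l ω') := by rw [← e5]; rfl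
    have hF : Fb E ω' = Fb E ω := by unfold Fb; rw [e5]
    have hy : ∀ k, (rb E ω).y k - (rb E ω').y k =
        2 ^ E.h * ((E.l ω).pos (rd E.h (E.t ω)) k - (E.l ω').pos (rd E.h (E.t ω)) k) := by
      intro k
      rw [hr, hr']
      simp only [sub, Ry.pos]
      ring
    have k1 : |fw E.B0.θ (fun k => 2 ^ E.h * ((E.l ω).pos (rd E.h (E.t ω)) k - (E.l ω').pos (rd E.h (E.t ω)) k))| ≤
        (1 / 2 : ℝ) ^ b := by
      have := Stk.Bs.fl1_close e1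
      have e6 : fw E.B0.θ (rb E ω).y - fw E.B0.θ (rb E ω').y =
        fw E.B0.θ (fun k => 2 ^ E.h * ((E.l ω).pos (rd E.h (E.t ω)) k - (E.l ω').pos (rd E.h (E.t ω)) k)) := by
        simp only [fw]
        rw [← hy 0, ← hy 1]
        ring
      rwa [e6] at this
    have z1 := Stk.Bs.fl1_close e2
    rw [zt_sub E b e3] at z1
    have s1 := sum_le y36 (rnd_le b (E.l ω').s)
    have k2 : |ad (rb E ω) (rb E ω')| ≤ 73 * (1 / 2 : ℝ) ^ b := by
      have e7 : ad (rb E ω) (rb E ω') = (ad (rb E ω) (rb E ω') +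
        ∑ k, ((rb E ω).y k - (rb E ω').y k) * ((E.l ω').s k - (fl b (E.l ω').s k : ℝ) / 2 ^ b)) -
        ∑ k, ((rb E ω).y k - (rb E ω').y k) * ((E.l ω').s k - (fl b (E.l ω').s k : ℝ) / 2 ^ b) := by ring
      rw [e7]
      refine (abs_sub _ _).trans ?_
      rw [p2] at z1
      nlinarith
    have k3 := step2 hp hb0 k1 (by rw [← hr, ← hr']; exact k2) (g6.trans hq1)
    have y301 : ∀ k, |(rb E ω).y k - (rb E ω').y k| ≤ 301 * (1 / 2 : ℝ) ^ b := fun k => by rw [hy]; exact k3 k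
    have s2 := sum_le y301 (rnd_le b (E.l ω').s)
    have k4 : |ad (rb E ω) (rb E ω')| ≤ 603 * (1 / 2 : ℝ) ^ (2 * b) := by
      have e7 : ad (rb E ω) (rb E ω') = (ad (rb E ω) (rb E ω') +
        ∑ k, ((rb E ω).y k - (rb E ω').y k) * ((E.l ω').s k - (fl b (E.l ω').s k : ℝ) / 2 ^ b)) -
        ∑ k, ((rb E ω).y k - (rb E ω').y k) * ((E.l ω').s k - (fl b (E.l ω').s k : ℝ) / 2 ^ b) := by ring
      rw [e7]
      refine (abs_sub _ _).trans ?_
      rw [p2] at z1 ⊢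
      nlinarith
    have hq0 : (0 : ℝ) < (1 / 2 : ℝ) ^ E.q := by positivity
    refine ⟨fun k => ?_, fun k => ?_, ?_, ?_, ?_⟩
    · refine (y301 k).trans ?_
      push_cast
      nlinarith
    · refine (Stk.Bs.fl_close e3 k).trans ?_
      push_cast
      nlinarith
    · push_cast
      exact k4
    · rw [hF]
      have e8 : (Fb E ω).v0 (rb E ω) - (Fb E ω).v0 (rb E ω') =
          2 ^ E.h * (Gt E.B0 (E.l ω) (rd E.h (E.t ω)) - Gt E.B0 (E.l ω') (rd E.h (E.t ω))) := by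
        rw [hr, hr']
        unfold Fb
        rw [FL.v0_tr, FL.v0_tr]
        have a1 := FL.v0_fuW E.B0 (E.l ω)
        have a2 := FL.v0_fuW E.B0 (E.l ω')
        have a3 := FL.v1_fuW E.B0 (E.l ω)
        have a4 := FL.v1_fuW E.B0 (E.l ω')
        unfold Gt Cbx.g0 Cbx.g1
        linear_combination 2 ^ E.h * a1 - 2 ^ E.h * a2 + 2 ^ E.h * rd E.h (E.t ω) * a3 - 2 ^ E.h * rd E.h (E.t ω) * a4
      rw [e8]
      refine g6.trans ?_
      push_cast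
      nlinarith
    · rw [hF]
      have e8 : (Fb E ω).v1 (rb E ω) - (Fb E ω).v1 (rb E ω') =
          E.B0.g1 (E.l ω).y (E.l ω).s (E.l ω).z - E.B0.g1 (E.l ω').y (E.l ω').s (E.l ω').z := by
        rw [hr, hr']
        unfold Fb
        rw [FL.v1_tr, FL.v1_tr]
        have a3 := FL.v1_fuW E.B0 (E.l ω)
        have a4 := FL.v1_fuW E.B0 (E.l ω')
        unfold Cbx.g1
        linear_combination a3 - a4
      rw [e8]
      have i1 := (hS.inn ω hω).2.2.2.2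
      have i2 := (hS.inn ω' hω').2.2.2.2
      rw [hS.u1] at i1 i2
      refine (abs_sub _ _).trans ?_
      have j1 : |E.B0.g1 (E.l ω).y (E.l ω).s (E.l ω).z| ≤ (1 / 2 : ℝ) ^ E.q := i1
      have j2 : |E.B0.g1 (E.l ω').y (E.l ω').s (E.l ω').z| ≤ (1 / 2 : ℝ) ^ E.q := i2
      push_cast
      nlinarith
  have c1 := Apx.hc_via P (fun ω => dg b E.q (Fb E ω) (rb E ω)) (fun ω => fl b (E.l ω).s) (E.Zh E.h)
  have c2 := Apx.hc_via P (fun ω => dg b E.q (Fb E ω) (rb E ω)) (fun ω => fl1 (2 * b) (zt E b ω))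
    (fun ω => (fl b (E.l ω).s, E.Zh E.h ω))
  have c3 := Apx.hc_via P (fun ω => dg b E.q (Fb E ω) (rb E ω)) (fun ω => fl1 b (fw E.B0.θ (rb E ω).y))
    (fun ω => (fl1 (2 * b) (zt E b ω), fl b (E.l ω).s, E.Zh E.h ω))
  linarith

/-- the length of the normal of the block functional -/
theorem nr_len {P : Law Ω} (hS : E.Supp P) {ω : Ω} (hω : 0 < P.w ω) :
    1 / 10 ≤ nrm ((Fb E ω).nr (bl E.h (E.l ω) (E.t ω))) := by
  have h1 : (Fb E ω).nr (bl E.h (E.l ω) (E.t ω)) = (fuW E.B0).nr (E.l ω) := FL.nr_tr _ _ _ _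
  rw [h1]
  obtain ⟨i1, i2, -, -, -⟩ := hS.inn ω hω
  rw [hS.u2] at i1 i2
  have he : ∀ k, |E.B0.κ * ((E.l ω).s k - E.B0.v k) - 2 * E.B0.α * ((E.l ω).y k - E.B0.p k)| ≤ 5 / 8 := by
    intro k
    have a1 : |E.B0.κ * ((E.l ω).s k - E.B0.v k)| ≤ 1 / 8 * 1 := by
      rw [abs_mul]
      exact mul_le_mul hS.κ8 (i2 k) (abs_nonneg _) (by norm_num)
    have a2 : |2 * E.B0.α * ((E.l ω).y k - E.B0.p k)| ≤ 2 / 8 * 1 := by
      rw [abs_mul, abs_mul, abs_two]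
      have := hS.α8
      exact mul_le_mul (by linarith) (i1 k) (abs_nonneg _) (by norm_num)
    refine (abs_sub _ _).trans ?_
    linarith
  obtain ⟨d1, -⟩ := dot_le (θ := E.B0.θ) he
  set e : Fin 2 → ℝ := fun k => E.B0.κ * ((E.l ω).s k - E.B0.v k) - 2 * E.B0.α * ((E.l ω).y k - E.B0.p k) with hedef
  set m := (fuW E.B0).nr (E.l ω) with hm
  have m0 : m 0 = -Real.sin E.B0.θ + e 0 := by
    rw [hm, hedef]
    simp only [fuW, Fu.nr, if_true]
    ring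
  have m1 : m 1 = Real.cos E.B0.θ + e 1 := by
    rw [hm, hedef]
    simp only [fuW, Fu.nr, one_ne_zero, if_false]
    ring
  have sc := Real.sin_sq_add_cos_sq E.B0.θ
  have f1 : fn E.B0.θ m = 1 + fn E.B0.θ e := by
    unfold fn
    rw [m0, m1]
    linear_combination sc
  have f2 : fn E.B0.θ m ^ 2 ≤ m 0 ^ 2 + m 1 ^ 2 := by
    have : fn E.B0.θ m ^ 2 + fw E.B0.θ m ^ 2 = m 0 ^ 2 + m 1 ^ 2 := by
      unfold fn fw
      linear_combination (m 0 ^ 2 + m 1 ^ 2) * sc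
    nlinarith [sq_nonneg (fw E.B0.θ m)]
  have f3 : 1 / 10 ≤ fn E.B0.θ m := by
    rw [f1]
    have := (abs_le.1 d1).1
    linarith
  unfold nrm
  refine Real.le_sqrt_of_sq_le ?_
  nlinarith

end env

/-- **[GROW]** in the environment of END7 -/
theorem pGrowE : PGrowE := by
  refine ⟨2 * Real.log (3 * 145) + 7 * Real.log (6 * (603 : ℕ) + 3), ?_⟩
  intro p hp Ω _ E P μ b hS hL hb
  have hc : 100 ≤ p.c := hp.c0
  have hb0 : (0 : ℝ) < (1 / 2 : ℝ) ^ b := by positivity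
  have hb1 : (1 / 2 : ℝ) ^ b ≤ 1 := pow_le_one₀ (by norm_num) (by norm_num)
  have hcn : ∀ ω, 0 < P.w ω → 1 ≤ p.c * nrm ((Fb E ω).nr (bl E.h (E.l ω) (E.t ω))) := fun ω hω => by
    have := nr_len E hS hω
    nlinarith
  obtain ⟨A, hA⟩ := labOf P E.l E.t E.L E.h b E.q p.c (Fb E) hb hS.hL (by linarith) hcn
    (fun ω hω => by
      refine le_trans ?_ (hcn ω hω)
      have hτ := rd_mem (h := E.h) (hS.ok ω hω).2.1 (hS.ok ω hω).2.2
      have k1 : |(Fb E ω).κ| ≤ 3 / 8 := by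
        show |E.B0.κ + 2 * E.B0.α * rd E.h (E.t ω)| ≤ 3 / 8
        have h1 := hS.κ8
        have h2 : |2 * E.B0.α * rd E.h (E.t ω)| ≤ 1 / 4 := by
          rw [abs_mul, abs_mul, abs_of_nonneg hτ.1, abs_two]
          have := hS.α8
          nlinarith [abs_nonneg E.B0.α, hτ.1, hτ.2]
        refine (abs_add_le _ _).trans ?_
        linarith
      nlinarith [abs_nonneg (Fb E ω).κ])
    (fun ω hω => by
      refine le_trans ?_ (hcn ω hω)
      have k1 : |(Fb E ω).α| ≤ 1 / 8 := by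
        show |E.B0.α / 2 ^ E.h| ≤ 1 / 8
        have h1 : (1 : ℝ) ≤ 2 ^ E.h := one_le_pow₀ (by norm_num)
        rw [abs_div, abs_of_pos (by positivity : (0 : ℝ) < 2 ^ E.h), div_le_iff₀ (by positivity)]
        have := hS.α8
        nlinarith
      nlinarith [abs_nonneg (Fb E ω).α])
  have key := hL E.h b E.q le_rfl hb hS.hL Ω inferInstance P id
    (fun ω => A (Fb E ω, dg b E.q (Fb E ω) (bl E.h (E.l ω) (E.t ω)))) (Stk.pr_id P) (fun ω hω => by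
      obtain ⟨h1, h2, h3⟩ := hA ω hω
      exact ⟨h2, h3, h1.α2, h1.κ2, h1.inn⟩)
  have e1 : Stk.hc P E.l (E.Zh E.h) ≤ Stk.hc P E.l (fun ω => (dg b E.q (Fb E ω) (rb E ω), E.Zh E.h ω)) +
      Stk.hc P (fun ω => dg b E.q (Fb E ω) (rb E ω)) (E.Zh E.h) := Apx.hc_via P _ _ _
  have e2 : Stk.hc P E.l (fun ω => (dg b E.q (Fb E ω) (rb E ω), E.Zh E.h ω)) ≤
      Stk.hc P (fun ω => E.l (id ω)) (fun ω => (A (Fb E ω, dg b E.q (Fb E ω) (bl E.h (E.l ω) (E.t ω))),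
        fl1 E.h (E.t (id ω)))) := by
    refine Stk.hc_mono_right P _ fun ω ω' _ _ e => ?_
    simp only [Prod.mk.injEq] at e ⊢
    obtain ⟨e3, e4⟩ := e
    have e5 : fl1 E.h (E.t ω) = fl1 E.h (E.t ω') := congrArg Prod.fst e4
    have e6 : Fb E ω = Fb E ω' := by
      unfold Fb rd
      rw [e5]
    refine ⟨?_, e5⟩
    have e7 : dg b E.q (Fb E ω) (bl E.h (E.l ω) (E.t ω)) = dg b E.q (Fb E ω') (bl E.h (E.l ω') (E.t ω')) := e3
    rw [e7, e6]
  have e3 := hc_dgE E hS hb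
  unfold Env.vh at key
  simp only [sub_self, mul_zero, zero_mul, abs_zero, add_zero, sub_zero] at key
  nlinarith

end Vale.Agent.P106.U.G480E
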