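import Vale.Agent.P106.U.H565.SelC

/-!
# P106 / U / H480 : costs of a conditioned law are averages (helper480)

`Z` a word, `D` a letter which determines `Z` (`Dtm Q D Z`).
* `mi_avg` : `E mi (Q.cond Z (Z ω)) X E D = mi Q X E D`.
* `prE_avg`, `ex_avg`, `hc_avg'`, `sum_avg` : the same for events, means, entropies, weighted sums.
* `sqrt_avg` : `E √f ≤ √(E f)`.
-/

set_option autoImplicit false

namespace Vale.Agent.P106.U.G480

open Finset Vale.Agent.P127 Vale.Agent.P127.Stk Vale.Agent.P127.U Vale.Agent.P127.U.Nonat Vale.Agent.P127.U.YPat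
open Vale.Agent.P127.U.JSB (hc_cond_sum cond_supp')
open Vale.Agent.P106.U.H565 (Dtm)

variable {Ω : Type} [Fintype Ω] {R S T U V : Type}

/-- means -/
theorem ex_avg (Q : Law Ω) (Z : Ω → S) (f : Ω → ℝ) : Q.ex (fun ω => (Q.cond Z (Z ω)).ex f) = Q.ex f := by
  rw [Q.ex_comp Z (fun z => (Q.cond Z z).ex f)]
  exact H565.ex_cond_sum Q f Z

/-- events -/
theorem prE_avg (Q : Law Ω) (Z : Ω → S) (A : Ω → Prop) : Q.ex (fun ω => prE (Q.cond Z (Z ω)) A) = prE Q A := by
  rw [H565.prE_eq_ex, ← ex_avg Q Z fun ω => Law.ind (A ω)]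
  refine Q.ex_congr fun ω _ => ?_
  rw [H565.prE_eq_ex]

/-- entropies given a letter which determines the word -/
theorem hc_avg' {Q : Law Ω} {D : Ω → T} {Z : Ω → S} (h : Dtm Q D Z) (X : Ω → U) :
    Q.ex (fun ω => Stk.hc (Q.cond Z (Z ω)) X D) = Stk.hc Q X D := H565.hc_avg h X

/-- entropies given any letter: the conditioned law is on average smaller -/
theorem hc_avg_le (Q : Law Ω) (D : Ω → T) (Z : Ω → S) (X : Ω → U) :
    Q.ex (fun ω => Stk.hc (Q.cond Z (Z ω)) X D) ≤ Stk.hc Q X D := by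
  rw [Q.ex_comp Z (fun z => Stk.hc (Q.cond Z z) X D), ← hc_cond_sum]
  exact Stk.hc_mono_right Q X fun ω ω' _ _ e => congrArg Prod.fst e

/-- informations given a letter which determines the word -/
theorem mi_avg {Q : Law Ω} {D : Ω → T} {Z : Ω → S} (h : Dtm Q D Z) (X : Ω → U) (E : Ω → V) :
    Q.ex (fun ω => mi (Q.cond Z (Z ω)) X E D) = mi Q X E D := by
  have h' : Dtm Q (fun ω => (E ω, D ω)) Z := fun ω ω' a b e => h ω ω' a b (Prod.mk.inj e).2
  unfold mi
  rw [Q.ex_sub, hc_avg' h X, hc_avg' h' X]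

/-- collision probabilities given a letter which determines the word -/
theorem colp_avg' {Q : Law Ω} {D : Ω → T} {Z : Ω → S} (h : Dtm Q D Z) (X : Ω → U) :
    Q.ex (fun ω => colp (Q.cond Z (Z ω)) X D) = colp Q X D := H565.colp_avg h X

/-- sums of averages -/
theorem sum_avg {ι : Type*} (Q : Law Ω) (Z : Ω → S) (I : Finset ι) (f : ι → Law Ω → ℝ) (g : ι → ℝ)
    (h : ∀ i ∈ I, Q.ex (fun ω => f i (Q.cond Z (Z ω))) ≤ g i) :
    Q.ex (fun ω => ∑ i ∈ I, f i (Q.cond Z (Z ω))) ≤ ∑ i ∈ I, g i := by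
  have e : Q.ex (fun ω => ∑ i ∈ I, f i (Q.cond Z (Z ω))) = ∑ i ∈ I, Q.ex (fun ω => f i (Q.cond Z (Z ω))) :=
    H565.ex_sum' Q I fun i ω => f i (Q.cond Z (Z ω))
  rw [e]
  exact Finset.sum_le_sum h

/-- informations given any letter `D`, the word in the condition -/
theorem mi_avg_pair (Q : Law Ω) (D : Ω → T) (Z : Ω → S) (X : Ω → U) (E : Ω → V) :
    Q.ex (fun ω => mi (Q.cond Z (Z ω)) X E D) = mi Q X E (fun ω => (D ω, Z ω)) := by
  have h : Dtm Q (fun ω => (D ω, Z ω)) Z := fun ω ω' _ _ e => (Prod.mk.inj e).2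
  rw [← mi_avg h X E]
  refine Q.ex_congr fun ω hω => ?_
  have hz : 0 < Q.pr Z (Z ω) := Q.pr_pos Z hω
  have k : ∀ (Y : Ω → U) {W : Type} (F : Ω → W), Stk.hc (Q.cond Z (Z ω)) Y F =
      Stk.hc (Q.cond Z (Z ω)) Y (fun ω => (F ω, Z ω)) := by
    intro Y W F
    refine le_antisymm (Stk.hc_mono_right _ Y fun a b ha hb e => ?_) (Stk.hc_mono_right _ Y fun a b ha hb e => ?_)
    · exact Prod.ext e ((cond_supp' Q Z _ hz ha).trans (cond_supp' Q Z _ hz hb).symm)
    · exact congrArg Prod.fst e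
  have k2 : Stk.hc (Q.cond Z (Z ω)) X (fun ω => (E ω, D ω)) =
      Stk.hc (Q.cond Z (Z ω)) X (fun ω => (E ω, (D ω, Z ω))) := by
    rw [k X (fun ω => (E ω, D ω))]
    refine le_antisymm (Stk.hc_mono_right _ X fun a b ha hb e => ?_) (Stk.hc_mono_right _ X fun a b ha hb e => ?_)
    · simp only [Prod.mk.injEq] at e ⊢
      exact ⟨e.1.1, e.1.2, e.2⟩
    · simp only [Prod.mk.injEq] at e ⊢
      exact ⟨⟨e.1, e.2.1⟩, e.2.2⟩
  unfold mi
  rw [k X D, k2]

/-- Jensen -/
theorem sqrt_avg (Q : Law Ω) (f : Ω → ℝ) (hf : ∀ ω, 0 < Q.w ω → 0 ≤ f ω) :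
    Q.ex (fun ω => Real.sqrt (f ω)) ≤ Real.sqrt (Q.ex f) := by
  have h0 : 0 ≤ Q.ex f := H565.ex_nonneg' Q hf
  rcases h0.eq_or_lt with h1 | h1
  · have h2 : Q.ex (fun ω => Real.sqrt (f ω)) ≤ 0 := by
      have h3 : ∀ ω, 0 < Q.w ω → f ω = 0 := by
        intro ω hω
        by_contra hne
        have h4 : 0 < f ω := lt_of_le_of_ne (hf ω hω) (Ne.symm hne)
        have h5 : Q.w ω * f ω ≤ Q.ex f := by
          unfold Law.ex
          refine Finset.single_le_sum (f := fun ω => Q.w ω * f ω) (fun i _ => ?_) (Finset.mem_univ ω)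
          rcases (Q.nn i).eq_or_lt with h | h
          · rw [← h, zero_mul]
          · exact mul_nonneg h.le (hf i h)
        have h6 := mul_pos hω h4
        linarith
      refine (Q.ex_mono (g := fun _ => 0) fun ω hω => by rw [h3 ω hω, Real.sqrt_zero]).trans ?_
      rw [Q.ex_const]
    rw [← h1, Real.sqrt_zero]
    exact h2
  · set m := Q.ex f with hm
    have hs : 0 < Real.sqrt m := Real.sqrt_pos.2 h1
    have h2 : Q.ex (fun ω => Real.sqrt (f ω)) ≤ Q.ex (fun ω => 1 / (2 * Real.sqrt m) * f ω + Real.sqrt m / 2) := by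
      refine Q.ex_mono fun ω hω => ?_
      have h3 := hf ω hω
      have h4 := Real.sq_sqrt h3
      have h5 := sq_nonneg (Real.sqrt (f ω) - Real.sqrt m)
      have h6 := Real.sq_sqrt h1.le
      have h7 : Real.sqrt (f ω) * (2 * Real.sqrt m) ≤ f ω + m := by nlinarith
      have h8 : Real.sqrt (f ω) ≤ (f ω + m) / (2 * Real.sqrt m) := by
        rw [le_div_iff₀ (by positivity)]
        exact h7
      refine h8.trans (le_of_eq ?_)
      have h9 : m = Real.sqrt m * Real.sqrt m := by rw [← sq]; exact h6.symm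
      field_simp
      rw [add_right_inj]
      nlinarith
    rw [Q.ex_add, Q.ex_const, Q.ex_const_mul, ← hm] at h2
    refine h2.trans (le_of_eq ?_)
    have h6 := Real.sq_sqrt h1.le
    field_simp
    nlinarith

end Vale.Agent.P106.U.G480
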