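import Vale.Agent.P106.U.H480.RunSel
import Vale.Agent.P106.U.H315.W1C

/-!
# P106 / U / H480 : the number of revealed blocks of the ray side is at most the length of word 1 (helper480)

* `rR_le` : `rR n (e.wd P n ω) a ≤ n`.
* `kr_c` : the hypothesis `m · rR ≤ KR h` of `run_sel` for helper565's `C0`, `KR = 2 + 2 K1`; `w1_c` : the hypotheses on word 1.
-/

set_option autoImplicit false

namespace Vale.Agent.P106.U.G480

open Finset Vale.Agent.P127 Vale.Agent.P127.Stk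
open Vale.Agent.P106.U.H449 Vale.Agent.P106.U.LinkR Vale.Agent.P106.U.H565

theorem rR_le {Ω : Type} [Fintype Ω] {γ ζ₁ ζ₂ : Type} (e : Rl Ω 2 (ℤ × ℤ) γ ζ₁ ζ₂) (P : Law Ω) (n : ℕ) (ω : Ω) (a : ℕ) :
    rR n (e.wd P n ω) a ≤ n := by
  unfold rR lv H449.cw
  refine List.countP_le_length.trans ?_
  rw [List.length_drop, Rl.wd_length]
  exact Nat.sub_le _ _

/-- **the hypothesis of `run_sel`** -/
theorem kr_c {Ω : Type} [Fintype Ω] (c : C0 Ω) {K1 : ℝ} {N0 : ℕ} (g : c.I.Good K1 N0) (hm : 0 < c.I.m) (ω : Ω) (a : ℕ) :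
    (c.I.m : ℝ) * rR c.I.pm.n (c.rule.wd c.P c.I.pm.n ω) a ≤ (2 + 2 * K1) * c.I.h := by
  have h1 : ((rR c.I.pm.n (c.rule.wd c.P c.I.pm.n ω) a : ℕ) : ℝ) ≤ c.I.pm.n :=
    Nat.cast_le.2 (rR_le c.rule c.P c.I.pm.n ω a)
  have h2 := g.n1
  have hmr : (0 : ℝ) < c.I.m := by exact_mod_cast hm
  have h3 : (c.I.m : ℝ) * c.I.pm.n ≤ c.I.m * ((2 + 2 * K1) * (c.I.h / c.I.m)) := mul_le_mul_of_nonneg_left h2 hmr.le
  have h4 : (c.I.m : ℝ) * ((2 + 2 * K1) * (c.I.h / c.I.m)) = (2 + 2 * K1) * c.I.h := by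
    field_simp
  exact (mul_le_mul_of_nonneg_left h1 hmr.le).trans (h3.trans h4.le)

/-- **the hypotheses on word 1** -/
theorem w1_c {Ω : Type} [Fintype Ω] (c : C0 Ω) {K1 : ℝ} {N0 : ℕ} (g : c.I.Good K1 N0) :
    (img (c.rule.wd c.P c.I.pm.n)).card ≤ H315.M1 c.I ∧ Real.log (H315.M1 c.I) ≤ H315.cW1 K1 * c.I.h / c.I.m := by
  refine ⟨H315.w1_card c, ?_⟩
  rw [mul_div_assoc]
  exact H315.M1_log c.I g

end Vale.Agent.P106.U.G480
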