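import Vale.Agent.P106.U.H61.Mac
import Vale.Agent.P106.W.Const
import Vale.Agent.P127.U.ApxS

/-!
# P106 / U / H480 : sub-boxes of a real conformal box (helper480)

* `pl_close` : rays with the same plank `pl b` are close.
* `nn_angle` : the normal of a box at a ray, if `1 + 2 κ g1 - 4 α g0 ≥ 1/4`.
* `box_sub` : class `c`, shape `(b0, R)`, `b0 ≤ b ≤ R` : the rays of the box with a given plank `pl b` are in one box of the
  class `c' = 16 c²` and of the shape `(b, R)`.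
* `exists_sub` : for random labels: a label of the shape `(b, R)` which is a function of `(W, pl b)`.
-/

set_option autoImplicit false

namespace Vale.Agent.P106.U.G480

open Vale.Agent.P127 Vale.Agent.P127.Stk Vale.Agent.P127.U Vale.Agent.P106.W Vale.Agent.P106.K
open Vale.Agent.P122.C2 (fn)

/-- rays with the same plank are close -/
theorem pl_close {b : ℕ} {l l' : K.Ry} (h : pl b l = pl b l') :
    (∀ k, |l.y k - l'.y k| ≤ (1 / 2 : ℝ) ^ b) ∧ (∀ k, |l.s k - l'.s k| ≤ (1 / 2 : ℝ) ^ b) ∧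
      |l.z + ∑ k, l.y k * (l.s k - l'.s k) - l'.z| ≤ 3 * (1 / 2 : ℝ) ^ (2 * b) := by
  unfold pl plm at h
  simp only [Prod.mk.injEq] at h
  obtain ⟨h1, h2, h3⟩ := h
  have a1 : ∀ k, |l.s k - l'.s k| ≤ (1 / 2 : ℝ) ^ b := fun k => Apx.fl1_close (congrFun h1 k)
  have a2 : ∀ k, |l.y k - l'.y k| ≤ (1 / 2 : ℝ) ^ b := fun k => Apx.fl1_close (congrFun h2 k)
  have a3 := Apx.fl1_close h3
  refine ⟨a2, a1, ?_⟩
  have e1 : ∀ k, (fl b l.s k : ℝ) = fl b l'.s k := fun k => by rw [h1]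
  have b1 : ∀ k, |l'.s k - (fl b l'.s k : ℝ) / 2 ^ b| ≤ (1 / 2 : ℝ) ^ b := by
    intro k
    have h4 : (0 : ℝ) < 2 ^ b := by positivity
    have h5 := Int.floor_le ((2:ℝ) ^ b * l'.s k)
    have h6 := Int.lt_floor_add_one ((2:ℝ) ^ b * l'.s k)
    have e : (1 / 2 : ℝ) ^ b = 1 / 2 ^ b := by rw [div_pow, one_pow]
    have e2 : (fl b l'.s k : ℝ) = ⌊(2 : ℝ) ^ b * l'.s k⌋ := rfl
    rw [e, e2, abs_le]
    constructor
    · have : (⌊(2:ℝ) ^ b * l'.s k⌋ : ℝ) / 2 ^ b ≤ l'.s k := by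
        rw [div_le_iff₀ h4]
        linarith
      have h7 : (0:ℝ) < 1 / 2 ^ b := by positivity
      linarith
    · rw [sub_le_iff_le_add, ← add_div, le_div_iff₀ h4]
      linarith
  have key : l.z + ∑ k, l.y k * (l.s k - l'.s k) - l'.z =
      (l.z + ∑ k, l.y k * (l.s k - (fl b l.s k : ℝ) / 2 ^ b) -
        (l'.z + ∑ k, l'.y k * (l'.s k - (fl b l'.s k : ℝ) / 2 ^ b))) -
      ((l.y 0 - l'.y 0) * (l'.s 0 - (fl b l'.s 0 : ℝ) / 2 ^ b) +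
        (l.y 1 - l'.y 1) * (l'.s 1 - (fl b l'.s 1 : ℝ) / 2 ^ b)) := by
    simp only [Fin.sum_univ_two, e1]
    ring
  have p2 : (1 / 2 : ℝ) ^ (2 * b) = (1 / 2 : ℝ) ^ b * (1 / 2 : ℝ) ^ b := by rw [two_mul, pow_add]
  have m : ∀ k, |(l.y k - l'.y k) * (l'.s k - (fl b l'.s k : ℝ) / 2 ^ b)| ≤ (1 / 2 : ℝ) ^ (2 * b) := by
    intro k
    rw [abs_mul, p2]
    exact mul_le_mul (a2 k) (b1 k) (abs_nonneg _) (by positivity)
  rw [key]
  have c1 := abs_le.1 a3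
  have c2 := abs_le.1 (m 0)
  have c3 := abs_le.1 (m 1)
  rw [abs_le]
  constructor <;> linarith

/-- the normal at a ray -/
theorem nn_angle {B : Cbx} {l0 : K.Ry} (h : 1 / 4 ≤ 1 + 2 * B.κ * B.g1 l0.y l0.s l0.z - 4 * B.α * B.g0 l0.y l0.s l0.z) :
    ∃ L θ' : ℝ, 1 / 2 ≤ L ∧ B.nn l0.y l0.s 0 = -(L * Real.sin θ') ∧ B.nn l0.y l0.s 1 = L * Real.cos θ' := by
  have hs := B.nn_sq l0.y l0.s l0.z
  set X := B.nn l0.y l0.s 0 ^ 2 + B.nn l0.y l0.s 1 ^ 2 with hX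
  have hX1 : 1 / 4 ≤ X := by rw [hs]; exact h
  have hX0 : 0 < X := by linarith
  have hL0 : 0 < Real.sqrt X := Real.sqrt_pos.2 hX0
  have hLs : Real.sqrt X ^ 2 = X := Real.sq_sqrt hX0.le
  have hL : 1 / 2 ≤ Real.sqrt X := Real.le_sqrt_of_sq_le (by norm_num; linarith)
  obtain ⟨θ', hc', hs'⟩ := exists_angle (x := B.nn l0.y l0.s 1 / Real.sqrt X) (y := -(B.nn l0.y l0.s 0) / Real.sqrt X) (by
    rw [div_pow, div_pow, hLs, ← add_div, div_eq_one_iff_eq hX0.ne', hX]; ring)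
  refine ⟨Real.sqrt X, θ', hL, ?_, ?_⟩
  · rw [hs']; field_simp
  · rw [hc']; field_simp

/-- **sub-boxes** -/
theorem box_sub {c : ℝ} (hc : 1 ≤ c) {B : Cbx} {b0 b R : ℕ} {l0 : K.Ry} (h2 : B.u2 = (1 / 2 : ℝ) ^ b0)
    (h1 : B.u1 = (1 / 2 : ℝ) ^ R) (hb : b0 ≤ b) (hα : |B.α| * B.u2 ≤ c) (hκ : |B.κ| * B.u2 ≤ c)
    (hin : Bin c B 0 l0) :
    ∃ B' : Cbx, B'.u2 = (1 / 2 : ℝ) ^ b ∧ B'.u1 = (1 / 2 : ℝ) ^ R ∧ |B'.α| * B'.u2 ≤ 16 * c ^ 2 ∧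
      |B'.κ| * B'.u2 ≤ 16 * c ^ 2 ∧ ∀ l : K.Ry, Bin c B 0 l → pl b l = pl b l0 → Bin (16 * c ^ 2) B' 0 l := by
  have hu1 : 0 < B.u1 := by rw [h1]; positivity
  have hu2 : 0 < B.u2 := by rw [h2]; positivity
  have hc0 : 0 < c := by linarith
  have hcc : c ≤ c ^ 2 := by nlinarith
  have hb2 : (1 / 2 : ℝ) ^ b ≤ B.u2 := by
    rw [h2]
    exact pow_le_pow_of_le_one (by norm_num) (by norm_num) hb
  have hp0 : (0 : ℝ) < (1 / 2 : ℝ) ^ b := by positivity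
  by_cases hcase : 8 * c ^ 2 * B.u1 ≤ B.u2
  · -- the slab case
    obtain ⟨-, -, -, hg0, hg1⟩ := id hin
    have hg0' : |B.g0 l0.y l0.s l0.z| ≤ c * B.u1 := hg0
    have hg1' : |B.g1 l0.y l0.s l0.z| ≤ c * B.u1 := hg1
    have k1 : |B.κ * B.g1 l0.y l0.s l0.z| ≤ 1 / 8 := by
      have : |B.κ * B.g1 l0.y l0.s l0.z| * B.u2 ≤ 1 / 8 * B.u2 := by
        rw [abs_mul]
        calc |B.κ| * |B.g1 l0.y l0.s l0.z| * B.u2 = (|B.κ| * B.u2) * |B.g1 l0.y l0.s l0.z| := by ring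
          _ ≤ c * (c * B.u1) := mul_le_mul hκ hg1' (abs_nonneg _) hc0.le
          _ ≤ 1 / 8 * B.u2 := by nlinarith
      exact le_of_mul_le_mul_right this hu2
    have k2 : |B.α * B.g0 l0.y l0.s l0.z| ≤ 1 / 8 := by
      have : |B.α * B.g0 l0.y l0.s l0.z| * B.u2 ≤ 1 / 8 * B.u2 := by
        rw [abs_mul]
        calc |B.α| * |B.g0 l0.y l0.s l0.z| * B.u2 = (|B.α| * B.u2) * |B.g0 l0.y l0.s l0.z| := by ring
          _ ≤ c * (c * B.u1) := mul_le_mul hα hg0' (abs_nonneg _) hc0.le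
          _ ≤ 1 / 8 * B.u2 := by nlinarith
      exact le_of_mul_le_mul_right this hu2
    obtain ⟨L, θ', hL, n0, n1⟩ := nn_angle (B := B) (l0 := l0) (by
      have a1 := abs_le.1 k1
      have a2 := abs_le.1 k2
      nlinarith [a1.1, a2.2])
    have hL0 : 0 < L := by linarith
    have hdiv : ∀ x : ℝ, |x| * B.u2 ≤ c → |x / L| * (1 / 2 : ℝ) ^ b ≤ 16 * c ^ 2 := by
      intro x hx
      rw [abs_div, abs_of_pos hL0, div_mul_eq_mul_div, div_le_iff₀ hL0]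
      calc |x| * (1 / 2 : ℝ) ^ b ≤ |x| * B.u2 := mul_le_mul_of_nonneg_left hb2 (abs_nonneg _)
        _ ≤ c := hx
        _ ≤ 16 * c ^ 2 * (1 / 2) := by nlinarith
        _ ≤ 16 * c ^ 2 * L := mul_le_mul_of_nonneg_left hL (by positivity)
    refine ⟨⟨θ', B.u1, (1 / 2 : ℝ) ^ b, B.κ / L, B.α / L, l0.y, l0.s, l0.z⟩, rfl, h1, hdiv _ hα, hdiv _ hκ, ?_⟩
    intro l hl hpl
    obtain ⟨c1, c2, c3⟩ := pl_close hpl
    have p2 : (1 / 2 : ℝ) ^ (2 * b) = ((1 / 2 : ℝ) ^ b) ^ 2 := by rw [← pow_mul, mul_comm]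
    have hr := rec_in (H := 0) (w1 := 4 * c * B.u1) (w2 := 2 * (1 / 2 : ℝ) ^ b) hc0 hu1 hL le_rfl hin hl n0 n1
      (fun k => (c1 k).trans (by linarith)) (fun k => (c2 k).trans (by linarith))
      (c3.trans (le_trans (by rw [p2]; nlinarith) (le_max_left _ _)))
    obtain ⟨-, -, -, r4, r5⟩ := hr
    have h16 : 1 ≤ 16 * c ^ 2 := by nlinarith
    refine ⟨fun k => (c1 k).trans (le_mul_of_one_le_left hp0.le h16),
      fun k => (c2 k).trans (le_mul_of_one_le_left hp0.le h16), ?_, ?_, ?_⟩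
    · refine c3.trans ?_
      show 3 * (1 / 2 : ℝ) ^ (2 * b) ≤ 16 * c ^ 2 * max (((1 / 2 : ℝ) ^ b) ^ 2) 0
      rw [max_eq_left (by positivity), p2]
      exact mul_le_mul_of_nonneg_right (by nlinarith) (by positivity)
    · exact r4.trans (mul_le_mul_of_nonneg_right (by nlinarith) hu1.le)
    · exact r5.trans (mul_le_mul_of_nonneg_right (by nlinarith) hu1.le)
  · -- the flat case
    push Not at hcase
    refine ⟨⟨0, B.u1, (1 / 2 : ℝ) ^ b, 0, 0, l0.y, l0.s, l0.z⟩, rfl, h1, ?_, ?_, ?_⟩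
    · simp only [abs_zero, zero_mul]
      positivity
    · simp only [abs_zero, zero_mul]
      positivity
    intro l _ hpl
    obtain ⟨c1, c2, c3⟩ := pl_close hpl
    have h16 : 1 ≤ 16 * c ^ 2 := by nlinarith
    have p2 : (1 / 2 : ℝ) ^ (2 * b) = ((1 / 2 : ℝ) ^ b) ^ 2 := by rw [← pow_mul, mul_comm]
    have small : (1 / 2 : ℝ) ^ b ≤ 16 * c ^ 2 * B.u1 := by
      have : 0 ≤ c ^ 2 * B.u1 := by positivity
      linarith
    refine ⟨fun k => (c1 k).trans (le_mul_of_one_le_left hp0.le h16),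
      fun k => (c2 k).trans (le_mul_of_one_le_left hp0.le h16), ?_, ?_, ?_⟩
    · refine c3.trans ?_
      show 3 * (1 / 2 : ℝ) ^ (2 * b) ≤ 16 * c ^ 2 * max (((1 / 2 : ℝ) ^ b) ^ 2) 0
      rw [max_eq_left (by positivity), p2]
      exact mul_le_mul_of_nonneg_right (by nlinarith) (by positivity)
    · show |fn 0 (l.y - l0.y) + 0 * (l.z + ∑ k, l.y k * (l.s k - l0.s k) - l0.z) - 0 * ∑ k, (l.y k - l0.y k) ^ 2| ≤
        16 * c ^ 2 * B.u1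
      have e : fn 0 (l.y - l0.y) = l.y 1 - l0.y 1 := by simp [fn]
      rw [e, zero_mul, zero_mul, add_zero, sub_zero]
      exact (c1 1).trans small
    · show |fn 0 (l.s - l0.s) + 0 * (∑ k, (l.s k - l0.s k) ^ 2) / 2 +
        2 * 0 * (l.z + ∑ k, l0.y k * (l.s k - l0.s k) - l0.z)| ≤ 16 * c ^ 2 * B.u1
      have e : fn 0 (l.s - l0.s) = l.s 1 - l0.s 1 := by simp [fn]
      rw [e]
      have : l.s 1 - l0.s 1 + 0 * (∑ k, (l.s k - l0.s k) ^ 2) / 2 + 2 * 0 * (l.z + ∑ k, l0.y k * (l.s k - l0.s k) - l0.z) =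
        l.s 1 - l0.s 1 := by ring
      rw [this]
      exact (c2 1).trans small

/-- the plank of the ray of the block -/
noncomputable def plb (b a : ℕ) (l : K.Ry) (t : ℝ) : (Fin 2 → ℤ) × (Fin 2 → ℤ) × ℤ := pl b (bl a l t)

/-- **sub-boxes of random labels** : the label of the shape `(b, R)` is a function of `(W, pl b)` -/
theorem exists_sub {c : ℝ} (hc : 1 ≤ c) {Ω : Type} (S : Ω → Prop) {l : Ω → K.Ry} {t : Ω → ℝ} {L a b0 b R : ℕ}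
    {W : Ω → Cbx} (hW : ∀ ω, S ω → LbOk c L a (W ω) (l ω) (t ω) ∧ (W ω).u2 = (1 / 2 : ℝ) ^ b0 ∧
      (W ω).u1 = (1 / 2 : ℝ) ^ R) (hb : b0 ≤ b) (hbR : b ≤ R) (haR : a + R ≤ L) :
    ∃ A : Ω → Cbx, (∀ ω, S ω → LbOk (16 * c ^ 2) L a (A ω) (l ω) (t ω) ∧ (A ω).u2 = (1 / 2 : ℝ) ^ b ∧
        (A ω).u1 = (1 / 2 : ℝ) ^ R) ∧
      ∀ ω ω', W ω = W ω' → plb b a (l ω) (t ω) = plb b a (l ω') (t ω') → A ω = A ω' := by
  classical
  -- a representative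
  have hrep : ∀ key : Cbx × ((Fin 2 → ℤ) × (Fin 2 → ℤ) × ℤ), ∃ B' : Cbx,
      ∀ ω, S ω → W ω = key.1 → plb b a (l ω) (t ω) = key.2 → LbOk (16 * c ^ 2) L a B' (l ω) (t ω) ∧
        B'.u2 = (1 / 2 : ℝ) ^ b ∧ B'.u1 = (1 / 2 : ℝ) ^ R := by
    intro key
    by_cases h : ∃ ω, S ω ∧ W ω = key.1 ∧ plb b a (l ω) (t ω) = key.2
    · obtain ⟨ω0, hS, h1, h2⟩ := h
      obtain ⟨w1, w2, w3⟩ := hW ω0 hS
      obtain ⟨B', b1, b2, b3, b4, b5⟩ := box_sub hc (b := b) w2 w3 hb w1.α2 w1.κ2 w1.inn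
      refine ⟨B', fun ω hω e1 e2 => ⟨⟨⟨b, R, b1, b2, hbR, haR⟩, b3, b4, ?_⟩, b1, b2⟩⟩
      refine b5 _ ?_ ?_
      · have := (hW ω hω).1.inn
        rwa [e1, ← h1] at this
      · exact e2.trans h2.symm
    · refine ⟨⟨0, 0, 0, 0, 0, 0, 0, 0⟩, fun ω hω e1 e2 => (h ⟨ω, hω, e1, e2⟩).elim⟩
  choose F hF using hrep
  refine ⟨fun ω => F (W ω, plb b a (l ω) (t ω)), fun ω hω => hF _ ω hω rfl rfl, ?_⟩
  intro ω ω' e1 e2
  show F (W ω, plb b a (l ω) (t ω)) = F (W ω', plb b a (l ω') (t ω'))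
  rw [e1, e2]

end Vale.Agent.P106.U.G480
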