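import Vale.Agent.P106.U.H652.Sel6

/-!
# P106 / U / H480 : the selection with closures for general blocks (helper480), after helper652's `sel6`

* `ybl_shift` : the digits of `v` from the block `z0` on are blocks in the sense of `YBl`.
* `sel6g` : `sel6` for blocks `Y b`, `b < nB` with `YBl`, `nB` free with `δ1 h / 4 ≤ m nB ≤ h`.
-/

set_option autoImplicit false

namespace Vale.Agent.P106.U

open Finset Vale.Agent.P127 Vale.Agent.P127.Stk Vale.Agent.P127.U Vale.Agent.P106.W Vale.Agent.P106.K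
open Vale.Agent.P127.U.Nonat Vale.Agent.P127.U.YPat Vale.Agent.P127.U.JSB H565

namespace G480

section shift

variable {Ω δ : Type}

/-- digits of the shifted number -/
theorem fl1_shift (m z0 b : ℕ) (x : ℝ) : fl1 (m * b) (2 ^ (m * z0) * x) = fl1 (m * (z0 + b)) x := by
  unfold fl1
  congr 1
  rw [← mul_assoc, ← pow_add]
  congr 2
  ring

theorem yb_shift (m z0 : ℕ) (v : Ω → ℝ) (b : ℕ) (ω : Ω) :
    yb m (fun ω => 2 ^ (m * z0) * v ω) b ω = yb m v (z0 + b) ω := by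
  unfold yb
  rw [fl1_shift, fl1_shift]
  rfl

variable [Fintype Ω]

/-- the entropies of the shifted blocks telescope -/
theorem sum_yb_shift (P : Law Ω) (m : ℕ) (v : Ω → ℝ) (Wd : Ω → δ) (z0 B : ℕ) :
    Stk.hc P (fun ω => fl1 (m * (z0 + B)) (v ω)) (pst m v Wd z0) =
      ∑ b ∈ range B, Stk.hc P (yb m v (z0 + b)) (pst m v Wd (z0 + b)) := by
  have h1 := sum_yb P m (fun ω => 2 ^ (m * z0) * v ω) (pst m v Wd z0) B
  have e1 : (fun ω => fl1 (m * B) (2 ^ (m * z0) * v ω)) = fun ω => fl1 (m * (z0 + B)) (v ω) := by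
    funext ω
    exact fl1_shift m z0 B (v ω)
  have e2 : Stk.hc P (fun ω => fl1 0 (2 ^ (m * z0) * v ω)) (pst m v Wd z0) = 0 := by
    refine Stk.hc_zero P fun ω ω' _ _ e => ?_
    have e3 := fl1_shift m z0 0
    simp only [mul_zero, Nat.add_zero] at e3
    show fl1 0 (2 ^ (m * z0) * v ω) = fl1 0 (2 ^ (m * z0) * v ω')
    rw [e3, e3]
    unfold pst at e
    exact (Prod.mk.inj e).2
  rw [e1, e2, zero_add] at h1
  rw [h1]
  refine Finset.sum_congr rfl fun b _ => ?_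
  have e4 : yb m (fun ω => 2 ^ (m * z0) * v ω) b = yb m v (z0 + b) := by
    funext ω
    exact yb_shift m z0 v b ω
  rw [e4]
  refine Stk.hc_congr P (fun _ _ _ _ e => (Prod.mk.inj e).1) (fun _ _ _ _ e => (Prod.mk.inj e).1) ?_ ?_
  · intro ω ω' _ _ e
    show (pst m v Wd z0 ω, fl1 (m * b) (2 ^ (m * z0) * v ω)) = (pst m v Wd z0 ω', fl1 (m * b) (2 ^ (m * z0) * v ω'))
    rw [fl1_shift, fl1_shift, pst_mono m v Wd (Nat.le_add_right z0 b) e]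
    unfold pst at e
    rw [(Prod.mk.inj e).2]
  · intro ω ω' _ _ e
    have e5 : (pst m v Wd z0 ω, fl1 (m * b) (2 ^ (m * z0) * v ω)) = (pst m v Wd z0 ω', fl1 (m * b) (2 ^ (m * z0) * v ω')) := e
    rw [fl1_shift, fl1_shift] at e5
    obtain ⟨e6, e7⟩ := Prod.mk.inj e5
    unfold pst at e6 ⊢
    exact Prod.ext (Prod.mk.inj e6).1 e7

/-- **shifted blocks** : growth rate `r` of the digits, error `g` -/
theorem ybl_shift (P : Law Ω) {v : Ω → ℝ} (Wd : Ω → δ) {m z0 B : ℕ}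
    {a μ r g : ℝ} (ha : Real.log 2 + Real.log (1 / a) ≤ μ / 4 * (m * Real.log 2))
    (hg : r * (m * B : ℕ) * Real.log 2 ≤ Stk.hc P (fun ω => fl1 (m * (z0 + B)) (v ω)) (pst m v Wd z0) + g)
    (hb : g ≤ (r - μ) * (m * B : ℕ) * Real.log 2) :
    YBl P B (2 ^ m) a μ (fun b => yb m v (z0 + b)) (fun b => pst m v Wd (z0 + b)) := by
  have hl : Real.log (((2 ^ m : ℕ) : ℝ)) = m * Real.log 2 := by
    push_cast
    rw [Real.log_pow]
  refine ⟨?_, ?_, ?_, ?_⟩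
  · intro b _
    refine ⟨Finset.Ico 0 (2 ^ m), ?_, fun ω _ => ?_⟩
    · have e : (Finset.Ico (0 : ℤ) (2 ^ m)).card = 2 ^ m := by
        rw [Int.card_Ico, sub_zero]
        have : ((2 : ℤ) ^ m) = ((2 ^ m : ℕ) : ℤ) := by push_cast; rfl
        rw [this, Int.toNat_natCast]
      exact e.le
    · rw [Finset.mem_Ico]
      exact yb_mem m v (z0 + b) ω
  · intro b _ ω ω' _ _ e
    exact pst_nest m v Wd (z0 + b) e
  · rw [hl]
    exact ha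
  · rw [hl, ← sum_yb_shift]
    push_cast at hg hb ⊢
    nlinarith

end shift

end G480

open S5

/-- **the selection with closures, general blocks** -/
theorem sel6g {σ : Cst} (hσ : σ.Ok) {CA : ℝ} (hCA : 0 < CA) {ε ε₁ pg : ℝ} (hε : 0 < ε) (hε₁ : 0 < ε₁) (hpg : 0 < pg)
    (hpg1 : pg ≤ 1) :
    ∃ d1 : ℝ, 0 < d1 ∧ d1 ≤ σ.lam * σ.δ1 / 128 ∧ ∀ g : Gv, g.Ok σ d1 → ∃ m0 : ℕ, 1 ≤ m0 ∧ ∀ m : ℕ, m0 ≤ m →
      Real.log 2 + Real.log (1 / ay σ.lam m) ≤ σ.lam / 2 / 4 * (m * Real.log 2) ∧ ∀ Tc s : ℕ, 0 < Tc →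
      ∃ h0 : ℕ, ∀ (Ω : Type) [Fintype Ω] (P : Law Ω) (l : Ω → Ry) (t : Ω → ℝ) (L h q : ℕ) (W : Ω → Cbx), h0 ≤ h →
      NEx 100 σ.lam σ.N g.k g.β d1 P l t (fun _ => ()) L h q W →
      ∀ (T U : Type) (nB : ℕ) (Y : ℕ → Ω → T) (F : ℕ → Ω → U), σ.δ1 / 4 * h ≤ (m : ℝ) * nB → (m : ℝ) * nB ≤ h →
      YBl P nB (2 ^ m) (ay σ.lam m) (σ.lam / 2) Y F →
      ∀ (S S2 V : Type) (Pw : Ω → S) (M1 : ℕ) (Gb : Law Ω → ℕ → Ω → V) (Zw : Law Ω → ℕ → ℕ → Ω → S2)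
        (A : Law Ω → ℕ → ℕ → S2 → Prop) (gp : ℝ) (ψ : Law Ω → ℕ → ℕ → S2 → ℝ), (img Pw).card ≤ M1 →
      Real.log M1 ≤ CA * h / m → gp ≤ σ.lam ^ 2 * σ.δ1 * ε₁ / 8192 * h →
      (∀ (e1 : S) (E : Finset ℕ) (Q1 : Law Ω), Q1 = P.cond (fun ω => (Pw ω, ypat P nB Y F (ay σ.lam m) ω)) (e1, E) →
        σ.lam / 2 / (6 * (M1 * 2 ^ nB)) ≤ P.pr (fun ω => (Pw ω, ypat P nB Y F (ay σ.lam m) ω)) (e1, E) →
        (∀ ω, 0 < Q1.w ω → 0 < P.w ω ∧ Pw ω = e1 ∧ ypat P nB Y F (ay σ.lam m) ω = E) →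
        NEx 100 σ.lam σ.N g.k g.β ε Q1 l t (fun _ => ()) L h q W →
        G480.Fin2 Q1 nB Y F (Gb Q1) ∧
        Stk.hc Q1 (Gb Q1 0) (F 0) + ∑ b ∈ range nB, Stk.hc Q1 (Gb Q1 (b + 1)) (fun ω => (Gb Q1 b ω, Y b ω)) ≤ gp ∧
        (∀ b0 kk, kk < Tc → b0 + Tc * s ≤ nB → Dtm Q1 (Gb Q1 (b0 + kk * s)) (Zw Q1 b0 kk)) ∧
        (∀ b0 kk, kk < Tc → b0 + Tc * s ≤ nB → pg ≤ prE Q1 (fun ω => A Q1 b0 kk (Zw Q1 b0 kk ω))) ∧
        ∑ b0 ∈ range (nB + 1 - Tc * s), ∑ kk ∈ range Tc, Q1.H (Zw Q1 b0 kk) ≤ CA * h / m * (nB * Tc) ∧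
        (∀ b0 kk, ∀ ω, 0 < Q1.w ω → 0 ≤ ψ Q1 b0 kk (Zw Q1 b0 kk ω)) ∧
        ∑ b0 ∈ range (nB + 1 - Tc * s), ∑ kk ∈ range Tc, Q1.ex (fun ω => ψ Q1 b0 kk (Zw Q1 b0 kk ω)) ≤ nB * Tc) →
      0 < nB ∧
      ∃ (b0 kk : ℕ) (e1 : S) (E : Finset ℕ) (e2 : S2) (Q1 Q2 : Law Ω),
        NEx 100 σ.lam σ.N g.k g.β ε Q1 l t (fun _ => ()) L h q W ∧
        NEx 100 σ.lam σ.N g.k g.β ε Q2 l t (fun _ => ()) L h q W ∧
        SelG P Pw M1 nB (ay σ.lam m) (σ.lam / 2) ε₁ Y F Gb Zw A pg (CA * h / m) s Tc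
          {()} (fun _ => ψ) (fun _ => 1) b0 kk e1 E e2 Q1 Q2 ∧
        colp Q2 (Y (b0 + kk * s)) (Gb Q1 (b0 + kk * s)) ≤ 10 * ε₁ / pg ∧
        ψ Q1 b0 kk e2 ≤ 480 / (σ.lam * pg) ∧
        Real.log (1 / (P.pr (fun ω => (Pw ω, ypat P nB Y F (ay σ.lam m) ω)) (e1, E) *
          Q1.pr (Zw Q1 b0 kk) e2)) ≤ (CA + 2 + 480 * CA / (σ.lam * pg)) * h / m := by
  classical
  have hlam := hσ.bs.lam0
  obtain ⟨δ, hδe⟩ : ∃ δ : ℝ, δ = σ.δ1 / 2 := ⟨_, rfl⟩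
  have hδ1 := hσ.δ0
  have hδ : 0 < δ := by rw [hδe]; positivity
  have hN1 : 0 ≤ σ.N + 1 := by linarith [hσ.bs.N2]
  have l2a : Real.log 2 < 1 := by
    have := Real.log_two_lt_d9
    linarith
  have l2b : 1 / 2 < Real.log 2 := by
    have := Real.log_two_gt_d9
    linarith
  obtain ⟨ε', hε'⟩ : ∃ ε' : ℝ, ε' = ε * pg * (4 / 5) := ⟨_, rfl⟩
  have hε0' : 0 < ε' := by rw [hε']; positivity
  have hε1' : ε' ≤ ε := by
    rw [hε']
    have h1 : ε * pg ≤ ε := mul_le_of_le_one_right hε.le hpg1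
    have h2 : 0 < ε * pg := by positivity
    linarith
  obtain ⟨d1, hd10, hd1a, hd1b, hd1c⟩ : ∃ d1 : ℝ, 0 < d1 ∧ d1 ≤ σ.lam / 64 ∧ d1 ≤ σ.lam * δ / 64 ∧
      d1 ≤ ε' * σ.lam / 4096 := ⟨min (min (σ.lam / 64) (σ.lam * δ / 64)) (ε' * σ.lam / 4096), by positivity,
    (min_le_left _ _).trans (min_le_left _ _), (min_le_left _ _).trans (min_le_right _ _), min_le_right _ _⟩
  refine ⟨d1, hd10, by rw [hδe] at hd1b; linarith, ?_⟩
  intro g hg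
  have hFix : FIX 100 σ.lam σ.N g.k g.b' :=
    (H523.FIXA_mono hlam.le hσ.bs.lam1.le hg.k0.le (by linarith [hg.k0]) hg.fix) 100 (by norm_num)
  obtain ⟨K, hK0, hsel⟩ := pSelG 100 σ.lam σ.N g.k g.β g.b' (by norm_num) hlam.le hσ.bs.lam1.le (by linarith [hσ.bs.N2]) hg.k0.le hg.βb hFix
    d1 hd10
  obtain ⟨CB, hCB⟩ : ∃ CB : ℝ, CB = 96 / σ.lam * CA := ⟨_, rfl⟩
  have hCB0 : 0 ≤ CB := by rw [hCB]; positivity
  obtain ⟨m1, hm11, hay⟩ := ay_ok (C := 2 * (16 / σ.lam * (2 * CA / δ + 1 + |Real.log (12 / σ.lam)|))) hlam hε₁ (by positivity)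
  obtain ⟨m3, hlin⟩ := H652.ay_lin hlam hε₁
  obtain ⟨m2, hm2⟩ := exists_nat_gt (12 / σ.lam * (σ.N + 1) * (CA + 1) * (128 / ε') + 64 * (σ.N + 1) * (CB + 1) / ε')
  refine ⟨max (max m1 m3) m2, le_max_of_le_left (le_max_of_le_left hm11), ?_⟩
  intro m hm
  have hmm1 : m1 ≤ m := ((le_max_left _ _).trans (le_max_left _ _)).trans hm
  have hmm3 : m3 ≤ m := ((le_max_right _ _).trans (le_max_left _ _)).trans hm
  have hmm2 : m2 ≤ m := (le_max_right _ _).trans hm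
  have hm0 : 0 < m := by omega
  have hmr : (0 : ℝ) < m := by exact_mod_cast hm0
  refine ⟨by
    rw [one_div, Real.log_inv, ay_log]
    linarith, ?_⟩
  intro Tc s hTc
  have c1 : 0 ≤ 12 / σ.lam * (σ.N + 1) * (CA + 1) * (128 / ε') := by positivity
  have c2 : 0 ≤ 64 * (σ.N + 1) * (CB + 1) / ε' := by positivity
  have c3 : (m2 : ℝ) ≤ m := by exact_mod_cast hmm2
  have hma : 12 / σ.lam * (σ.N + 1) * (CA + 1) * (128 / ε') ≤ m := by linarith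
  have hmb : 64 * (σ.N + 1) * (CB + 1) / ε' ≤ m := by linarith
  clear c1 c2 c3 hm2
  obtain ⟨a1, a2, a3, a4⟩ := hay m hmm1
  have a5 := hlin m hmm3
  obtain ⟨n1, hn1⟩ := exists_nat_gt (2 * (m : ℝ) / δ + 12 / σ.lam * K * (128 / ε') + 64 * K / ε' +
    128 / (σ.lam * δ) * m * (Tc * s : ℝ) + (|Real.log (12 / σ.lam)| + 5 / pg) * m)
  refine ⟨n1, ?_⟩
  intro Ω _ P l t L h q W hh hne T U nB Y F hnB1 hnB2 hY S S2 V Pw M1 Gb Zw A gp ψ hM1 hlM1 hgp hall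
  have hhr : (n1 : ℝ) ≤ h := by exact_mod_cast hh
  have t1 : 0 < 2 * (m : ℝ) / δ := by positivity
  have t3 : 0 ≤ 12 / σ.lam * K * (128 / ε') := by positivity
  have t4 : 0 ≤ 64 * K / ε' := by positivity
  have t5 : 0 ≤ 128 / (σ.lam * δ) * m * (Tc * s : ℝ) := by positivity
  have t6 : 0 ≤ (|Real.log (12 / σ.lam)| + 5 / pg) * m := by positivity
  have u3 : 12 / σ.lam * K * (128 / ε') ≤ h := by linarith
  have u4 : 64 * K / ε' ≤ h := by linarith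
  have u5 : 128 / (σ.lam * δ) * m * (Tc * s : ℝ) ≤ h := by linarith
  have u6 : (|Real.log (12 / σ.lam)| + 5 / pg) * m ≤ h := by linarith
  have hpos : (0 : ℝ) < h := by linarith
  clear t1 t3 t4 t5 t6 hn1 hhr
  have g1 : δ * h / 2 ≤ (m : ℝ) * nB := by
    rw [hδe]
    linarith
  have g2 : 0 < nB := by
    rcases Nat.eq_zero_or_pos nB with h0 | h0
    · rw [h0, Nat.cast_zero, mul_zero] at g1
      have : 0 < δ * h / 2 := by positivity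
      linarith
    · exact h0
  have g3 : (h : ℝ) / m ≤ 2 / δ * nB := by
    rw [div_le_iff₀ hmr]
    have e1 : 2 / δ * nB * m = 2 / δ * (m * nB) := by ring
    rw [e1, div_mul_eq_mul_div, le_div_iff₀ hδ]
    linarith
  have hnB1' : (1 : ℝ) ≤ nB := by exact_mod_cast g2
  have hnBh : (nB : ℝ) ≤ h / m := by
    rw [le_div_iff₀ hmr]
    linarith
  have hM1pos : 0 < M1 := H565.img_card_pos P Pw hM1
  have hM1r : (0 : ℝ) < M1 := by exact_mod_cast hM1pos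
  have hpow : Real.log (6 * ((M1 : ℝ) * 2 ^ nB) / (σ.lam / 2)) = Real.log (12 / σ.lam) + Real.log M1 + nB * Real.log 2 := by
    have e1 : 6 * ((M1 : ℝ) * 2 ^ nB) / (σ.lam / 2) = 12 / σ.lam * M1 * 2 ^ nB := by
      field_simp
      ring
    rw [e1, Real.log_mul (by positivity) (by positivity), Real.log_mul (by positivity) (by positivity), Real.log_pow]
  have hlM1' : Real.log M1 ≤ CA * (2 / δ * nB) := by
    refine hlM1.trans ?_
    rw [mul_div_assoc]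
    exact mul_le_mul_of_nonneg_left g3 hCA.le
  obtain ⟨y, hy⟩ : ∃ y : ℝ, y = ε₁ * Real.log (ε₁ / ay σ.lam m) - 1 := ⟨_, rfl⟩
  have f1 : Real.log (6 * ((M1 : ℝ) * 2 ^ nB) / (σ.lam / 2)) + gp ≤
      σ.lam / 2 / 8 * nB * (ε₁ * Real.log (ε₁ / ay σ.lam m) - 1) := by
    rw [hpow, ← hy]
    rw [← hy] at a4 a5
    have b1 := s5_thr (y := y / 2) (x := Real.log (12 / σ.lam)) hlam hδ hnB1' hlM1' l2a.le rfl (by linarith)
    have b2 := H652.s6_gp (m := (m : ℝ)) (nB := (nB : ℝ)) (δ1 := δ) (gp := gp) (h := (h : ℝ)) hlam (by linarith) hε₁ g1 a5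
      (hgp.trans (le_of_eq (by rw [hδe]; ring)))
    have b3 : σ.lam / 2 / 8 * nB * y = σ.lam / 2 / 8 * nB * (y / 2) + σ.lam / 32 * nB * y := by ring
    rw [b3]
    linarith
  have f2 : ((Tc * s : ℕ) : ℝ) ≤ σ.lam / 2 / 16 * nB := by
    have e2 := s5_scale (u := (Tc * s : ℝ)) hlam hδ hmr u5 g1
    push_cast
    have : (0 : ℝ) ≤ Tc * s := by positivity
    linarith
  have f3 : 6 / (σ.lam / 2) * ((g.b' - g.β + d1 + d1) * h * Real.log 2 + (σ.N + 1) * (Real.log M1 + nB * Real.log 2) + K) ≤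
      ε' / 16 * h * Real.log 2 :=
    s5_d1 hlam hN1 hε0' hmr hpos l2b l2a (by linarith [hg.bε]) hd1c hlM1 hnBh (by linarith) hma u3
  have hHm : 96 / σ.lam * (CA * h / m) ≤ CB * h / m := by
    rw [hCB]
    exact le_of_eq (by ring)
  have f4' : 4 * ((g.b' - g.β + ε' / 16 + d1) * h * Real.log 2 + (σ.N + 1) * (96 / σ.lam * (CA * h / m)) + K) ≤
      ε' * h * Real.log 2 :=
    s5_d2 hlam hσ.bs.lam1 hN1 hε0' hmr hpos l2b (by linarith [hg.bε]) hd1c hHm hmb u4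
  have hc1 : ((({()} : Finset Unit).card : ℕ) : ℝ) = 1 := by simp
  have f4 : (((({()} : Finset Unit).card : ℕ) : ℝ) + 4) / pg * ((g.b' - g.β + ε' / 16 + d1) * h * Real.log 2 +
      (σ.N + 1) * (16 * (((({()} : Finset Unit).card : ℕ) : ℝ) + 2) / (σ.lam / 2) * (CA * h / m)) + K) ≤
      ε * h * Real.log 2 := by
    rw [hc1]
    have e1 : (16 * ((1 : ℝ) + 2) / (σ.lam / 2)) = 96 / σ.lam := by
      field_simp
      ring
    rw [e1, div_mul_eq_mul_div, div_le_iff₀ hpg]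
    have e2 : ε' * h * Real.log 2 = 4 / 5 * (ε * h * Real.log 2 * pg) := by rw [hε']; ring
    rw [e2] at f4'
    linarith
  have hHm0 : 0 < CA * h / m := by positivity
  obtain ⟨b0, kk, e1, E, e2, Q1, Q2, x1, x2, x3⟩ := hsel Ω Unit P l t (fun _ => ()) L h q W d1 hne S S2 T U V Unit Pw M1
    nB (2 ^ m) Y F (ay σ.lam m) (σ.lam / 2) ε₁ Gb Zw A pg gp (CA * h / m) s Tc {()} (fun _ => ψ)
    (fun _ => 1) hM1 g2 hTc (Nat.one_lt_two_pow hm0.ne') (ay_pos _ _) a1 (by positivity) (by linarith [hσ.bs.lam1]) a2 a3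
    hpg hpg1 hHm0 (fun _ _ => one_pos) hY f1 f2 (ε' / 16) ε
    (fun e1 E Q1 q1 r1 sp nx => by
      obtain ⟨z1, z2, z3, z4, z5, z6, z7⟩ := hall e1 E Q1 q1 r1 sp (H565.nex_mono (by linarith) nx)
      exact ⟨z1, z2, z3, z4, z5, fun _ _ => z6, fun _ _ => by rw [one_mul]; exact z7⟩) f3 f4
  refine ⟨g2, b0, kk, e1, E, e2, Q1, Q2, H565.nex_mono (by linarith) x1, x2, x3, ?_, ?_, ?_⟩
  · have h1 := x3.gcol2
    rw [hc1] at h1
    refine h1.trans (le_of_eq ?_)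
    ring
  · have h1 := x3.cost () (Finset.mem_singleton_self ())
    rw [hc1] at h1
    refine h1.trans (le_of_eq ?_)
    field_simp
    ring
  have y1 := x3.pos1
  have y2 := x3.pos2
  rw [Real.log_div one_ne_zero (mul_pos y1 y2).ne', Real.log_one, Real.log_mul y1.ne' y2.ne']
  have z1 := Real.log_le_log (by positivity) x3.p1
  have z2 := x3.p2
  have h2 : σ.lam / 2 / (6 * ((M1 : ℝ) * 2 ^ nB)) = (6 * ((M1 : ℝ) * 2 ^ nB) / (σ.lam / 2))⁻¹ := by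
    rw [inv_div]
  rw [h2, Real.log_inv, hpow] at z1
  rw [hc1] at z2
  have e3 : ((1 : ℝ) + 4) / pg * (16 * (1 + 2) / (σ.lam / 2) * (CA * h / m) + 1) =
      480 * CA / (σ.lam * pg) * h / m + 5 / pg := by
    field_simp
    ring
  rw [e3] at z2
  have z3 : (nB : ℝ) * Real.log 2 ≤ h / m := by
    have : (nB : ℝ) * Real.log 2 ≤ nB * 1 := mul_le_mul_of_nonneg_left l2a.le (by linarith)
    linarith
  have z4 : |Real.log (12 / σ.lam)| + 5 / pg ≤ h / m := by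
    rw [le_div_iff₀ hmr]
    exact u6
  have z5 : (CA + 2 + 480 * CA / (σ.lam * pg)) * h / m = CA * h / m + h / m + h / m + 480 * CA / (σ.lam * pg) * h / m := by
    ring
  rw [z5]
  linarith [le_abs_self (Real.log (12 / σ.lam))]

end Vale.Agent.P106.U
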