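import Vale.Agent.P106.U.H339.WordH
import Vale.Agent.P106.U.H428.Cls
import Vale.Agent.P106.U.H565.Sel5

/-!
# P106 / U / H480 : the words of the closures, literal hypotheses of helper652's `sel6` (helper480)

Classes of helper428 (`Dt`, data of the curvature), closures of helper465 (`Gb`, `Rd`), joint words of helper339 (`jws`).

* `rtw` : revealed depth (second path `RT`) at the base `b`, level `a ≤ n`, in the form of `H339W.Wd`.
* `wd_cls` : `H339W.Wd`.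
* `rtw_fn`, `jws_dtm` : the joint word `(w (b0 + j s))_(j ≤ kk)`, with an extra bit, is a function of the closure `Gb (b0 + kk s)`.
* `wordN` : the average entropy of the words is at most `CA h / m`, `CA` depends on the margin `s` and on `RI n ≤ KR h / m`.
-/

set_option autoImplicit false

namespace Vale.Agent.P106.U.G480

open Finset Vale.Agent.P127 Vale.Agent.P127.Stk Vale.Agent.P127.U
open Vale.Agent.P106.U.H565 (Dtm)
open Vale.Agent.P106.U.H339W Vale.Agent.P106.U.H428.Cls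

section word

variable {Ω : Type} (d : Dt Ω)

/-- the first path, in the form of `Wd` -/
def rix (n a : ℕ) : ℕ := d.RI a + (n - a)

variable [Fintype Ω]

/-- the second path at the base `b`, in the form of `Wd` -/
noncomputable def rtw {T : Type*} (c : ℝ) (Q : Law Ω) (Y : ℕ → Ω → T) (n b : ℕ) (ω : Ω) (a : ℕ) : ℕ :=
  d.RT ((d.clD c).Rd Q Y b ω) a + (n - a)

variable {d} {c : ℝ} {Q : Law Ω} {T : Type*} {Y : ℕ → Ω → T} {n : ℕ}

/-- **the second paths are revealed depths in the sense of `[WORDH]`** -/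
theorem wd_cls (hs : d.Su Q) (hc : 0 ≤ c) (hn : n ≤ d.N) (B : ℕ) :
    Wd Q n B d.s (rix d n) (rtw d c Q Y n) where
  le b _ ω _ a _ := by
    unfold rtw rix
    have := Dt.RT_le' (d := d) ((d.clD c).Rd Q Y b ω) a
    omega
  desc a ha := by
    unfold rix
    have h1 : d.RI a ≤ d.RI (a + 1) := d.hRI (Nat.le_succ a)
    omega
  lag b _ ω _ a ha h := by
    unfold rtw rix at *
    have h1 := (Dt.kw_gb hs hc Y b).RT_eq (ω := ω) (a := a) (by omega) (by omega)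
    rw [h1]
    omega
  mono b _ ω _ a _ := by
    unfold rtw
    have := Dt.gb_RT_mono (d := d) (c := c) (P := Q) Y (Nat.le_succ b) ω a
    simp only [Nat.succ_eq_add_one] at this
    omega

/-- the revealed set is a function of the closure of every later base -/
theorem rd_fn {b b' : ℕ} (hb : b ≤ b') {ω ω' : Ω} (h : (d.clD c).Gb Q Y b' ω = (d.clD c).Gb Q Y b' ω') :
    (d.clD c).Rd Q Y b ω = (d.clD c).Rd Q Y b ω' := by
  funext x
  exact propext (H465.Clo.Dat.rd_congr (H465.Clo.Dat.gb_nest' hb h))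

theorem rtw_fn {b b' : ℕ} (hb : b ≤ b') {ω ω' : Ω} (h : (d.clD c).Gb Q Y b' ω = (d.clD c).Gb Q Y b' ω') (a : ℕ) :
    rtw d c Q Y n b ω a = rtw d c Q Y n b ω' a := by
  unfold rtw
  rw [rd_fn hb h]

/-- **the joint word is a function of the last closure** -/
theorem jws_cls {s b0 kk : ℕ} {ω ω' : Ω}
    (h : (d.clD c).Gb Q Y (b0 + kk * s) ω = (d.clD c).Gb Q Y (b0 + kk * s) ω') :
    jws n s (rtw d c Q Y n) b0 kk ω = jws n s (rtw d c Q Y n) b0 kk ω' :=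
  jws_fn fun _ hk a _ => rtw_fn (Nat.add_le_add_left (Nat.mul_le_mul_right s hk) b0) h a

/-- the same with a further letter which is a function of the closure -/
theorem jws_dtm {β : Type} {s b0 kk : ℕ} {bt : Ω → β} (hbt : Dtm Q ((d.clD c).Gb Q Y (b0 + kk * s)) bt) :
    Dtm Q ((d.clD c).Gb Q Y (b0 + kk * s)) (fun ω => (bt ω, jws n s (rtw d c Q Y n) b0 kk ω)) :=
  fun ω ω' h h' e => Prod.ext (hbt ω ω' h h' e) (jws_cls e)

/-- one more bit -/
theorem H_bit {S : Type} (Q : Law Ω) (bt : Ω → Bool) (Z : Ω → S) : Q.H (fun ω => (bt ω, Z ω)) ≤ Real.log 2 + Q.H Z := by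
  have h1 : Stk.hc Q bt Z ≤ Real.log (2 : ℕ) :=
    Stk.hc_le_log Q bt Z 2 fun ω _ => ⟨Finset.univ, by simp, fun ω' _ _ => Finset.mem_univ _⟩
  have h2 : Stk.hc Q bt Z = Q.H (fun ω => (bt ω, Z ω)) - Q.H Z := rfl
  push_cast at h1
  linarith

/-- **the bits of the caps `j ≤ kk`** -/
def bts (bt : ℕ → Ω → Bool) (kk : ℕ) (ω : Ω) (j : ℕ) : Bool := if j ≤ kk then bt j ω else false

/-- price of the bits -/
theorem H_bits {S : Type} (Q : Law Ω) (bt : ℕ → Ω → Bool) (kk : ℕ) (Z : Ω → S) :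
    Q.H (fun ω => (bts bt kk ω, Z ω)) ≤ (kk + 1) * Real.log 2 + Q.H Z := by
  classical
  have h1 : Stk.hc Q (bts bt kk) Z ≤ Real.log ((2 ^ (kk + 1) : ℕ) : ℝ) := by
    refine Stk.hc_le_log Q (bts bt kk) Z (2 ^ (kk + 1)) fun ω _ => ⟨Finset.univ.image (fun g : Fin (kk + 1) → Bool =>
      fun j => if h : j < kk + 1 then g ⟨j, h⟩ else false), ?_, fun ω' _ _ => ?_⟩
    · refine Finset.card_image_le.trans (le_of_eq ?_)
      simp
    · refine Finset.mem_image.2 ⟨fun i => bt i ω', Finset.mem_univ _, ?_⟩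
      funext j
      unfold bts
      by_cases hj : j ≤ kk
      · rw [if_pos hj, dif_pos (Nat.lt_succ_of_le hj)]
      · rw [if_neg hj, dif_neg (by omega)]
  have h2 : Stk.hc Q (bts bt kk) Z = Q.H (fun ω => (bts bt kk ω, Z ω)) - Q.H Z := rfl
  push_cast at h1
  rw [Real.log_pow] at h1
  push_cast at h1
  linarith

end word

/-- `log (1 + y) ≤ ε y + C` -/
theorem log_lin {ε : ℝ} (hε : 0 < ε) {y : ℝ} (hy : 0 ≤ y) : Real.log (y + 1) ≤ ε * y + (ε + |Real.log ε|) := by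
  have h1 : Real.log (ε * (y + 1)) ≤ ε * (y + 1) - 1 := Real.log_le_sub_one_of_pos (by positivity)
  rw [Real.log_mul hε.ne' (by positivity)] at h1
  have h2 := neg_abs_le (Real.log ε)
  linarith

/-- **the words have average entropy `≤ CA h / m`** -/
theorem wordN (s : ℕ) {KR : ℝ} (hKR : 0 ≤ KR) : ∃ CA : ℝ, 0 < CA ∧ ∀ (δ1 : ℝ) (m Tc sp : ℕ), 0 < δ1 → 0 < m → 0 < Tc → 1 ≤ sp →
    ∃ h0 : ℕ, ∀ h : ℕ, h0 ≤ h → Tc * sp ≤ nBl δ1 h m ∧
      ∀ (Ω : Type) [Fintype Ω] (Q : Law Ω) (d : Dt Ω) (c : ℝ) (T : Type) (Y : ℕ → Ω → T) (n : ℕ) (bt : ℕ → ℕ → Ω → Bool),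
        d.s = s → d.Su Q → 0 ≤ c → n ≤ d.N → m * n ≤ h → (m : ℝ) * d.RI n ≤ KR * h →
        ∑ b0 ∈ range (nBl δ1 h m + 1 - Tc * sp), ∑ kk ∈ range Tc,
          Q.H (fun ω => (bt b0 kk ω, jws n sp (rtw d c Q Y n) b0 kk ω)) ≤ CA * h / m * (nBl δ1 h m * Tc) := by
  obtain ⟨C₀, hC₀, H⟩ := wordH s
  refine ⟨(C₀ + 1) * (1 + KR) + 3, by positivity, ?_⟩
  intro δ1 m Tc sp hδ hm hTc hsp
  obtain ⟨D0, C, hC, hH⟩ := H Tc 1 one_pos
  have hmr : (0 : ℝ) < m := by exact_mod_cast hm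
  have hTr : (0 : ℝ) < Tc := by exact_mod_cast hTc
  -- constants
  obtain ⟨ε, hε⟩ : ∃ ε : ℝ, ε = 1 / ((Tc + 1) * (KR + 1)) := ⟨_, rfl⟩
  have hε0 : 0 < ε := by rw [hε]; positivity
  obtain ⟨E1, hE1⟩ : ∃ E1 : ℝ, E1 = (Tc + 1) * (ε + |Real.log ε|) + Real.log 2 + C * Tc * (sp * D0) * (2 / δ1) := ⟨_, rfl⟩
  have hE10 : 0 ≤ E1 := by
    have : 0 ≤ Real.log 2 := Real.log_nonneg (by norm_num)
    rw [hE1]
    positivity
  obtain ⟨h1, hh1⟩ := exists_nat_ge (2 * (m : ℝ) / δ1 + 2 * (m * (Tc * sp)) / δ1 + m * E1)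
  refine ⟨h1, fun h hh => ?_⟩
  have hhr : (h1 : ℝ) ≤ h := by exact_mod_cast hh
  have p1 : 0 ≤ 2 * (m : ℝ) / δ1 := by positivity
  have p2 : 0 ≤ 2 * ((m : ℝ) * (Tc * sp)) / δ1 := by positivity
  have p3 : 0 ≤ (m : ℝ) * E1 := by positivity
  obtain ⟨b1, b2, b3⟩ := le_nBl hδ hm (h := h) (by linarith)
  have b4 : Tc * sp ≤ nBl δ1 h m := by
    have e1 : 2 * ((m : ℝ) * (Tc * sp)) / δ1 ≤ h := by linarith
    rw [div_le_iff₀ hδ] at e1
    have e2 : (m : ℝ) * (Tc * sp) ≤ m * nBl δ1 h m := by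
      push_cast at b1
      nlinarith
    have e3 := le_of_mul_le_mul_left e2 hmr
    exact_mod_cast e3
  refine ⟨b4, ?_⟩
  intro Ω _ Q d c T Y n bt hs hsu hc hn hmn hRI
  subst hs
  have hBr : (0 : ℝ) < nBl δ1 h m := by exact_mod_cast b2
  have h2 := hH Q n (nBl δ1 h m) sp (rix d n) (rtw d c Q Y n) (wd_cls hsu hc hn _) b2 hsp b4
  -- the extra bit
  have h3 : ∑ b0 ∈ range (nBl δ1 h m + 1 - Tc * sp), ∑ kk ∈ range Tc,
      Q.H (fun ω => (bt b0 kk ω, jws n sp (rtw d c Q Y n) b0 kk ω)) ≤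
      ∑ b0 ∈ range (nBl δ1 h m + 1 - Tc * sp), ∑ kk ∈ range Tc, (Real.log 2 + Q.H (jws n sp (rtw d c Q Y n) b0 kk)) :=
    Finset.sum_le_sum fun b0 _ => Finset.sum_le_sum fun kk _ => H_bit Q _ _
  simp only [Finset.sum_add_distrib, Finset.sum_const, card_range, nsmul_eq_mul] at h3
  have h4 : ((nBl δ1 h m + 1 - Tc * sp : ℕ) : ℝ) ≤ nBl δ1 h m := by
    have : nBl δ1 h m + 1 - Tc * sp ≤ nBl δ1 h m := by
      have : 0 < Tc * sp := Nat.mul_pos hTc hsp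
      omega
    exact_mod_cast this
  have l2 : 0 ≤ Real.log 2 := Real.log_nonneg (by norm_num)
  have h5 : ((nBl δ1 h m + 1 - Tc * sp : ℕ) : ℝ) * (Tc * Real.log 2) ≤ nBl δ1 h m * (Tc * Real.log 2) :=
    mul_le_mul_of_nonneg_right h4 (by positivity)
  -- sizes
  have n1 : (n : ℝ) ≤ h / m := by
    rw [le_div_iff₀ hmr]
    have : ((m * n : ℕ) : ℝ) ≤ h := by exact_mod_cast hmn
    push_cast at this
    linarith
  have n2 : ((rix d n n : ℕ) : ℝ) ≤ KR * (h / m) := by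
    have e : rix d n n = d.RI n := by unfold rix; omega
    rw [e, ← mul_div_assoc, le_div_iff₀ hmr]
    linarith
  have n3 : ((rix d n 0 : ℕ) : ℝ) ≤ (KR + 1) * (h / m) := by
    have e : rix d n 0 ≤ d.RI n + n := by
      unfold rix
      have := d.hRI (Nat.zero_le n)
      omega
    have e2 : ((rix d n 0 : ℕ) : ℝ) ≤ (d.RI n : ℝ) + n := by exact_mod_cast e
    have e3 : (d.RI n : ℝ) ≤ KR * (h / m) := by
      rw [← mul_div_assoc, le_div_iff₀ hmr]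
      linarith
    linarith
  have hx0 : (0 : ℝ) ≤ (h : ℝ) / m := by positivity
  have t1 : (Tc + 1) * Real.log ((rix d n 0 : ℝ) + 1) ≤ h / m + (Tc + 1) * (ε + |Real.log ε|) := by
    have e1 := log_lin hε0 (y := (rix d n 0 : ℝ)) (Nat.cast_nonneg _)
    have e2 : ε * (rix d n 0 : ℝ) ≤ ε * ((KR + 1) * (h / m)) := mul_le_mul_of_nonneg_left n3 hε0.le
    have e3 : (Tc + 1 : ℝ) * (ε * ((KR + 1) * (h / m))) = h / m := by
      rw [hε]
      field_simp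
    have e4 : (Tc + 1 : ℝ) * Real.log ((rix d n 0 : ℝ) + 1) ≤ (Tc + 1) * (ε * ((KR + 1) * (h / m)) + (ε + |Real.log ε|)) :=
      mul_le_mul_of_nonneg_left (by linarith) (by positivity)
    linarith
  have t2 : (C₀ + 1) * ((n : ℝ) + rix d n n) ≤ (C₀ + 1) * (1 + KR) * (h / m) := by
    have : (n : ℝ) + rix d n n ≤ (1 + KR) * (h / m) := by linarith
    calc (C₀ + 1) * ((n : ℝ) + rix d n n) ≤ (C₀ + 1) * ((1 + KR) * (h / m)) :=
          mul_le_mul_of_nonneg_left this (by positivity)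
      _ = _ := by ring
  have t3 : C * Tc * (n * (sp * D0)) / nBl δ1 h m ≤ C * Tc * (sp * D0) * (2 / δ1) := by
    rw [div_le_iff₀ hBr]
    have e1 : (n : ℝ) ≤ 2 / δ1 * nBl δ1 h m := n1.trans b3
    have e2 : C * Tc * (sp * D0) * (n : ℝ) ≤ C * Tc * (sp * D0) * (2 / δ1 * nBl δ1 h m) :=
      mul_le_mul_of_nonneg_left e1 (by positivity)
    linarith
  have t4 : E1 ≤ h / m := by
    rw [le_div_iff₀ hmr]
    linarith
  have t5 : Real.log 2 + ((Tc + 1) * Real.log ((rix d n 0 : ℝ) + 1) + (C₀ + 1) * ((n : ℝ) + rix d n n) +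
      C * Tc * (n * (sp * D0)) / nBl δ1 h m) ≤ ((C₀ + 1) * (1 + KR) + 3) * h / m := by
    have e : ((C₀ + 1) * (1 + KR) + 3) * h / m = (C₀ + 1) * (1 + KR) * (h / m) + 3 * (h / m) := by ring
    rw [e]
    rw [hE1] at t4
    linarith
  have t6 := mul_le_mul_of_nonneg_right t5 (by positivity : (0 : ℝ) ≤ nBl δ1 h m * Tc)
  linarith

/-- **the words with all bits have average entropy `≤ CA h / m`** -/
theorem wordB (s : ℕ) {KR : ℝ} (hKR : 0 ≤ KR) : ∃ CA : ℝ, 0 < CA ∧ ∀ (δ1 : ℝ) (m Tc sp : ℕ), 0 < δ1 → 0 < m → 0 < Tc → 1 ≤ sp →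
    ∃ h0 : ℕ, ∀ h : ℕ, h0 ≤ h → Tc * sp ≤ nBl δ1 h m ∧
      ∀ (Ω : Type) [Fintype Ω] (Q : Law Ω) (d : Dt Ω) (c : ℝ) (T : Type) (Y : ℕ → Ω → T) (n : ℕ) (bt : ℕ → ℕ → Ω → Bool),
        d.s = s → d.Su Q → 0 ≤ c → n ≤ d.N → m * n ≤ h → (m : ℝ) * d.RI n ≤ KR * h →
        ∑ b0 ∈ range (nBl δ1 h m + 1 - Tc * sp), ∑ kk ∈ range Tc,
          Q.H (fun ω => (bts (bt b0) kk ω, jws n sp (rtw d c Q Y n) b0 kk ω)) ≤ CA * h / m * (nBl δ1 h m * Tc) := by
  obtain ⟨C₀, hC₀, H⟩ := wordH s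
  refine ⟨(C₀ + 1) * (1 + KR) + 3, by positivity, ?_⟩
  intro δ1 m Tc sp hδ hm hTc hsp
  obtain ⟨D0, C, hC, hH⟩ := H Tc 1 one_pos
  have hmr : (0 : ℝ) < m := by exact_mod_cast hm
  have hTr : (0 : ℝ) < Tc := by exact_mod_cast hTc
  -- constants
  obtain ⟨ε, hε⟩ : ∃ ε : ℝ, ε = 1 / ((Tc + 1) * (KR + 1)) := ⟨_, rfl⟩
  have hε0 : 0 < ε := by rw [hε]; positivity
  obtain ⟨E1, hE1⟩ : ∃ E1 : ℝ, E1 = (Tc + 1) * (ε + |Real.log ε|) + Tc * Real.log 2 + C * Tc * (sp * D0) * (2 / δ1) := ⟨_, rfl⟩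
  have hE10 : 0 ≤ E1 := by
    have : 0 ≤ Real.log 2 := Real.log_nonneg (by norm_num)
    rw [hE1]
    positivity
  obtain ⟨h1, hh1⟩ := exists_nat_ge (2 * (m : ℝ) / δ1 + 2 * (m * (Tc * sp)) / δ1 + m * E1)
  refine ⟨h1, fun h hh => ?_⟩
  have hhr : (h1 : ℝ) ≤ h := by exact_mod_cast hh
  have p1 : 0 ≤ 2 * (m : ℝ) / δ1 := by positivity
  have p2 : 0 ≤ 2 * ((m : ℝ) * (Tc * sp)) / δ1 := by positivity
  have p3 : 0 ≤ (m : ℝ) * E1 := by positivity
  obtain ⟨b1, b2, b3⟩ := le_nBl hδ hm (h := h) (by linarith)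
  have b4 : Tc * sp ≤ nBl δ1 h m := by
    have e1 : 2 * ((m : ℝ) * (Tc * sp)) / δ1 ≤ h := by linarith
    rw [div_le_iff₀ hδ] at e1
    have e2 : (m : ℝ) * (Tc * sp) ≤ m * nBl δ1 h m := by
      push_cast at b1
      nlinarith
    have e3 := le_of_mul_le_mul_left e2 hmr
    exact_mod_cast e3
  refine ⟨b4, ?_⟩
  intro Ω _ Q d c T Y n bt hs hsu hc hn hmn hRI
  subst hs
  have hBr : (0 : ℝ) < nBl δ1 h m := by exact_mod_cast b2
  have h2 := hH Q n (nBl δ1 h m) sp (rix d n) (rtw d c Q Y n) (wd_cls hsu hc hn _) b2 hsp b4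
  -- the extra bit
  have h3 : ∑ b0 ∈ range (nBl δ1 h m + 1 - Tc * sp), ∑ kk ∈ range Tc,
      Q.H (fun ω => (bts (bt b0) kk ω, jws n sp (rtw d c Q Y n) b0 kk ω)) ≤
      ∑ b0 ∈ range (nBl δ1 h m + 1 - Tc * sp), ∑ kk ∈ range Tc, (Tc * Real.log 2 + Q.H (jws n sp (rtw d c Q Y n) b0 kk)) := by
    refine Finset.sum_le_sum fun b0 _ => Finset.sum_le_sum fun kk hkk => (H_bits Q (bt b0) kk _).trans ?_
    have e1 : ((kk : ℝ) + 1) ≤ Tc := by exact_mod_cast Finset.mem_range.1 hkk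
    have e2 := mul_le_mul_of_nonneg_right e1 (Real.log_nonneg one_le_two)
    linarith
  simp only [Finset.sum_add_distrib, Finset.sum_const, card_range, nsmul_eq_mul] at h3
  have h4 : ((nBl δ1 h m + 1 - Tc * sp : ℕ) : ℝ) ≤ nBl δ1 h m := by
    have : nBl δ1 h m + 1 - Tc * sp ≤ nBl δ1 h m := by
      have : 0 < Tc * sp := Nat.mul_pos hTc hsp
      omega
    exact_mod_cast this
  have l2 : 0 ≤ Real.log 2 := Real.log_nonneg (by norm_num)
  have h5 : ((nBl δ1 h m + 1 - Tc * sp : ℕ) : ℝ) * (Tc * (Tc * Real.log 2)) ≤ nBl δ1 h m * (Tc * (Tc * Real.log 2)) :=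
    mul_le_mul_of_nonneg_right h4 (by positivity)
  -- sizes
  have n1 : (n : ℝ) ≤ h / m := by
    rw [le_div_iff₀ hmr]
    have : ((m * n : ℕ) : ℝ) ≤ h := by exact_mod_cast hmn
    push_cast at this
    linarith
  have n2 : ((rix d n n : ℕ) : ℝ) ≤ KR * (h / m) := by
    have e : rix d n n = d.RI n := by unfold rix; omega
    rw [e, ← mul_div_assoc, le_div_iff₀ hmr]
    linarith
  have n3 : ((rix d n 0 : ℕ) : ℝ) ≤ (KR + 1) * (h / m) := by
    have e : rix d n 0 ≤ d.RI n + n := by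
      unfold rix
      have := d.hRI (Nat.zero_le n)
      omega
    have e2 : ((rix d n 0 : ℕ) : ℝ) ≤ (d.RI n : ℝ) + n := by exact_mod_cast e
    have e3 : (d.RI n : ℝ) ≤ KR * (h / m) := by
      rw [← mul_div_assoc, le_div_iff₀ hmr]
      linarith
    linarith
  have hx0 : (0 : ℝ) ≤ (h : ℝ) / m := by positivity
  have t1 : (Tc + 1) * Real.log ((rix d n 0 : ℝ) + 1) ≤ h / m + (Tc + 1) * (ε + |Real.log ε|) := by
    have e1 := log_lin hε0 (y := (rix d n 0 : ℝ)) (Nat.cast_nonneg _)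
    have e2 : ε * (rix d n 0 : ℝ) ≤ ε * ((KR + 1) * (h / m)) := mul_le_mul_of_nonneg_left n3 hε0.le
    have e3 : (Tc + 1 : ℝ) * (ε * ((KR + 1) * (h / m))) = h / m := by
      rw [hε]
      field_simp
    have e4 : (Tc + 1 : ℝ) * Real.log ((rix d n 0 : ℝ) + 1) ≤ (Tc + 1) * (ε * ((KR + 1) * (h / m)) + (ε + |Real.log ε|)) :=
      mul_le_mul_of_nonneg_left (by linarith) (by positivity)
    linarith
  have t2 : (C₀ + 1) * ((n : ℝ) + rix d n n) ≤ (C₀ + 1) * (1 + KR) * (h / m) := by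
    have : (n : ℝ) + rix d n n ≤ (1 + KR) * (h / m) := by linarith
    calc (C₀ + 1) * ((n : ℝ) + rix d n n) ≤ (C₀ + 1) * ((1 + KR) * (h / m)) :=
          mul_le_mul_of_nonneg_left this (by positivity)
      _ = _ := by ring
  have t3 : C * Tc * (n * (sp * D0)) / nBl δ1 h m ≤ C * Tc * (sp * D0) * (2 / δ1) := by
    rw [div_le_iff₀ hBr]
    have e1 : (n : ℝ) ≤ 2 / δ1 * nBl δ1 h m := n1.trans b3
    have e2 : C * Tc * (sp * D0) * (n : ℝ) ≤ C * Tc * (sp * D0) * (2 / δ1 * nBl δ1 h m) :=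
      mul_le_mul_of_nonneg_left e1 (by positivity)
    linarith
  have t4 : E1 ≤ h / m := by
    rw [le_div_iff₀ hmr]
    linarith
  have t5 : Tc * Real.log 2 + ((Tc + 1) * Real.log ((rix d n 0 : ℝ) + 1) + (C₀ + 1) * ((n : ℝ) + rix d n n) +
      C * Tc * (n * (sp * D0)) / nBl δ1 h m) ≤ ((C₀ + 1) * (1 + KR) + 3) * h / m := by
    have e : ((C₀ + 1) * (1 + KR) + 3) * h / m = (C₀ + 1) * (1 + KR) * (h / m) + 3 * (h / m) := by ring
    rw [e]
    rw [hE1] at t4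
    linarith
  have t6 := mul_le_mul_of_nonneg_right t5 (by positivity : (0 : ℝ) ≤ nBl δ1 h m * Tc)
  linarith


end Vale.Agent.P106.U.G480
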